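import Vale.Agent.P033.Count

/-!
Assembly: the possible `u` have density zero.
-/

namespace Vale.Agent.P033

open Finset

/-- The number of prime factors up to `z`. -/
def smallCount (z u : ℕ) : ℕ := (((Finset.Icc 1 z).filter Nat.Prime).filter (· ∣ u)).card

/-- If `q ∣ u` and `4 u ^ 2` is an order, one of six rare events occurs. -/
lemma rare_event {u q x z T K : ℕ} (hu0 : u ≠ 0) (hux : u ≤ x) (hq : q.Prime) (hq2 : q ≠ 2)
    (hqu : q ∣ u) (hH : HasCHM (4 * u ^ 2)) (hz : 2 ≤ z) (hω : 4 * x ^ 2 < 2 ^ (q - 1))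
    (hT : (4 * z ^ 2) ^ ((K + 1) * 2 ^ (K + 2)) ≤ T) :
    q * q ∣ u
      ∨ (∃ r ∈ (Finset.Icc 1 x).filter (fun r => r.Prime ∧ q ∣ r - 1), q * r ∣ u)
      ∨ (∃ p ∈ (Finset.Icc 1 x).filter (fun p => p.Prime ∧ z < p ∧ p ^ (q - 1) % q ^ 2 = 1),
          q * p ∣ u)
      ∨ (∃ p ∈ (Finset.Icc 2 z).filter Nat.Prime, p ^ (Nat.log p z + 1) ∣ u)
      ∨ K < smallCount z u
      ∨ ∃ p : ℕ, p.Prime ∧ p ≤ z ∧ orderOf (p : ZMod q) ≤ T := by
  by_contra hcon
  simp only [not_or, not_exists, not_and, not_lt, not_le] at hcon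
  obtain ⟨c1, c2, c3, c4, c5, c6⟩ := hcon
  set n := 4 * u ^ 2 with hn
  haveI : NeZero n := ⟨by positivity⟩
  obtain ⟨h, hh⟩ := hH.isCH
  have hle : ∀ {m : ℕ}, m ∣ u → m ≤ x := fun hm =>
    (Nat.le_of_dvd (Nat.pos_of_ne_zero hu0) hm).trans hux
  have hmem : ∀ p ∈ n.primeFactors, p = 2 ∨ p ∣ u := by
    intro p hp
    have hpp := Nat.prime_of_mem_primeFactors hp
    rcases hpp.dvd_mul.1 (Nat.dvd_of_mem_primeFactors hp) with h | h
    · exact Or.inl ((Nat.prime_dvd_prime_iff_eq hpp Nat.prime_two).1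
        (hpp.dvd_of_dvd_pow (n := 2) h))
    · exact Or.inr (hpp.dvd_of_dvd_pow h)
  refine not_isCH_of_local hn hq hq2 hqu (by rw [sq]; exact c1) ?_ ?_ ?_ h hh
  · intro r hr hru hd
    have hne : r ≠ q := by
      rintro rfl
      have := Nat.le_of_dvd (by have := hr.two_le; omega) hd
      have := hr.two_le; omega
    refine c2 r ?_ (((Nat.coprime_primes hq hr).2 hne.symm).mul_dvd_of_dvd_of_dvd hqu hru)
    exact Finset.mem_filter.2 ⟨Finset.mem_Icc.2 ⟨hr.one_lt.le, hle hru⟩, hr, hd⟩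
  · have h1 : 2 ^ n.primeFactors.card < 2 ^ (q - 1) := by
      refine lt_of_le_of_lt ?_ hω
      calc 2 ^ n.primeFactors.card ≤ ∏ p ∈ n.primeFactors, p :=
            Finset.pow_card_le_prod _ _ _ fun p hp => (Nat.prime_of_mem_primeFactors hp).two_le
        _ ≤ n := Nat.le_of_dvd (NeZero.pos n) (Nat.prod_primeFactors_dvd n)
        _ ≤ 4 * x ^ 2 := by rw [hn]; gcongr
    have := (Nat.pow_lt_pow_iff_right (by norm_num : 1 < 2)).1 h1
    omega
  · intro p hp hw
    set W := n.primeFactors.filter fun p => p ^ (q - 1) % q ^ 2 = 1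
    have hWz : ∀ r ∈ W, r.Prime ∧ r ≤ z ∧ (r = 2 ∨ r ∣ u) := by
      intro r hr
      obtain ⟨h1, h2⟩ := Finset.mem_filter.1 hr
      have hrp := Nat.prime_of_mem_primeFactors h1
      refine ⟨hrp, ?_, hmem r h1⟩
      rcases hmem r h1 with h | h
      · omega
      · by_contra hlt
        have hne : r ≠ q := by
          rintro rfl
          have h2r := hrp.two_le
          have : r ^ 2 ∣ r ^ (r - 1) := pow_dvd_pow r (by omega)
          rw [Nat.mod_eq_zero_of_dvd this] at h2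
          exact zero_ne_one h2
        refine c3 r ?_ (((Nat.coprime_primes hq hrp).2 hne.symm).mul_dvd_of_dvd_of_dvd hqu h)
        exact Finset.mem_filter.2
          ⟨Finset.mem_Icc.2 ⟨hrp.one_lt.le, hle h⟩, hrp, by omega, h2⟩
    have hWc : W.card ≤ K + 1 := by
      have hsub : W ⊆ insert 2 (((Finset.Icc 1 z).filter Nat.Prime).filter (· ∣ u)) := by
        intro r hr
        obtain ⟨h1, h2, h3⟩ := hWz r hr
        rcases h3 with h3 | h3
        · exact Finset.mem_insert.2 (Or.inl h3)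
        · exact Finset.mem_insert_of_mem (Finset.mem_filter.2
            ⟨Finset.mem_filter.2 ⟨Finset.mem_Icc.2 ⟨h1.one_lt.le, h2⟩, h1⟩, h3⟩)
      calc W.card ≤ _ := Finset.card_le_card hsub
        _ ≤ smallCount z u + 1 := Finset.card_insert_le _ _
        _ ≤ _ := by omega
    have hterm : ∀ r ∈ W, r ^ n.factorization r ≤ 4 * z ^ 2 := by
      intro r hr
      obtain ⟨h1, h2, -⟩ := hWz r hr
      have hv : r ^ u.factorization r ≤ z := by
        by_contra hlt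
        refine c4 r (Finset.mem_filter.2 ⟨Finset.mem_Icc.2 ⟨h1.two_le, h2⟩, h1⟩) ?_
        refine dvd_trans (pow_dvd_pow r ?_) (Nat.ordProj_dvd u r)
        have := Nat.log_lt_of_lt_pow (b := r) (by omega) (lt_of_not_ge hlt)
        omega
      rw [hn, Nat.factorization_mul (by norm_num) (pow_ne_zero _ hu0), Nat.factorization_pow,
        Finsupp.add_apply, Finsupp.smul_apply, smul_eq_mul, pow_add, mul_comm 2 (u.factorization r),
        pow_mul]
      exact Nat.mul_le_mul (Nat.le_of_dvd (by norm_num) (Nat.ordProj_dvd 4 r))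
        (Nat.pow_le_pow_left hv 2)
    calc (∏ r ∈ W, r ^ n.factorization r) ^ 2 ^ (W.card + 1)
        ≤ ((4 * z ^ 2) ^ W.card) ^ 2 ^ (W.card + 1) :=
          Nat.pow_le_pow_left (Finset.prod_le_pow_card _ _ _ hterm) _
      _ = (4 * z ^ 2) ^ (W.card * 2 ^ (W.card + 1)) := by rw [← pow_mul]
      _ ≤ (4 * z ^ 2) ^ ((K + 1) * 2 ^ (K + 2)) := by
          refine Nat.pow_le_pow_right (by positivity) (Nat.mul_le_mul hWc ?_)
          exact Nat.pow_le_pow_right (by norm_num) (by omega)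
      _ ≤ T := hT
      _ < _ := c6 p (Nat.prime_of_mem_primeFactors hp)
          (hWz p (Finset.mem_filter.2 ⟨hp, hw⟩)).2.1

/-- For one non-exceptional `q`, few multiples of `q` give orders. -/
lemma per_prime {q x ℓ lam E w z T K : ℕ} (hq : q.Prime) (hqx : q ≤ x) (hxl : x < 2 ^ (ℓ + 1))
    (hlam : ℓ < 2 ^ (lam + 1)) (hE1 : 1 ≤ E) (hEq : 2 ^ E < q)
    (hw : w = 2 ^ (8 * (lam + 1))) (hz : z = 2 ^ (16 * (lam + 1))) (hzq : z < q)
    (hω : 4 * x ^ 2 < 2 ^ (q - 1)) (hT : (4 * z ^ 2) ^ ((K + 1) * 2 ^ (K + 2)) ≤ T) (hK : 1 ≤ K)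
    (hne : ¬ ∃ p : ℕ, p.Prime ∧ p ≤ z ∧ orderOf (p : ZMod q) ≤ T)
    (A : Finset ℕ) (hA : ∀ u ∈ A, 1 ≤ u ∧ u ≤ x ∧ q ∣ u ∧ HasCHM (4 * u ^ 2)) :
    (A.card : ℝ) ≤ (x : ℝ) / q * ((1 : ℝ) / q + (ℓ + 2 : ℝ) / q
      + (1 / (ℓ + 1 : ℝ) + (ℓ + 2 : ℝ) / q + 4 * (lam + 3 : ℝ) / E + 32 / ((2 : ℝ) ^ (lam + 1)) ^ 2)
      + 2 / (w : ℝ) + 4 * (1 + Real.log (16 * (lam + 1) + 1 : ℕ)) / K) := by
  classical
  have hz2 : 2 ≤ z := by rw [hz]; exact Nat.le_self_pow (by omega) 2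
  have hq2 : q ≠ 2 := by omega
  have hxq : (0 : ℝ) ≤ (x : ℝ) / q := div_nonneg (Nat.cast_nonneg x) (Nat.cast_nonneg q)
  have hlogx := log_nat_le hxl
  set U := Finset.Icc 1 x
  set R := U.filter (fun r => r.Prime ∧ q ∣ r - 1)
  set S := U.filter (fun p => p.Prime ∧ z < p ∧ p ^ (q - 1) % q ^ 2 = 1)
  set P := (Finset.Icc 2 z).filter Nat.Prime
  set A1 := U.filter (fun u => q * q ∣ u)
  set A2 := U.filter (fun u => ∃ r ∈ R, q * r ∣ u)
  set A3 := U.filter (fun u => ∃ p ∈ S, q * p ∣ u)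
  set A4 := U.filter (fun u => ∃ p ∈ P, q * p ^ (Nat.log p z + 1) ∣ u)
  set A5 := U.filter (fun u => q ∣ u ∧ K < smallCount z u)
  have hsub : A ⊆ A1 ∪ A2 ∪ A3 ∪ A4 ∪ A5 := by
    intro u hu
    obtain ⟨h1, h2, h3, h4⟩ := hA u hu
    have hU : u ∈ U := Finset.mem_Icc.2 ⟨h1, h2⟩
    simp only [Finset.mem_union, A1, A2, A3, A4, A5, Finset.mem_filter, hU, true_and]
    rcases rare_event (by omega) h2 hq hq2 h3 h4 hz2 hω hT with
      h | h | h | ⟨p, hp, h⟩ | h | h
    · exact Or.inl (Or.inl (Or.inl (Or.inl h)))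
    · exact Or.inl (Or.inl (Or.inl (Or.inr h)))
    · exact Or.inl (Or.inl (Or.inr h))
    · refine Or.inl (Or.inr ⟨p, hp, ?_⟩)
      refine ((Nat.coprime_primes hq (Finset.mem_filter.1 hp).2).2 ?_).pow_right _
        |>.mul_dvd_of_dvd_of_dvd h3 h
      have := (Finset.mem_Icc.1 (Finset.mem_filter.1 hp).1).2
      omega
    · exact Or.inr ⟨h3, h⟩
    · exact absurd h hne
  have e1 : (A1.card : ℝ) ≤ (x : ℝ) / q * ((1 : ℝ) / q) := by
    refine (card_mult_le x (q * q)).trans (le_of_eq ?_)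
    push_cast; ring
  have hmult : ∀ (s : Finset ℕ) (f : ℕ → ℕ) (B : ℝ), (∑ r ∈ s, (1 : ℝ) / (f r : ℕ)) ≤ B →
      ((U.filter fun u => ∃ r ∈ s, q * f r ∣ u).card : ℝ) ≤ (x : ℝ) / q * B := by
    intro s f B hB
    refine (card_exists_le U s (fun r u => q * f r ∣ u)).trans ?_
    refine le_trans ?_ (mul_le_mul_of_nonneg_left hB hxq)
    rw [Finset.mul_sum]
    refine Finset.sum_le_sum fun r _ => (card_mult_le x (q * f r)).trans (le_of_eq ?_)
    push_cast; ring
  have e2 : (A2.card : ℝ) ≤ (x : ℝ) / q * ((ℓ + 2 : ℝ) / q) := by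
    refine hmult R (fun r => r) _ ((sum_primes_one_mod hq.pos R fun r hr => ?_).trans
      (div_le_div_of_nonneg_right (by linarith) (Nat.cast_nonneg q)))
    obtain ⟨h1, h2, h3⟩ := Finset.mem_filter.1 hr
    exact ⟨h2, (Finset.mem_Icc.1 h1).2, h3⟩
  have e3 : (A3.card : ℝ) ≤ (x : ℝ) / q * (1 / (ℓ + 1 : ℝ) + (ℓ + 2 : ℝ) / q
      + 4 * (lam + 3 : ℝ) / E + 32 / ((2 : ℝ) ^ (lam + 1)) ^ 2) := by
    refine hmult S (fun r => r) _ (wieferich_sum hq hq2 hxl hlam hEq hE1 hqx S fun p hp => ?_)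
    obtain ⟨h1, h2, h3, h4⟩ := Finset.mem_filter.1 hp
    rw [hz] at h3
    exact ⟨h2, h3, (Finset.mem_Icc.1 h1).2, h4⟩
  have e4 : (A4.card : ℝ) ≤ (x : ℝ) / q * (2 / (w : ℝ)) := by
    refine hmult P (fun p => p ^ (Nat.log p z + 1)) _ ?_
    have hzw : z = w ^ 2 := by rw [hz, hw, ← pow_mul]; ring_nf
    simp only [P, hzw]
    exact sum_least_pow w (by rw [hw]; exact Nat.one_le_two_pow)
  have e5 : (A5.card : ℝ) ≤ (x : ℝ) / q * (4 * (1 + Real.log (16 * (lam + 1) + 1 : ℕ)) / K) := by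
    set Pz := (Finset.Icc 1 z).filter Nat.Prime
    have h1 : (A5.card : ℝ) * K ≤ ∑ u ∈ U.filter (fun u => q ∣ u), (smallCount z u : ℝ) := by
      calc (A5.card : ℝ) * K = ∑ _u ∈ A5, (K : ℝ) := by simp
        _ ≤ ∑ u ∈ A5, (smallCount z u : ℝ) := Finset.sum_le_sum fun u hu => by
            exact_mod_cast (Finset.mem_filter.1 hu).2.2.le
        _ ≤ _ := Finset.sum_le_sum_of_subset_of_nonneg (fun u hu =>
            Finset.mem_filter.2 ⟨(Finset.mem_filter.1 hu).1, (Finset.mem_filter.1 hu).2.1⟩)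
            (fun u _ _ => Nat.cast_nonneg _)
    have h2 : ∑ u ∈ U.filter (fun u => q ∣ u), (smallCount z u : ℝ)
        ≤ ∑ p ∈ Pz, (x : ℝ) / q * (1 / p) := by
      have h3 : ∀ u, (smallCount z u : ℝ) = ∑ p ∈ Pz, if p ∣ u then (1 : ℝ) else 0 := by
        intro u; simp [smallCount, Pz]
      simp only [h3]
      rw [Finset.sum_comm]
      refine Finset.sum_le_sum fun p hp => ?_
      obtain ⟨h4, h5⟩ := Finset.mem_filter.1 hp
      have hne : p ≠ q := by have := (Finset.mem_Icc.1 h4).2; omega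
      have h6 : ∀ u, (q ∣ u ∧ p ∣ u) ↔ q * p ∣ u := fun u =>
        ⟨fun h => ((Nat.coprime_primes hq h5).2 hne.symm).mul_dvd_of_dvd_of_dvd h.1 h.2,
          fun h => ⟨(dvd_mul_right q p).trans h, (dvd_mul_left p q).trans h⟩⟩
      rw [Finset.sum_boole, Finset.filter_filter]
      simp only [h6]
      refine (card_mult_le x (q * p)).trans (le_of_eq ?_)
      push_cast; ring
    have h3 := sum_primes_le Pz (16 * (lam + 1) + 1) (fun p hp => (Finset.mem_filter.1 hp).2)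
      (fun p hp => by
        have := (Finset.mem_Icc.1 (Finset.mem_filter.1 hp).1).2
        rw [pow_succ]
        omega)
    rw [← Finset.mul_sum] at h2
    rw [← mul_div_assoc, le_div_iff₀ (by exact_mod_cast hK)]
    exact (h1.trans h2).trans (mul_le_mul_of_nonneg_left h3 hxq)
  have hc : (A.card : ℝ) ≤ (A1.card : ℝ) + A2.card + A3.card + A4.card + A5.card := by
    have := (Finset.card_le_card hsub).trans ((Finset.card_union_le _ _).trans
      (Nat.add_le_add_right ((Finset.card_union_le _ _).trans (Nat.add_le_add_right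
        ((Finset.card_union_le _ _).trans (Nat.add_le_add_right (Finset.card_union_le _ _) _)) _)) _))
    exact_mod_cast this
  linarith

open Classical in
/-- The `u ≤ x` for which `4 u ^ 2` is an order. -/
noncomputable def orderSet (x : ℕ) : Finset ℕ :=
  (Finset.Icc 1 x).filter fun u => HasCHM (4 * u ^ 2)

/-- Quantitative bound in terms of `d = ⌊log₂ log₂ x / 16⌋`. -/
lemma orderSet_card_le (x d : ℕ) (hd : d = Nat.log 2 (Nat.log 2 x) / 16)
    (hbig : 16 * (512 * d + 600) * (d + 1) < 2 ^ d) :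
    ((orderSet x).card : ℝ) ≤ (x : ℝ) * (14 / d + 2 * (1000 * (d + 1) / (2 : ℝ) ^ d
      + 4 * (1 + Real.log (256 * d + 257 : ℕ)) / d)) := by
  classical
  obtain ⟨ℓ, hℓ⟩ : ∃ ℓ, ℓ = Nat.log 2 x := ⟨_, rfl⟩
  rw [← hℓ] at hd
  obtain ⟨lam, hlamdef⟩ : ∃ lam, lam = Nat.log 2 ℓ := ⟨_, rfl⟩
  rw [← hlamdef] at hd
  have hd10 : 14 ≤ d := by
    by_contra h
    push Not at h
    have h1 : 2 ^ d ≤ 2 ^ 14 := Nat.pow_le_pow_right (by norm_num) h.le
    have h3 : 9600 ≤ 16 * (512 * d + 600) * (d + 1) := by nlinarith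
    interval_cases d <;> norm_num at hbig
  have hlam1 : 16 * d ≤ lam := by omega
  have hlam2 : lam + 1 ≤ 16 * d + 16 := by omega
  have hℓ0 : ℓ ≠ 0 := by
    intro h
    have : lam = 0 := by simp [hlamdef, h]
    omega
  have hlam : ℓ < 2 ^ (lam + 1) := by
    rw [hlamdef]; exact Nat.lt_pow_succ_log_self (by norm_num) ℓ
  have hℓlow : 2 ^ lam ≤ ℓ := by rw [hlamdef]; exact Nat.pow_log_le_self 2 hℓ0
  have hxl : x < 2 ^ (ℓ + 1) := by
    rw [hℓ]; exact Nat.lt_pow_succ_log_self (by norm_num) x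
  have hx0 : x ≠ 0 := by intro h; simp [hℓ, h] at hℓ0
  have hxlow : 2 ^ ℓ ≤ x := by rw [hℓ]; exact Nat.pow_log_le_self 2 hx0
  obtain ⟨b, hb⟩ : ∃ b, b = 16 * (lam + 1) := ⟨_, rfl⟩
  obtain ⟨E, hE⟩ : ∃ E, E = 2 ^ (2 * d) := ⟨_, rfl⟩
  obtain ⟨t, ht⟩ : ∃ t, t = 2 ^ (2 * d - 2) := ⟨_, rfl⟩
  have hdd : 2 ^ d * 2 ^ d = E := by rw [hE, ← pow_add]; ring_nf
  have hEt : E = 4 * t := by
    rw [hE, ht, show (4 : ℕ) = 2 ^ 2 by norm_num, ← pow_add]
    congr 1
    omega
  have hbig1 : 512 * d + 600 < 2 ^ d := by nlinarith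
  have hbE : 20 * b + d + 8 ≤ E := by
    have h1 : 20 * b + d + 8 ≤ 16 * (512 * d + 600) * (d + 1) := by
      have := Nat.le_mul_of_pos_right (16 * (512 * d + 600)) (Nat.succ_pos d)
      rw [Nat.succ_eq_add_one] at this
      omega
    have h2 : 2 ^ d ≤ E := by rw [← hdd]; exact Nat.le_mul_of_pos_right _ (by positivity)
    omega
  have hT : (4 * (2 ^ b) ^ 2) ^ ((d + 1) * 2 ^ (d + 2)) ≤ 2 ^ t := by
    rw [show 4 * (2 ^ b) ^ 2 = 2 ^ (2 * b + 2) by ring, ← pow_mul]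
    refine Nat.pow_le_pow_right (by norm_num) ?_
    have h1 : 4 * ((2 * b + 2) * ((d + 1) * 2 ^ (d + 2))) ≤ 4 * t := by
      rw [← hEt, ← hdd, pow_add]
      calc 4 * ((2 * b + 2) * ((d + 1) * (2 ^ d * 2 ^ 2)))
          = (16 * (2 * b + 2) * (d + 1)) * 2 ^ d := by ring
        _ ≤ (16 * (512 * d + 600) * (d + 1)) * 2 ^ d :=
            Nat.mul_le_mul_right _ (Nat.mul_le_mul_right _ (Nat.mul_le_mul_left _ (by omega)))
        _ ≤ 2 ^ d * 2 ^ d := Nat.mul_le_mul_right _ hbig.le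
    omega
  set U := Finset.Icc 1 x
  set Q := U.filter (fun q => q.Prime ∧ 2 ^ E < q)
  have hQ1 : ∀ q ∈ Q, q.Prime ∧ 2 ^ E < q ∧ q ≤ x := fun q hq => by
    obtain ⟨a, b, c⟩ := Finset.mem_filter.1 hq
    exact ⟨b, c, (Finset.mem_Icc.1 a).2⟩
  set μ : ℝ := ∑ q ∈ Q, (1 : ℝ) / q with hμ
  have hlog2 : (2 : ℝ) / 3 ≤ Real.log 2 ∧ Real.log 2 ≤ 3 / 4 :=
    ⟨by linarith [Real.log_two_gt_d9], by linarith [Real.log_two_lt_d9]⟩
  have hμd : (d : ℝ) ≤ μ := by
    have h1 := sum_primes_ge x (Nat.one_le_iff_ne_zero.2 hx0)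
    have h2 := sum_primes_le ((Finset.Icc 1 x).filter (fun p => p.Prime ∧ ¬ 2 ^ E < p)) (E + 1)
      (fun p hp => (Finset.mem_filter.1 hp).2.1) (fun p hp => by
        have := (Finset.mem_filter.1 hp).2.2
        rw [pow_succ]
        have : 0 < 2 ^ E := by positivity
        omega)
    have h3 : (∑ p ∈ (Finset.Icc 1 x).filter Nat.Prime, (1 : ℝ) / p) = μ +
        ∑ p ∈ (Finset.Icc 1 x).filter (fun p => p.Prime ∧ ¬ 2 ^ E < p), (1 : ℝ) / p := by
      rw [hμ, ← Finset.sum_filter_add_sum_filter_not _ (fun p => 2 ^ E < p),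
        Finset.filter_filter, Finset.filter_filter]
    have h4 : Real.log (E + 1 : ℕ) ≤ (2 * d + 1 : ℝ) * Real.log 2 := by
      have hle : E + 1 ≤ 2 ^ (2 * d + 1) := by
        have : 1 ≤ E := hE ▸ Nat.one_le_two_pow
        rw [pow_succ, ← hE]
        omega
      have h5 : Real.log (E + 1 : ℕ) ≤ Real.log ((2 : ℝ) ^ (2 * d + 1)) := by
        refine Real.log_le_log (by positivity) ?_
        exact_mod_cast hle
      rw [Real.log_pow] at h5
      push_cast at h5 ⊢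
      linarith
    have h5 : ((lam : ℝ) - 1) * Real.log 2 ≤ Real.log (Real.log (x + 1 : ℕ)) := by
      have ha : (ℓ : ℝ) * Real.log 2 ≤ Real.log (x + 1 : ℕ) := by
        rw [← Real.log_pow]
        refine Real.log_le_log (by positivity) ?_
        exact_mod_cast hxlow.trans (Nat.le_succ x)
      have hb : (2 : ℝ) ^ lam ≤ (ℓ : ℝ) := by exact_mod_cast hℓlow
      have hc : (2 : ℝ) ^ lam / 2 ≤ Real.log (x + 1 : ℕ) := by
        have : (0 : ℝ) ≤ ℓ := Nat.cast_nonneg ℓ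
        nlinarith [hlog2.1]
      have hd' := Real.log_le_log (by positivity) hc
      rw [Real.log_div (by positivity) (by norm_num), Real.log_pow] at hd'
      linarith
    have h6 : (16 * d : ℝ) ≤ lam := by exact_mod_cast hlam1
    have h7 : (14 : ℝ) ≤ d := by exact_mod_cast hd10
    nlinarith
  have hμpos : 0 < μ := lt_of_lt_of_le (by exact_mod_cast (by omega : 0 < d)) hμd
  set η : ℝ := 1000 * (d + 1) / (2 : ℝ) ^ d + 4 * (1 + Real.log (256 * d + 257 : ℕ)) / d with hη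
  have hη0 : 0 ≤ η := by
    have := Real.log_natCast_nonneg (256 * d + 257)
    positivity
  set A := orderSet x
  have hAU : ∀ u ∈ A, (1 ≤ u ∧ u ≤ x) ∧ HasCHM (4 * u ^ 2) := fun u hu => by
    simpa [A, orderSet] using hu
  set Exc := Q.filter fun q => ∃ p : ℕ, p.Prime ∧ p ≤ 2 ^ b ∧ orderOf (p : ZMod q) ≤ 2 ^ t
  have hExc : (Exc.card : ℝ) ≤ (2 : ℝ) ^ E := by
    have h1 := exceptional_card (Q := Exc) (b := b) (T := 2 ^ t)
      (fun q hq => by
        obtain ⟨h1, h2, -⟩ := hQ1 q (Finset.mem_filter.1 hq).1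
        exact ⟨h1, lt_of_le_of_lt (Nat.pow_le_pow_right (by norm_num) (by omega)) h2⟩)
      (fun q hq => (Finset.mem_filter.1 hq).2)
    have h2 : 2 ^ b * 2 ^ t * (b * 2 ^ t) ≤ 2 ^ E := by
      calc 2 ^ b * 2 ^ t * (b * 2 ^ t) ≤ 2 ^ b * 2 ^ t * (2 ^ b * 2 ^ t) := by
            gcongr; exact (Nat.lt_pow_self (by norm_num)).le
        _ = 2 ^ (b + t + (b + t)) := by ring
        _ ≤ _ := Nat.pow_le_pow_right (by norm_num) (by omega)
    exact_mod_cast h1.trans h2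
  have hper : ∀ q ∈ Q, ((A.filter (fun u => q ∣ u)).card : ℝ)
      ≤ (x : ℝ) / q * η + (if q ∈ Exc then (x : ℝ) / (2 : ℝ) ^ E else 0) := by
    intro q hq
    obtain ⟨hqp, hqE, hqx⟩ := hQ1 q hq
    have hq0 : (0 : ℝ) < q := by exact_mod_cast hqp.pos
    have hqE' : (2 : ℝ) ^ E ≤ q := by exact_mod_cast hqE.le
    split_ifs with hexc
    · have h1 : ((A.filter (fun u => q ∣ u)).card : ℝ) ≤ (x : ℝ) / q := by
        refine le_trans ?_ (card_mult_le x q)
        refine Nat.cast_le.2 (Finset.card_le_card fun u hu => ?_)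
        obtain ⟨a, c⟩ := Finset.mem_filter.1 hu
        exact Finset.mem_filter.2 ⟨Finset.mem_Icc.2 (hAU u a).1, c⟩
      have h2 : (x : ℝ) / q ≤ (x : ℝ) / (2 : ℝ) ^ E := by gcongr
      have h3 : 0 ≤ (x : ℝ) / q * η := by positivity
      linarith
    · rw [add_zero]
      have hzq : 2 ^ b < q := lt_of_le_of_lt (Nat.pow_le_pow_right (by norm_num) (by omega)) hqE
      have hω : 4 * x ^ 2 < 2 ^ (q - 1) := by
        have h1 : 4 * x ^ 2 < 2 ^ (2 * ℓ + 4) := by
          have : x ^ 2 < (2 ^ (ℓ + 1)) ^ 2 := Nat.pow_lt_pow_left hxl two_ne_zero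
          rw [show 2 ^ (2 * ℓ + 4) = 4 * (2 ^ (ℓ + 1)) ^ 2 by ring]
          omega
        have h2 : 2 * ℓ + 5 ≤ q := by
          have h3 : 2 ^ (lam + 4) ≤ 2 ^ E := Nat.pow_le_pow_right (by norm_num) (by omega)
          rw [show 2 ^ (lam + 4) = 8 * 2 ^ (lam + 1) by ring] at h3
          omega
        exact lt_of_lt_of_le h1 (Nat.pow_le_pow_right (by norm_num) (by omega))
      refine (per_prime (w := 2 ^ (8 * (lam + 1))) (z := 2 ^ b) (T := 2 ^ t) (K := d) hqp hqx hxl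
        hlam (hE ▸ Nat.one_le_two_pow) hqE rfl (congrArg (2 ^ ·) hb) hzq hω hT (by omega)
        (fun h => hexc (Finset.mem_filter.2 ⟨hq, h⟩)) (A.filter fun u => q ∣ u)
        fun u hu => ?_).trans ?_
      · obtain ⟨a, c⟩ := Finset.mem_filter.1 hu
        exact ⟨(hAU u a).1.1, (hAU u a).1.2, c, (hAU u a).2⟩
      · refine mul_le_mul_of_nonneg_left ?_ (by positivity)
        have hD : (0 : ℝ) < (2 : ℝ) ^ d := by positivity
        have p1 : (1 : ℝ) / q ≤ 1 / (2 : ℝ) ^ d := by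
          refine one_div_le_one_div_of_le hD (le_trans ?_ hqE')
          exact pow_le_pow_right₀ (by norm_num) (by omega)
        have p2 : (ℓ + 2 : ℝ) / q ≤ 2 / (2 : ℝ) ^ d := by
          rw [div_le_div_iff₀ hq0 hD]
          have : (ℓ + 2) * 2 ^ d ≤ 2 * q := by
            have h3 : 2 ^ (lam + 2 + d) ≤ 2 ^ E := Nat.pow_le_pow_right (by norm_num) (by omega)
            have h4 : ℓ + 2 ≤ 2 ^ (lam + 2) := by rw [pow_succ]; omega
            calc (ℓ + 2) * 2 ^ d ≤ 2 ^ (lam + 2) * 2 ^ d := Nat.mul_le_mul_right _ h4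
              _ = 2 ^ (lam + 2 + d) := by ring
              _ ≤ _ := by omega
          exact_mod_cast this
        have p3 : (1 : ℝ) / (ℓ + 1 : ℝ) ≤ 1 / (2 : ℝ) ^ d := by
          refine one_div_le_one_div_of_le hD ?_
          have : 2 ^ d ≤ 2 ^ lam := Nat.pow_le_pow_right (by norm_num) (by omega)
          exact_mod_cast (by omega : 2 ^ d ≤ ℓ + 1)
        have p4 : 4 * (lam + 3 : ℝ) / (E : ℕ) ≤ 100 * (d + 1 : ℝ) / (2 : ℝ) ^ d := by
          have h3 : (lam : ℝ) + 3 ≤ 25 * (d + 1) := by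
            exact_mod_cast (by omega : lam + 3 ≤ 25 * (d + 1))
          have h4 : ((2 : ℝ) ^ d) ≤ ((E : ℕ) : ℝ) := by
            rw [hE]
            exact_mod_cast (Nat.pow_le_pow_right (by norm_num : 0 < 2) (by omega : d ≤ 2 * d))
          calc 4 * (lam + 3 : ℝ) / (E : ℕ) ≤ 4 * (lam + 3 : ℝ) / (2 : ℝ) ^ d := by gcongr
            _ ≤ _ := div_le_div_of_nonneg_right (by linarith) hD.le
        have p5 : 32 / ((2 : ℝ) ^ (lam + 1)) ^ 2 ≤ 32 / (2 : ℝ) ^ d := by
          rw [← pow_mul]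
          gcongr
          · norm_num
          · omega
        have p6 : 2 / ((2 ^ (8 * (lam + 1)) : ℕ) : ℝ) ≤ 2 / (2 : ℝ) ^ d := by
          push_cast
          gcongr
          · norm_num
          · omega
        have p7 : 4 * (1 + Real.log (16 * (lam + 1) + 1 : ℕ)) / d
            ≤ 4 * (1 + Real.log (256 * d + 257 : ℕ)) / d := by
          refine div_le_div_of_nonneg_right ?_ (Nat.cast_nonneg d)
          have := Real.log_le_log (x := ((16 * (lam + 1) + 1 : ℕ) : ℝ))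
            (y := ((256 * d + 257 : ℕ) : ℝ)) (by exact_mod_cast Nat.succ_pos _)
            (by exact_mod_cast (by omega : 16 * (lam + 1) + 1 ≤ 256 * d + 257))
          linarith
        have p8 : 1 / (2 : ℝ) ^ d + 2 / (2 : ℝ) ^ d + (1 / (2 : ℝ) ^ d + 2 / (2 : ℝ) ^ d
            + 100 * (d + 1 : ℝ) / (2 : ℝ) ^ d + 32 / (2 : ℝ) ^ d) + 2 / (2 : ℝ) ^ d
            ≤ 1000 * (d + 1 : ℝ) / (2 : ℝ) ^ d := by
          rw [← add_div, ← add_div, ← add_div, ← add_div, ← add_div]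
          exact div_le_div_of_nonneg_right
            (by linarith [show (0 : ℝ) ≤ d from Nat.cast_nonneg d]) hD.le
        linarith
  set low := U.filter fun u => ((Q.filter (· ∣ u)).card : ℝ) < μ / 2
  have hlow := few_divisors x Q (fun q hq => (hQ1 q hq).1) (fun q hq => (hQ1 q hq).2.2) μ rfl hμpos
  have hsum : ∑ q ∈ Q, ((A.filter (fun u => q ∣ u)).card : ℝ) ≤ (x : ℝ) * μ * η + x := by
    refine (Finset.sum_le_sum hper).trans ?_
    rw [Finset.sum_add_distrib]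
    refine add_le_add (le_of_eq ?_) ?_
    · rw [← Finset.sum_mul, hμ, Finset.mul_sum]
      congr 1
      exact Finset.sum_congr rfl fun q _ => by ring
    · rw [← Finset.sum_filter, Finset.sum_const, nsmul_eq_mul,
        show Q.filter (· ∈ Exc) = Exc from by
          ext q; simp [Exc]]
      calc (Exc.card : ℝ) * ((x : ℝ) / (2 : ℝ) ^ E)
          ≤ (2 : ℝ) ^ E * ((x : ℝ) / (2 : ℝ) ^ E) := by gcongr
        _ = x := by field_simp
  have hhigh : ((A \ low).card : ℝ) * (μ / 2)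
      ≤ ∑ q ∈ Q, ((A.filter (fun u => q ∣ u)).card : ℝ) := by
    calc ((A \ low).card : ℝ) * (μ / 2) = ∑ _u ∈ A \ low, μ / 2 := by simp
      _ ≤ ∑ u ∈ A \ low, ((Q.filter (· ∣ u)).card : ℝ) := by
          refine Finset.sum_le_sum fun u hu => ?_
          obtain ⟨h1, h2⟩ := Finset.mem_sdiff.1 hu
          by_contra hlt
          exact h2 (Finset.mem_filter.2 ⟨Finset.mem_Icc.2 (hAU u h1).1, not_le.1 hlt⟩)
      _ ≤ ∑ u ∈ A, ((Q.filter (· ∣ u)).card : ℝ) :=
          Finset.sum_le_sum_of_subset_of_nonneg Finset.sdiff_subset (fun u _ _ => Nat.cast_nonneg _)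
      _ = _ := by
          simp only [← Finset.sum_boole]
          rw [Finset.sum_comm]
  have hcard : (A.card : ℝ) ≤ low.card + (A \ low).card := by
    exact_mod_cast (Finset.card_le_card (Finset.union_sdiff_self_eq_union (s := low) (t := A) ▸
      Finset.subset_union_right : A ⊆ low ∪ A \ low)).trans (Finset.card_union_le _ _)
  have hdpos : (0 : ℝ) < d := by exact_mod_cast (by omega : 0 < d)
  have hl2 : (low.card : ℝ) ≤ 12 * x / d := hlow.trans (by gcongr)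
  have hh2 : ((A \ low).card : ℝ) ≤ 2 * x * η + 2 * x / d := by
    have := hhigh.trans hsum
    have e : ((A \ low).card : ℝ) ≤ 2 * x * η + 2 * x / μ := by
      rw [← sub_nonneg]
      have : (2 * x * η + 2 * x / μ - ((A \ low).card : ℝ)) * (μ / 2)
          = (x : ℝ) * μ * η + x - ((A \ low).card : ℝ) * (μ / 2) := by field_simp
      nlinarith
    have e2 : 2 * (x : ℝ) / μ ≤ 2 * x / d := by gcongr
    linarith
  calc (A.card : ℝ) ≤ 12 * x / d + (2 * x * η + 2 * x / d) := by linarith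
    _ = _ := by rw [hη]; ring

/-- The orders `n ≤ N` are `1` or `4 u ^ 2` with `u ≤ √N`. -/
lemma ncard_orders_le (N : ℕ) :
    (({n : ℕ | 1 ≤ n ∧ n ≤ N ∧ HasCHM n}.ncard : ℕ) : ℝ) ≤ 1 + (orderSet N.sqrt).card := by
  classical
  have hsub : {n : ℕ | 1 ≤ n ∧ n ≤ N ∧ HasCHM n} ⊆
      ((insert 1 ((orderSet N.sqrt).image fun u => 4 * u ^ 2) : Finset ℕ) : Set ℕ) := by
    rintro n ⟨h1, h2, h3⟩
    haveI : NeZero n := ⟨by omega⟩
    obtain ⟨h, hh⟩ := h3.isCH
    simp only [Finset.coe_insert, Finset.coe_image, Set.mem_insert_iff, Set.mem_image,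
      Finset.mem_coe]
    rcases order_form hh with h4 | ⟨u, rfl⟩
    · exact Or.inl h4
    · refine Or.inr ⟨u, ?_, rfl⟩
      have hu : 1 ≤ u := by
        rcases Nat.eq_zero_or_pos u with h | h
        · subst h; simp at h1
        · exact h
      simp only [orderSet, Finset.mem_filter, Finset.mem_Icc]
      exact ⟨⟨hu, Nat.le_sqrt.2 (by nlinarith)⟩, h3⟩
  have h := Set.ncard_le_ncard hsub (Finset.finite_toSet _)
  rw [Set.ncard_coe_finset] at h
  have h2 := h.trans ((Finset.card_insert_le _ _).trans (Nat.add_le_add_right Finset.card_image_le 1))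
  rw [add_comm]
  exact_mod_cast h2

open Asymptotics Filter Topology in
/-- The number of circulant Hadamard orders up to `N` is `o(√N)`. -/
theorem orders_isLittleO :
    (fun N : ℕ => (({n : ℕ | 1 ≤ n ∧ n ≤ N ∧ HasCHM n}.ncard : ℕ) : ℝ))
      =o[atTop] (fun N : ℕ => Real.sqrt N) := by
  set F : ℕ → ℝ := fun d => 14 / d + 2 * (1000 * (d + 1) / (2 : ℝ) ^ d
      + 4 * (1 + Real.log (256 * d + 257 : ℕ)) / d) with hF
  have hpow : ∀ j : ℕ, Tendsto (fun d : ℕ => (d : ℝ) ^ j / (2 : ℝ) ^ d) atTop (𝓝 0) := fun j =>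
    tendsto_pow_const_div_const_pow_of_one_lt j (by norm_num)
  have hlim : Tendsto F atTop (𝓝 0) := by
    have h1 : Tendsto (fun d : ℕ => 4 * (1 + Real.log (256 * d + 257 : ℕ)) / d) atTop (𝓝 0) := by
      have hb : Tendsto (fun d : ℕ => 4 * (1 + 2 * Real.sqrt 513) / Real.sqrt d) atTop (𝓝 0) :=
        tendsto_const_nhds.div_atTop (Real.tendsto_sqrt_atTop.comp tendsto_natCast_atTop_atTop)
      refine squeeze_zero' (Eventually.of_forall fun d => ?_)
        ((eventually_ge_atTop 1).mono fun d hd => ?_) hb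
      · have := Real.log_natCast_nonneg (256 * d + 257)
        positivity
      · set y : ℝ := ((256 * d + 257 : ℕ) : ℝ) with hy
        have hy0 : 0 < y := by rw [hy]; positivity
        have hsd : 1 ≤ Real.sqrt d := Real.one_le_sqrt.2 (by exact_mod_cast hd)
        have h2 : Real.log y ≤ 2 * Real.sqrt y := by
          have h := Real.log_le_sub_one_of_pos (Real.sqrt_pos.2 hy0)
          rw [Real.log_sqrt hy0.le] at h
          linarith [Real.sqrt_nonneg y]
        have h3 : Real.sqrt y ≤ Real.sqrt 513 * Real.sqrt d := by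
          rw [← Real.sqrt_mul (by norm_num)]
          refine Real.sqrt_le_sqrt ?_
          rw [hy]
          exact_mod_cast (by omega : 256 * d + 257 ≤ 513 * d)
        have h4 : (d : ℝ) = Real.sqrt d * Real.sqrt d := (Real.mul_self_sqrt (by positivity)).symm
        rw [div_le_div_iff₀ (by exact_mod_cast hd) (by linarith)]
        nlinarith [Real.sqrt_nonneg (513 : ℝ)]
    have h2 : Tendsto (fun d : ℕ => 1000 * ((d : ℝ) + 1) / (2 : ℝ) ^ d) atTop (𝓝 0) := by
      have := ((hpow 1).add (hpow 0)).const_mul 1000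
      simp only [add_zero, mul_zero] at this
      refine this.congr fun d => ?_
      ring
    have h3 := (tendsto_const_div_atTop_nhds_zero_nat (14 : ℝ)).add ((h2.add h1).const_mul 2)
    simpa [hF] using h3
  have hbig : ∀ᶠ d : ℕ in atTop, 16 * (512 * d + 600) * (d + 1) < 2 ^ d := by
    have h := ((hpow 2).const_mul 40000).eventually (Iio_mem_nhds (by norm_num : (40000 : ℝ) * 0 < 1))
    filter_upwards [h, eventually_ge_atTop 1] with d hd hd1
    have hd' : 40000 * (d : ℝ) ^ 2 < (2 : ℝ) ^ d := by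
      rw [← mul_div_assoc, div_lt_one (by positivity)] at hd
      exact hd
    have hd'' : 40000 * d ^ 2 < 2 ^ d := by exact_mod_cast hd'
    nlinarith
  have hlog : Tendsto (Nat.log 2) atTop atTop := tendsto_atTop_atTop.2 fun c =>
    ⟨2 ^ c, fun n hn => Nat.le_log_of_pow_le (by norm_num) hn⟩
  have hdiv : Tendsto (fun n : ℕ => n / 16) atTop atTop := tendsto_atTop_atTop.2 fun c =>
    ⟨16 * c, fun n hn => by omega⟩
  have hsqrt : Tendsto Nat.sqrt atTop atTop := tendsto_atTop_atTop.2 fun c =>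
    ⟨c * c, fun n hn => Nat.le_sqrt.2 hn⟩
  have hdN : Tendsto (fun N : ℕ => Nat.log 2 (Nat.log 2 N.sqrt) / 16) atTop atTop :=
    hdiv.comp (hlog.comp (hlog.comp hsqrt))
  refine Asymptotics.isLittleO_iff.2 fun c hc => ?_
  have e1 : ∀ᶠ N : ℕ in atTop, F (Nat.log 2 (Nat.log 2 N.sqrt) / 16) < c / 2 :=
    (hlim.comp hdN).eventually (Iio_mem_nhds (by linarith))
  have e2 : ∀ᶠ N : ℕ in atTop, 2 / c ≤ (N.sqrt : ℝ) :=
    (tendsto_natCast_atTop_atTop.comp hsqrt).eventually (eventually_ge_atTop _)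
  filter_upwards [e1, e2, hdN.eventually hbig] with N h1 h2 h3
  have hA := orderSet_card_le N.sqrt _ rfl h3
  rw [Real.norm_of_nonneg (Nat.cast_nonneg _), Real.norm_of_nonneg (Real.sqrt_nonneg _)]
  have h4 := ncard_orders_le N
  have hs : (N.sqrt : ℝ) ≤ Real.sqrt N :=
    Real.le_sqrt_of_sq_le (by exact_mod_cast Nat.sqrt_le' N)
  have h5 : (1 : ℝ) ≤ c / 2 * N.sqrt := by
    rw [div_le_iff₀ hc] at h2
    linarith
  have h6 : (N.sqrt : ℝ) * F (Nat.log 2 (Nat.log 2 N.sqrt) / 16) ≤ (N.sqrt : ℝ) * (c / 2) :=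
    mul_le_mul_of_nonneg_left h1.le (Nat.cast_nonneg _)
  have h7 : c * (N.sqrt : ℝ) ≤ c * Real.sqrt N := mul_le_mul_of_nonneg_left hs hc.le
  have h8 : ((orderSet N.sqrt).card : ℝ) ≤
      (N.sqrt : ℝ) * F (Nat.log 2 (Nat.log 2 N.sqrt) / 16) := hA
  linarith

end Vale.Agent.P033
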