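import Vale.Agent.P033.Local

/-!
From matrices to sequences; a circulant Hadamard order is `1` or `4 u ^ 2`.
-/

namespace Vale.Agent.P033

open Finset

/-- A circulant Hadamard matrix of order `n` exists. -/
def HasCHM (n : ℕ) : Prop :=
  ∃ h : Fin n → ℤ, (∀ i, h i = 1 ∨ h i = -1) ∧
    Matrix.circulant h * (Matrix.circulant h).transpose = (n : ℤ) • 1

lemma HasCHM.isCH {n : ℕ} [NeZero n] (hn : HasCHM n) : ∃ h : ZMod n → ℤ, IsCH n h := by
  obtain ⟨h, hsig, hmat⟩ := hn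
  obtain ⟨m, rfl⟩ : ∃ m, n = m + 1 := ⟨n - 1, by have := NeZero.ne n; omega⟩
  let g : ZMod (m + 1) → ℤ := h
  refine ⟨g, hsig, fun t ht => ?_⟩
  let H : Matrix (ZMod (m + 1)) (ZMod (m + 1)) ℤ := Matrix.circulant g
  have hmat' : H * H.transpose = ((m + 1 : ℕ) : ℤ) • 1 := hmat
  have := congrFun (congrFun hmat' t) 0
  simp only [H, Matrix.mul_apply, Matrix.transpose_apply, Matrix.circulant_apply, Matrix.smul_apply,
    Matrix.one_apply_ne ht, smul_zero, zero_sub] at this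
  rw [← this]
  refine Fintype.sum_equiv (Equiv.neg _) _ _ fun i => ?_
  simp only [Equiv.neg_apply, neg_neg, sub_neg_eq_add]
  rw [mul_comm, add_comm]

lemma order_form {n : ℕ} [NeZero n] {h : ZMod n → ℤ} (hh : IsCH n h) :
    n = 1 ∨ ∃ u : ℕ, n = 4 * u ^ 2 := by
  by_cases hn : n = 1
  · exact Or.inl hn
  right
  have hS : (∑ i, h i) ^ 2 = (n : ℤ) := by
    calc (∑ i, h i) ^ 2 = ∑ i, ∑ t, h i * h (i + t) := by
          rw [sq, Finset.sum_mul]
          refine Finset.sum_congr rfl fun i _ => ?_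
          rw [Finset.mul_sum]
          exact (Fintype.sum_equiv (Equiv.addLeft i) _ _ fun t => rfl).symm
      _ = ∑ t : ZMod n, (if t = 0 then (n : ℤ) else 0) := by
          rw [Finset.sum_comm]
          exact Finset.sum_congr rfl fun t _ => hh.auto t
      _ = _ := by simp
  haveI : Fact (1 < n) := ⟨by have := NeZero.ne n; omega⟩
  have hcast : ∀ g : ZMod n → ℤ, (∀ i, g i = 1 ∨ g i = -1) →
      ((∑ i, g i : ℤ) : ZMod 2) = ((n : ℕ) : ZMod 2) := by
    intro g hg
    rw [Int.cast_sum]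
    have : ∀ i, ((g i : ℤ) : ZMod 2) = 1 := by
      intro i
      rcases hg i with e | e <;> rw [e] <;> decide
    simp [this]
  have hsgn : ∀ i, h i * h (i + 1) = 1 ∨ h i * h (i + 1) = -1 := by
    intro i
    rcases hh.1 i with e | e <;> rcases hh.1 (i + 1) with e' | e' <;> simp [e, e']
  have heven : ((n : ℕ) : ZMod 2) = 0 := by
    have h1 := hcast _ hsgn
    rw [hh.2 1 one_ne_zero] at h1
    simpa using h1.symm
  have hSe : ((∑ i, h i : ℤ) : ZMod 2) = 0 := (hcast h hh.1).trans heven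
  obtain ⟨v, hv⟩ := (ZMod.intCast_zmod_eq_zero_iff_dvd _ 2).1 hSe
  refine ⟨v.natAbs, ?_⟩
  have : (n : ℤ) = 4 * (v.natAbs : ℤ) ^ 2 := by
    rw [Int.natAbs_sq, ← hS, hv]; push_cast; ring
  exact_mod_cast this

end Vale.Agent.P033
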