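import Vale.Agent.P033.PrimeSums

/-!
The reciprocals of large bases `p` with `p ^ (q - 1) ≡ 1 (mod q ^ 2)` have small sum.
-/

namespace Vale.Agent.P033

open Finset

lemma sum_far {q L x : ℕ} (hq : q.Prime) (hq2 : q ≠ 2) (hL : 1 ≤ L) (s : Finset ℕ)
    (hs : ∀ p ∈ s, q * L < p ∧ p ≤ x ∧ p ^ (q - 1) % q ^ 2 = 1) :
    ∑ p ∈ s, (1 : ℝ) / p ≤ 1 / L + (1 + Real.log x) / q := by
  have hq0 : (0 : ℝ) < q := by exact_mod_cast hq.pos
  have hL0 : (0 : ℝ) < L := by exact_mod_cast hL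
  have hm : ∀ p ∈ s, p % q ^ 2 ∈ residues q := by
    intro p hp
    refine Finset.mem_filter.2 ⟨Finset.mem_range.2 (Nat.mod_lt _ (pow_pos hq.pos 2)), ?_⟩
    rw [← Nat.pow_mod]; exact (hs p hp).2.2
  have hT : ∀ i, ((s.filter fun p => p / q ^ 2 = i).card : ℝ) ≤ q := by
    intro i
    have h1 : (s.filter fun p => p / q ^ 2 = i).card ≤ (residues q).card := by
      refine Finset.card_le_card_of_injOn (fun p => p % q ^ 2)
        (fun p hp => hm p (Finset.mem_filter.1 hp).1) ?_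
      intro a ha b hb hab
      have e1 := (Finset.mem_filter.1 ha).2
      have e2 := (Finset.mem_filter.1 hb).2
      rw [← Nat.div_add_mod a (q ^ 2), ← Nat.div_add_mod b (q ^ 2), e1, e2]
      exact congrArg _ hab
    exact_mod_cast (h1.trans (residues_card hq hq2)).trans (Nat.sub_le _ _)
  have hmem : ∀ p ∈ s, p / q ^ 2 ∈ insert 0 (Finset.Icc 1 x) := by
    intro p hp
    rcases Nat.eq_zero_or_pos (p / q ^ 2) with h | h
    · exact Finset.mem_insert.2 (Or.inl h)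
    · exact Finset.mem_insert_of_mem
        (Finset.mem_Icc.2 ⟨h, (Nat.div_le_self _ _).trans (hs p hp).2.1⟩)
  rw [← Finset.sum_fiberwise_of_maps_to hmem, Finset.sum_insert (by simp)]
  refine add_le_add ?_ ?_
  · calc ∑ p ∈ s with p / q ^ 2 = 0, (1 : ℝ) / p
        ≤ ∑ _p ∈ s.filter (fun p => p / q ^ 2 = 0), (1 : ℝ) / (q * L) := by
          refine Finset.sum_le_sum fun p hp => ?_
          have : ((q : ℝ) * L) ≤ p := by exact_mod_cast (hs p (Finset.mem_filter.1 hp).1).1.le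
          gcongr
      _ = (s.filter fun p => p / q ^ 2 = 0).card * ((1 : ℝ) / (q * L)) := by simp
      _ ≤ (q : ℝ) * ((1 : ℝ) / (q * L)) := by exact mul_le_mul_of_nonneg_right (hT 0) (by positivity)
      _ = 1 / L := by field_simp
  · calc ∑ i ∈ Finset.Icc 1 x, ∑ p ∈ s with p / q ^ 2 = i, (1 : ℝ) / p
        ≤ ∑ i ∈ Finset.Icc 1 x, (q : ℝ) * (1 / ((i : ℝ) * (q : ℝ) ^ 2)) := by
          refine Finset.sum_le_sum fun i hi => ?_
          have hi0 : (0 : ℝ) < i := by exact_mod_cast (Finset.mem_Icc.1 hi).1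
          calc ∑ p ∈ s with p / q ^ 2 = i, (1 : ℝ) / p
              ≤ ∑ _p ∈ s.filter (fun p => p / q ^ 2 = i), (1 : ℝ) / ((i : ℝ) * (q : ℝ) ^ 2) := by
                refine Finset.sum_le_sum fun p hp => ?_
                obtain ⟨-, h2⟩ := Finset.mem_filter.1 hp
                have : ((i : ℝ) * (q : ℝ) ^ 2) ≤ p := by
                  exact_mod_cast h2 ▸ Nat.div_mul_le_self p (q ^ 2)
                gcongr
            _ = (s.filter fun p => p / q ^ 2 = i).card * (1 / ((i : ℝ) * (q : ℝ) ^ 2)) := by simp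
            _ ≤ _ := by exact mul_le_mul_of_nonneg_right (hT i) (by positivity)
      _ = (1 / (q : ℝ)) * ∑ i ∈ Finset.Icc 1 x, ((i : ℝ))⁻¹ := by
          rw [Finset.mul_sum]
          refine Finset.sum_congr rfl fun i hi => ?_
          have hi0 : (i : ℝ) ≠ 0 := by
            have := (Finset.mem_Icc.1 hi).1
            exact_mod_cast (by omega : i ≠ 0)
          field_simp
      _ ≤ (1 / (q : ℝ)) * (1 + Real.log x) := by
          gcongr
          have h := harmonic_le_one_add_log x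
          rw [harmonic_eq_sum_Icc, Rat.cast_sum] at h
          simpa only [Rat.cast_inv, Rat.cast_natCast] using h
      _ = _ := by ring

lemma log_nat_le {x ℓ : ℕ} (hx : x < 2 ^ (ℓ + 1)) : Real.log x ≤ (ℓ + 1 : ℝ) := by
  rcases Nat.eq_zero_or_pos x with h | h
  · subst h; simp; positivity
  · have h1 : Real.log x ≤ Real.log ((2 : ℝ) ^ (ℓ + 1)) := by
      refine Real.log_le_log (by exact_mod_cast h) ?_
      exact_mod_cast hx.le
    rw [Real.log_pow] at h1
    have h2 : Real.log 2 ≤ 1 := by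
      have := Real.log_le_sub_one_of_pos (show (0 : ℝ) < 2 by norm_num)
      linarith
    push_cast at h1
    nlinarith

/-- For `q ∈ (2 ^ (2 ^ E), x]`, large Wieferich bases have small reciprocal sum. -/
lemma wieferich_sum {q x ℓ lam E : ℕ} (hq : q.Prime) (hq2 : q ≠ 2) (hxl : x < 2 ^ (ℓ + 1))
    (hlam : ℓ < 2 ^ (lam + 1)) (hE : 2 ^ E < q) (hE1 : 1 ≤ E) (hqx : q ≤ x) (s : Finset ℕ)
    (hs : ∀ p ∈ s, p.Prime ∧ 2 ^ (16 * (lam + 1)) < p ∧ p ≤ x ∧ p ^ (q - 1) % q ^ 2 = 1) :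
    ∑ p ∈ s, (1 : ℝ) / p ≤ 1 / (ℓ + 1 : ℝ) + (ℓ + 2 : ℝ) / q + 4 * (lam + 3 : ℝ) / E
      + 32 / ((2 : ℝ) ^ (lam + 1)) ^ 2 := by
  set L := ℓ + 1 with hL
  set lq := Nat.log 2 q with hlq
  have hElq : E ≤ lq := Nat.le_log_of_pow_le (by norm_num) hE.le
  have hlql : lq ≤ ℓ := by
    have : Nat.log 2 q < ℓ + 1 := Nat.log_lt_of_lt_pow hq.ne_zero (lt_of_le_of_lt hqx hxl)
    omega
  rw [← Finset.sum_filter_add_sum_filter_not s (fun p => q * L < p)]
  have hA : ∑ p ∈ s with q * L < p, (1 : ℝ) / p ≤ 1 / (ℓ + 1 : ℝ) + (ℓ + 2 : ℝ) / q := by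
    refine (sum_far (x := x) hq hq2 (by omega : 1 ≤ L) _ fun p hp => ?_).trans ?_
    · obtain ⟨h1, h2⟩ := Finset.mem_filter.1 hp
      exact ⟨h2, (hs p h1).2.2.1, (hs p h1).2.2.2⟩
    · have h1 := log_nat_le hxl
      rw [hL, Nat.cast_add_one]
      exact add_le_add le_rfl (div_le_div_of_nonneg_right (by linarith) (Nat.cast_nonneg q))
  set B := s.filter fun p => ¬ q * L < p
  have hB : ∀ p ∈ B, Nat.log 2 p ∈
      Finset.Ico (16 * (lam + 1)) lq ∪ Finset.Icc lq (lq + lam + 2) := by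
    intro p hp
    obtain ⟨h1, h2⟩ := Finset.mem_filter.1 hp
    have hp' := hs p h1
    have hz : 16 * (lam + 1) ≤ Nat.log 2 p := Nat.le_log_of_pow_le (by norm_num) hp'.2.1.le
    have hup : Nat.log 2 p < lq + lam + 3 := by
      refine Nat.log_lt_of_lt_pow hp'.1.ne_zero (lt_of_le_of_lt (not_lt.1 h2) ?_)
      calc q * L < 2 ^ (lq + 1) * L :=
            Nat.mul_lt_mul_of_pos_right (Nat.lt_pow_succ_log_self (by norm_num) q) (by omega)
        _ ≤ 2 ^ (lq + 1) * 2 ^ (lam + 1) := Nat.mul_le_mul_left _ (by omega)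
        _ ≤ _ := by rw [← pow_add]; exact Nat.pow_le_pow_right (by norm_num) (by omega)
    rcases lt_or_ge (Nat.log 2 p) lq with h | h
    · exact Finset.mem_union_left _ (Finset.mem_Ico.2 ⟨hz, h⟩)
    · exact Finset.mem_union_right _ (Finset.mem_Icc.2 ⟨h, by omega⟩)
  have hBs : ∑ p ∈ B, (1 : ℝ) / p ≤ 32 / ((2 : ℝ) ^ (lam + 1)) ^ 2 + 4 * (lam + 3 : ℝ) / E := by
    refine (sum_le_sum_blk B _ (fun p hp => (hs p (Finset.mem_filter.1 hp).1).1) hB).trans ?_
    rw [Finset.sum_union (Finset.disjoint_left.2 fun i hi hi' => by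
      have := (Finset.mem_Ico.1 hi).2; have := (Finset.mem_Icc.1 hi').1; omega)]
    refine add_le_add ?_ ?_
    · have hterm : ∀ i ∈ Finset.Ico (16 * (lam + 1)) lq,
          ∑ p ∈ blk i ∩ B, (1 : ℝ) / p ≤ 32 * (ℓ + 1 : ℝ) / ((2 : ℝ) ^ (lam + 1)) ^ 4 := by
        intro i hi
        obtain ⟨hi1, hi2⟩ := Finset.mem_Ico.1 hi
        have hc : (blk i ∩ B).card ≤ 32 * lq * 2 ^ (3 * i / 4) := by
          refine wieferich_block_card hq hq2 _ (fun p hp => ?_) hlq hi2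
          obtain ⟨hp1, hp2⟩ := Finset.mem_inter.1 hp
          exact ⟨(mem_blk.1 hp1).2, (mem_blk.1 hp1).1.2, (hs p (Finset.mem_filter.1 hp2).1).2.2.2⟩
        have h1 : ∀ p ∈ blk i ∩ B, (1 : ℝ) / p ≤ 1 / 2 ^ i := by
          intro p hp
          have : ((2 : ℝ) ^ i) ≤ p := by
            exact_mod_cast (mem_blk.1 (Finset.mem_inter.1 hp).1).1.1
          gcongr
        calc ∑ p ∈ blk i ∩ B, (1 : ℝ) / p ≤ ∑ _p ∈ blk i ∩ B, (1 : ℝ) / 2 ^ i :=
              Finset.sum_le_sum h1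
          _ = (blk i ∩ B).card / (2 : ℝ) ^ i := by simp [div_eq_mul_inv]
          _ ≤ ((32 * lq * 2 ^ (3 * i / 4) : ℕ) : ℝ) / (2 : ℝ) ^ i := by gcongr
          _ ≤ _ := by
              rw [div_le_div_iff₀ (by positivity) (by positivity)]
              have e : 32 * lq * 2 ^ (3 * i / 4) * (2 ^ (lam + 1)) ^ 4 ≤
                  32 * (ℓ + 1) * 2 ^ i := by
                rw [mul_assoc, ← pow_mul, ← pow_add]
                exact Nat.mul_le_mul (Nat.mul_le_mul_left _ (by omega))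
                  (Nat.pow_le_pow_right (by norm_num) (by omega))
              exact_mod_cast e
      refine (Finset.sum_le_card_nsmul _ _ _ hterm).trans ?_
      rw [nsmul_eq_mul, Nat.card_Ico]
      have h1 : ((lq - 16 * (lam + 1) : ℕ) : ℝ) ≤ (2 : ℝ) ^ (lam + 1) := by
        exact_mod_cast (by omega : lq - 16 * (lam + 1) ≤ 2 ^ (lam + 1))
      have h2 : (ℓ + 1 : ℝ) ≤ (2 : ℝ) ^ (lam + 1) := by
        exact_mod_cast (by omega : ℓ + 1 ≤ 2 ^ (lam + 1))
      calc ((lq - 16 * (lam + 1) : ℕ) : ℝ) * (32 * (ℓ + 1 : ℝ) / ((2 : ℝ) ^ (lam + 1)) ^ 4)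
          ≤ (2 : ℝ) ^ (lam + 1) * (32 * (2 : ℝ) ^ (lam + 1) / ((2 : ℝ) ^ (lam + 1)) ^ 4) := by
            gcongr
        _ = _ := by field_simp
    · have hE0 : (0 : ℝ) < E := by exact_mod_cast hE1
      have hterm : ∀ i ∈ Finset.Icc lq (lq + lam + 2),
          ∑ p ∈ blk i ∩ B, (1 : ℝ) / p ≤ 4 / (E : ℝ) := by
        intro i hi
        have hi1 : E ≤ i := hElq.trans (Finset.mem_Icc.1 hi).1
        refine (sum_blk_inter_le B i (hE1.trans hi1)).trans ?_
        gcongr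
      refine (Finset.sum_le_card_nsmul _ _ _ hterm).trans (le_of_eq ?_)
      rw [nsmul_eq_mul, Nat.card_Icc, show lq + lam + 2 + 1 - lq = lam + 3 by omega]
      push_cast; ring
  linarith

end Vale.Agent.P033
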