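import Vale.Agent.P033.Bridge
import Vale.Agent.P033.Eps

/-!
Almost every `u ≤ x` has a prime factor at which the criterion applies.
-/

namespace Vale.Agent.P033

open Finset

lemma card_mult_le (x m : ℕ) :
    (((Finset.Icc 1 x).filter fun u => m ∣ u).card : ℝ) ≤ (x : ℝ) / m := by
  have h : ((Finset.Icc 1 x).filter fun u => m ∣ u).card = x / m := by
    rw [show Finset.Icc 1 x = Finset.Ioc 0 x from rfl]
    exact Nat.Ioc_filter_dvd_card_eq_div x m
  rw [h]
  exact Nat.cast_div_le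

lemma card_mult_ge (x m : ℕ) :
    (x : ℝ) / m - 1 ≤ (((Finset.Icc 1 x).filter fun u => m ∣ u).card : ℝ) := by
  have h : ((Finset.Icc 1 x).filter fun u => m ∣ u).card = x / m := by
    rw [show Finset.Icc 1 x = Finset.Ioc 0 x from rfl]
    exact Nat.Ioc_filter_dvd_card_eq_div x m
  rw [h, ← Nat.floor_div_eq_div (K := ℝ)]
  linarith [Nat.lt_floor_add_one ((x : ℝ) / m)]

lemma card_exists_le {ι : Type*} (U : Finset ℕ) (S : Finset ι) (P : ι → ℕ → Prop)
    [∀ i u, Decidable (P i u)] :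
    ((U.filter fun u => ∃ i ∈ S, P i u).card : ℝ) ≤
      ∑ i ∈ S, ((U.filter (P i)).card : ℝ) := by
  classical
  have h : U.filter (fun u => ∃ i ∈ S, P i u) ⊆ S.biUnion fun i => U.filter (P i) := by
    intro u hu
    obtain ⟨h1, i, hi, h2⟩ := Finset.mem_filter.1 hu
    exact Finset.mem_biUnion.2 ⟨i, hi, Finset.mem_filter.2 ⟨h1, h2⟩⟩
  exact_mod_cast (Finset.card_le_card h).trans Finset.card_biUnion_le

/-- Second moment: few `u` have few prime factors from `Q`. -/
lemma few_divisors (x : ℕ) (Q : Finset ℕ) (hQ : ∀ q ∈ Q, q.Prime) (hQx : ∀ q ∈ Q, q ≤ x)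
    (μ : ℝ) (hμ : μ = ∑ q ∈ Q, (1 : ℝ) / q) (hpos : 0 < μ) :
    (((Finset.Icc 1 x).filter
      fun u => ((Q.filter (· ∣ u)).card : ℝ) < μ / 2).card : ℝ) ≤ 12 * x / μ := by
  set U := Finset.Icc 1 x
  set N : ℕ → ℝ := fun u => ((Q.filter (· ∣ u)).card : ℝ)
  have hN : ∀ u, N u = ∑ q ∈ Q, if q ∣ u then (1 : ℝ) else 0 := by intro u; simp [N]
  have hQc : (Q.card : ℝ) ≤ x := by
    have : Q ⊆ Finset.Icc 1 x := fun q hq => Finset.mem_Icc.2 ⟨(hQ q hq).one_lt.le, hQx q hq⟩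
    have := Finset.card_le_card this
    rw [Nat.card_Icc, Nat.add_sub_cancel] at this
    exact_mod_cast this
  have hcount : ∀ m : ℕ, (∑ u ∈ U, if m ∣ u then (1 : ℝ) else 0)
      = ((U.filter fun u => m ∣ u).card : ℝ) := by intro m; simp
  have hlow : (x : ℝ) * μ - Q.card ≤ ∑ u ∈ U, N u := by
    simp only [hN]
    rw [Finset.sum_comm]
    calc (x : ℝ) * μ - Q.card = ∑ q ∈ Q, ((x : ℝ) / q - 1) := by
          rw [hμ, Finset.mul_sum, Finset.sum_sub_distrib]; simp [div_eq_mul_inv]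
      _ ≤ _ := Finset.sum_le_sum fun q _ => by rw [hcount]; exact card_mult_ge x q
  have hsq : ∑ u ∈ U, N u ^ 2 ≤ (x : ℝ) * μ + x * μ ^ 2 := by
    simp only [hN, sq, Finset.sum_mul_sum]
    rw [Finset.sum_comm]
    calc ∑ a ∈ Q, ∑ u ∈ U, ∑ b ∈ Q,
          (if a ∣ u then (1 : ℝ) else 0) * (if b ∣ u then (1 : ℝ) else 0)
        ≤ ∑ a ∈ Q, ∑ b ∈ Q,
            ((if a = b then (x : ℝ) / a else 0) + (x : ℝ) * ((1 / a) * (1 / b))) := by
          refine Finset.sum_le_sum fun a ha => ?_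
          rw [Finset.sum_comm]
          refine Finset.sum_le_sum fun b hb => ?_
          rcases eq_or_ne a b with h | h
          · subst h
            rw [if_pos rfl]
            have h1 : ∀ u, (if a ∣ u then (1 : ℝ) else 0) * (if a ∣ u then (1 : ℝ) else 0)
                = (if a ∣ u then (1 : ℝ) else 0) := fun u => by split <;> simp
            rw [Finset.sum_congr rfl fun u _ => h1 u, hcount]
            have h2 : 0 ≤ (x : ℝ) * ((1 / a) * (1 / a)) := by positivity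
            linarith [card_mult_le x a]
          · rw [if_neg h, zero_add]
            have h1 : ∀ u, (if a ∣ u then (1 : ℝ) else 0) * (if b ∣ u then (1 : ℝ) else 0)
                = (if a * b ∣ u then (1 : ℝ) else 0) := by
              intro u
              have hc : a.Coprime b := (Nat.coprime_primes (hQ a ha) (hQ b hb)).2 h
              by_cases h1 : a ∣ u <;> by_cases h2 : b ∣ u
              · simp [h1, h2, hc.mul_dvd_of_dvd_of_dvd h1 h2]
              · simp [h2, show ¬ a * b ∣ u from fun h => h2 ((dvd_mul_left b a).trans h)]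
              · simp [h1, show ¬ a * b ∣ u from fun h => h1 ((dvd_mul_right a b).trans h)]
              · simp [h1, show ¬ a * b ∣ u from fun h => h1 ((dvd_mul_right a b).trans h)]
            rw [Finset.sum_congr rfl fun u _ => h1 u, hcount]
            refine (card_mult_le x (a * b)).trans (le_of_eq ?_)
            push_cast; ring
      _ = _ := by
          simp only [Finset.sum_add_distrib, Finset.sum_ite_eq]
          rw [hμ]
          congr 1
          · rw [Finset.mul_sum]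
            refine Finset.sum_congr rfl fun a ha => ?_
            rw [if_pos ha]; ring
          · rw [Finset.sum_mul_sum, Finset.mul_sum]
            exact Finset.sum_congr rfl fun a _ => by rw [Finset.mul_sum]
  have hvar : ∑ u ∈ U, (N u - μ) ^ 2 ≤ 3 * x * μ := by
    have e : ∑ u ∈ U, (N u - μ) ^ 2
        = ∑ u ∈ U, N u ^ 2 - 2 * μ * ∑ u ∈ U, N u + (U.card : ℝ) * μ ^ 2 := by
      simp only [sub_sq, Finset.sum_add_distrib, Finset.sum_sub_distrib, Finset.sum_const,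
        nsmul_eq_mul, Finset.mul_sum]
      congr 2
      exact Finset.sum_congr rfl fun u _ => by ring
    have hUc : (U.card : ℝ) = x := by simp [U]
    rw [e, hUc]
    nlinarith
  set A := U.filter fun u => N u < μ / 2
  have h1 : (A.card : ℝ) * (μ / 2) ^ 2 ≤ 3 * x * μ := by
    refine le_trans ?_ hvar
    refine le_trans (le_of_eq (by simp : (A.card : ℝ) * (μ / 2) ^ 2 = ∑ _u ∈ A, (μ / 2) ^ 2)) ?_
    refine le_trans (Finset.sum_le_sum fun u hu => ?_)
      (Finset.sum_le_sum_of_subset_of_nonneg (Finset.filter_subset _ _) fun u _ _ => sq_nonneg _)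
    have := (Finset.mem_filter.1 hu).2
    nlinarith
  show (A.card : ℝ) ≤ 12 * x / μ
  rw [le_div_iff₀ hpos]
  nlinarith

/-- Primes `q ∈ (2 ^ (2 ^ E'), x]` modulo which some small prime has order at most `T`. -/
lemma exceptional_card {Q : Finset ℕ} {b T : ℕ} (hQ : ∀ q ∈ Q, q.Prime ∧ 2 ^ b < q)
    (hexc : ∀ q ∈ Q, ∃ p : ℕ, p.Prime ∧ p ≤ 2 ^ b ∧ orderOf (p : ZMod q) ≤ T) :
    Q.card ≤ 2 ^ b * T * (b * T) := by
  have h : Q ⊆ (((Finset.Icc 2 (2 ^ b)).filter Nat.Prime) ×ˢ Finset.Icc 1 T).biUnion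
      fun pt => (pt.1 ^ pt.2 - 1).primeFactors := by
    intro q hq
    obtain ⟨hqp, hqb⟩ := hQ q hq
    obtain ⟨p, hp, hpb, ho⟩ := hexc q hq
    haveI : Fact q.Prime := ⟨hqp⟩
    have hp0 : (p : ZMod q) ≠ 0 := by
      intro h
      rw [ZMod.natCast_eq_zero_iff] at h
      have := Nat.le_of_dvd hp.pos h
      omega
    have hpos : 0 < orderOf (p : ZMod q) :=
      orderOf_pos_iff.2 (isOfFinOrder_iff_pow_eq_one.2
        ⟨q - 1, by have := hqp.two_le; omega, ZMod.pow_card_sub_one_eq_one hp0⟩)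
    refine Finset.mem_biUnion.2 ⟨(p, orderOf (p : ZMod q)), Finset.mem_product.2
      ⟨Finset.mem_filter.2 ⟨Finset.mem_Icc.2 ⟨hp.two_le, hpb⟩, hp⟩,
        Finset.mem_Icc.2 ⟨hpos, ho⟩⟩, ?_⟩
    have h1 : 1 < p ^ orderOf (p : ZMod q) := Nat.one_lt_pow hpos.ne' hp.one_lt
    refine Nat.mem_primeFactors.2 ⟨hqp, ?_, (Nat.sub_pos_of_lt h1).ne'⟩
    rw [← ZMod.natCast_eq_zero_iff, Nat.cast_sub h1.le, Nat.cast_pow, pow_orderOf_eq_one]
    simp
  refine (Finset.card_le_card h).trans (Finset.card_biUnion_le.trans ?_)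
  refine (Finset.sum_le_card_nsmul _ _ (b * T) ?_).trans ?_
  · intro pt hpt
    obtain ⟨h1, h2⟩ := Finset.mem_product.1 hpt
    obtain ⟨h3, h4⟩ := Finset.mem_filter.1 h1
    have hne : pt.1 ^ pt.2 - 1 ≠ 0 := by
      have := Nat.one_lt_pow (n := pt.2) (by have := (Finset.mem_Icc.1 h2).1; omega) h4.one_lt
      omega
    refine (Nat.pow_le_pow_iff_right (by norm_num : 1 < 2)).1 ?_
    calc 2 ^ (pt.1 ^ pt.2 - 1).primeFactors.card ≤ ∏ r ∈ (pt.1 ^ pt.2 - 1).primeFactors, r :=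
          Finset.pow_card_le_prod _ _ _ fun r hr => (Nat.prime_of_mem_primeFactors hr).two_le
      _ ≤ pt.1 ^ pt.2 - 1 :=
          Nat.le_of_dvd (Nat.pos_of_ne_zero hne) (Nat.prod_primeFactors_dvd _)
      _ ≤ (2 ^ b) ^ pt.2 :=
          (Nat.sub_le _ _).trans (Nat.pow_le_pow_left (Finset.mem_Icc.1 h3).2 _)
      _ ≤ _ := by
          rw [← pow_mul]
          exact Nat.pow_le_pow_right (by norm_num)
            (Nat.mul_le_mul_left _ (Finset.mem_Icc.1 h2).2)
  · rw [smul_eq_mul, Finset.card_product]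
    refine Nat.mul_le_mul_right _ (Nat.mul_le_mul ?_ (by simp))
    refine (Finset.card_filter_le _ _).trans ?_
    simp

lemma sum_primes_one_mod {q x : ℕ} (hq : 0 < q) (s : Finset ℕ)
    (hs : ∀ r ∈ s, r.Prime ∧ r ≤ x ∧ q ∣ r - 1) :
    ∑ r ∈ s, (1 : ℝ) / r ≤ (1 + Real.log x) / q := by
  have hq0 : (0 : ℝ) < q := by exact_mod_cast hq
  have hkey : ∀ r ∈ s, (r - 1) / q ∈ Finset.Icc 1 x ∧ r - 1 = q * ((r - 1) / q) := by
    intro r hr
    obtain ⟨h1, h2, h3⟩ := hs r hr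
    have e := (Nat.mul_div_cancel' h3).symm
    refine ⟨Finset.mem_Icc.2 ⟨?_, ?_⟩, e⟩
    · rcases Nat.eq_zero_or_pos ((r - 1) / q) with h | h
      · rw [h, mul_zero] at e; have := h1.two_le; omega
      · exact h
    · exact (Nat.div_le_self _ _).trans (by omega)
  calc ∑ r ∈ s, (1 : ℝ) / r
      ≤ ∑ r ∈ s, (fun k : ℕ => (1 : ℝ) / q * ((k : ℝ))⁻¹) ((r - 1) / q) := by
        refine Finset.sum_le_sum fun r hr => ?_
        obtain ⟨h1, h2⟩ := hkey r hr
        have hk : (0 : ℝ) < ((r - 1) / q : ℕ) := by exact_mod_cast (Finset.mem_Icc.1 h1).1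
        have hle : ((q : ℝ) * ((r - 1) / q : ℕ)) ≤ r := by
          exact_mod_cast (by rw [← h2]; omega : q * ((r - 1) / q) ≤ r)
        show (1 : ℝ) / r ≤ (1 : ℝ) / q * (((r - 1) / q : ℕ) : ℝ)⁻¹
        rw [one_div, one_div, ← mul_inv]
        exact inv_anti₀ (by positivity) hle
    _ = ∑ k ∈ s.image (fun r => (r - 1) / q), (1 : ℝ) / q * ((k : ℝ))⁻¹ := by
        rw [Finset.sum_image]
        intro a ha b hb hab
        have e1 := (hkey a ha).2
        have e2 := (hkey b hb).2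
        have := (hs a ha).1.two_le
        have := (hs b hb).1.two_le
        simp only at hab
        rw [hab] at e1
        omega
    _ ≤ ∑ k ∈ Finset.Icc 1 x, (1 : ℝ) / q * ((k : ℝ))⁻¹ := by
        refine Finset.sum_le_sum_of_subset_of_nonneg ?_ (fun k _ _ => by positivity)
        intro k hk
        obtain ⟨r, hr, rfl⟩ := Finset.mem_image.1 hk
        exact (hkey r hr).1
    _ ≤ _ := by
        rw [← Finset.mul_sum, div_mul_eq_mul_div, one_mul]
        gcongr
        have h := harmonic_le_one_add_log x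
        rw [harmonic_eq_sum_Icc, Rat.cast_sum] at h
        simpa only [Rat.cast_inv, Rat.cast_natCast] using h

lemma sum_least_pow (w : ℕ) (hw : 1 ≤ w) :
    ∑ p ∈ (Finset.Icc 2 (w ^ 2)).filter Nat.Prime,
      (1 : ℝ) / (p ^ (Nat.log p (w ^ 2) + 1) : ℕ) ≤ 2 / w := by
  set P := (Finset.Icc 2 (w ^ 2)).filter Nat.Prime
  have hw0 : (0 : ℝ) < w := by exact_mod_cast hw
  rw [← Finset.sum_filter_add_sum_filter_not P (fun p => p ≤ w)]
  have h1 : ∑ p ∈ P with p ≤ w, (1 : ℝ) / (p ^ (Nat.log p (w ^ 2) + 1) : ℕ) ≤ 1 / w := by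
    refine (Finset.sum_le_card_nsmul _ _ ((1 : ℝ) / (w : ℝ) ^ 2) ?_).trans ?_
    · intro p hp
      have hpp := (Finset.mem_filter.1 (Finset.mem_filter.1 hp).1).2
      have : w ^ 2 ≤ p ^ (Nat.log p (w ^ 2) + 1) :=
        (Nat.lt_pow_succ_log_self hpp.one_lt _).le
      have : ((w : ℝ) ^ 2) ≤ ((p ^ (Nat.log p (w ^ 2) + 1) : ℕ) : ℝ) := by exact_mod_cast this
      gcongr
    · rw [nsmul_eq_mul]
      have hc : ((P.filter (fun p => p ≤ w)).card : ℝ) ≤ w := by
        have : P.filter (fun p => p ≤ w) ⊆ Finset.Icc 1 w := fun p hp => by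
          obtain ⟨a, b⟩ := Finset.mem_filter.1 hp
          exact Finset.mem_Icc.2 ⟨(Finset.mem_filter.1 a).2.one_lt.le, b⟩
        have := Finset.card_le_card this
        simp at this
        exact_mod_cast this
      calc _ ≤ (w : ℝ) * (1 / (w : ℝ) ^ 2) := by gcongr
        _ = _ := by field_simp
  have h2 : ∑ p ∈ P with ¬ p ≤ w, (1 : ℝ) / (p ^ (Nat.log p (w ^ 2) + 1) : ℕ) ≤ 1 / w := by
    calc ∑ p ∈ P with ¬ p ≤ w, (1 : ℝ) / (p ^ (Nat.log p (w ^ 2) + 1) : ℕ)
        ≤ ∑ p ∈ P.filter (fun p => ¬ p ≤ w), ((p : ℝ) ^ 2)⁻¹ := by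
          refine Finset.sum_le_sum fun p hp => ?_
          obtain ⟨a, b⟩ := Finset.mem_filter.1 hp
          obtain ⟨c, hpp⟩ := Finset.mem_filter.1 a
          have h3 : 1 ≤ Nat.log p (w ^ 2) := Nat.log_pos hpp.one_lt (Finset.mem_Icc.1 c).2
          have : p ^ 2 ≤ p ^ (Nat.log p (w ^ 2) + 1) := Nat.pow_le_pow_right hpp.pos (by omega)
          have : ((p : ℝ) ^ 2) ≤ ((p ^ (Nat.log p (w ^ 2) + 1) : ℕ) : ℝ) := by exact_mod_cast this
          rw [one_div]
          exact inv_anti₀ (by have := hpp.pos; positivity) this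
      _ ≤ ∑ p ∈ Finset.Ioc w (w ^ 2), ((p : ℝ) ^ 2)⁻¹ := by
          refine Finset.sum_le_sum_of_subset_of_nonneg ?_ (fun k _ _ => by positivity)
          intro p hp
          obtain ⟨a, b⟩ := Finset.mem_filter.1 hp
          exact Finset.mem_Ioc.2
            ⟨by omega, (Finset.mem_Icc.1 (Finset.mem_filter.1 a).1).2⟩
      _ ≤ ((w : ℝ))⁻¹ - ((w ^ 2 : ℕ) : ℝ)⁻¹ :=
          sum_Ioc_inv_sq_le_sub (by omega) (Nat.le_self_pow two_ne_zero w)
      _ ≤ 1 / w := by
          rw [one_div]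
          linarith [show (0 : ℝ) ≤ ((w ^ 2 : ℕ) : ℝ)⁻¹ by positivity]
  calc _ ≤ (1 : ℝ) / w + 1 / w := add_le_add h1 h2
    _ = _ := by ring

end Vale.Agent.P033
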