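import Vale.Agent.P033.Descent

/-!
Nonexistence criterion for circulant Hadamard sequences.
-/

namespace Vale.Agent.P033

open Finset

/-- A sign sequence on `ZMod n` with all nontrivial periodic autocorrelations zero. -/
def IsCH (n : ℕ) [NeZero n] (h : ZMod n → ℤ) : Prop :=
  (∀ i, h i = 1 ∨ h i = -1) ∧ ∀ t : ZMod n, t ≠ 0 → ∑ i, h i * h (i + t) = 0

variable {n : ℕ} [NeZero n]

lemma IsCH.sq_eq_one {h : ZMod n → ℤ} (hh : IsCH n h) (i : ZMod n) : h i * h i = 1 := by
  rcases hh.1 i with e | e <;> rw [e] <;> rfl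

lemma IsCH.auto {h : ZMod n → ℤ} (hh : IsCH n h) (t : ZMod n) :
    ∑ i, h i * h (i + t) = if t = 0 then (n : ℤ) else 0 := by
  split_ifs with ht
  · subst ht; simp [hh.sq_eq_one]
  · exact hh.2 t ht

lemma IsCH.mul_conj {h : ZMod n → ℤ} (hh : IsCH n h) {K : Type*} [CommRing K]
    (ψ : AddChar (ZMod n) K) :
    (∑ k, (h k : K) * ψ k) * (∑ k, (h k : K) * ψ (-k)) = (n : K) := by
  rw [Finset.mul_sum]
  calc ∑ l, (∑ k, (h k : K) * ψ k) * ((h l : K) * ψ (-l))
      = ∑ l, ∑ t, ((h l * h (l + t) : ℤ) : K) * ψ t := by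
        refine Finset.sum_congr rfl fun l _ => ?_
        rw [Finset.sum_mul]
        refine Fintype.sum_equiv (Equiv.subRight l) _ _ fun k => ?_
        simp only [Equiv.subRight_apply, add_sub_cancel]
        push_cast
        rw [sub_eq_add_neg k l, AddChar.map_add_eq_mul]
        ring
    _ = ∑ t, ((if t = 0 then (n : ℤ) else 0 : ℤ) : K) * ψ t := by
        rw [Finset.sum_comm]
        refine Finset.sum_congr rfl fun t _ => ?_
        rw [← Finset.sum_mul, ← hh.auto t, Int.cast_sum]
    _ = _ := by simp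

/-- The nonexistence criterion, given a cyclotomic field. -/
theorem criterion_aux (K : Type*) [Field K] [NumberField K] [IsCyclotomicExtension {n} ℚ K] {q : ℕ} [hq : Fact q.Prime] (hq2 : q ≠ 2) (h2 : q ^ 2 ∣ n) (W : Finset ℕ)
    (hsize : n < q * n.totient)
    (hgood : ∀ p ∈ n.primeFactors, p ∉ W →
      ∃ e m k, n = p ^ e * m ∧ (tUnit h2 1 : ZMod n).val ≡ p ^ k [MOD m])
    (hbad : ∀ p ∈ W, p.Prime ∧ p ≠ q ∧
      (∏ r ∈ W, r ^ n.factorization r) ^ 2 ^ (W.card + 1) < orderOf (p : ZMod q))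
    (h : ZMod n → ℤ) : ¬ IsCH n h := by
  intro hh
  set x : K := ∑ k, (h k : K) * psi n K k
  have hM : x * cj (n := n) K x = (n : K) := by
    have : cj (n := n) K x = ∑ k, (h k : K) * psi n K (-k) := by
      simp only [x, map_sum, map_mul, map_intCast, cj_psi]
    rw [this]
    exact hh.mul_conj _
  have hx : IsIntegral ℤ x :=
    IsIntegral.sum _ fun k _ => (isIntegral_algebraMap (x := h k)).mul (psi_isIntegral k)
  have hone := supp_card_le_one h2 hq2 W x n hx (NeZero.ne n) hM hgood hbad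
  have hx0 : x ≠ 0 := by
    intro h0; rw [h0, zero_mul] at hM
    exact NeZero.ne n (by exact_mod_cast hM.symm)
  obtain ⟨j, hj, -⟩ := isEigen_of_card_le_one h2 hx0 hone
  set S : Finset (ZMod n) := univ.filter fun k => red (dvd_of_sq h2) k = j
  have hxS : x = ∑ k ∈ S, (h k : K) * psi n K k := by
    have h1 : comp K h2 j x = x := by rw [comp_eigen h2 hj, if_pos rfl]
    conv_lhs => rw [← h1]
    simp only [x, comp_sum, S, Finset.sum_filter]
    refine Finset.sum_congr rfl fun k _ => ?_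
    have he : IsEigen h2 0 ((h k : ℤ) : K) := fun i => by simp
    rw [mul_comm (h k : K), comp_mul_eigen h2 he, sub_zero, comp_psi]
    split_ifs <;> ring
  let φ : K →+* ℂ := Classical.arbitrary _
  let Ψ : AddChar (ZMod n) ℂ := φ.toMonoidHom.compAddChar (psi n K)
  have hΨ : Ψ.IsPrimitive := by
    refine AddChar.zmod_char_primitive_of_eq_one_only_at_zero n Ψ fun a ha => ?_
    have hz := IsCyclotomicExtension.zeta_spec n ℚ K
    have h1 : psi n K a = 1 := φ.injective (by rw [map_one]; exact ha)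
    rw [← ZMod.natCast_zmod_val a, psi_natCast, hz.pow_eq_one_iff_dvd] at h1
    rw [← ZMod.natCast_zmod_val a, ZMod.natCast_eq_zero_iff]
    exact h1
  set F : ZMod n → ℂ := fun a => ∑ k ∈ S, (h k : ℂ) * Ψ (a * k)
  have hconjΨ : ∀ k, (starRingEnd ℂ) (Ψ k) = Ψ (-k) := by
    intro k
    show (starRingEnd ℂ) (φ (psi n K k)) = φ (psi n K (-k))
    rw [← emb_cj (n := n), cj_psi]
  have htot : (∑ a, Complex.normSq (F a) : ℝ) = (n : ℝ) * S.card := by
    have h1 : ((∑ a, Complex.normSq (F a) : ℝ) : ℂ) = (((n : ℝ) * S.card : ℝ) : ℂ) := by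
      rw [Complex.ofReal_sum]
      simp only [← Complex.mul_conj, F, map_sum, map_mul, map_intCast, hconjΨ,
        Finset.sum_mul_sum]
      rw [Finset.sum_comm]
      have : ∀ k ∈ S, ∑ a, ∑ l ∈ S, (h k : ℂ) * Ψ (a * k) * ((h l : ℂ) * Ψ (-(a * l)))
          = (n : ℂ) := by
        intro k hk
        rw [Finset.sum_comm]
        have h3 : ∀ l ∈ S, ∑ a, (h k : ℂ) * Ψ (a * k) * ((h l : ℂ) * Ψ (-(a * l)))
            = if k = l then (n : ℂ) else 0 := by
          intro l _
          have h4 : ∀ a, (h k : ℂ) * Ψ (a * k) * ((h l : ℂ) * Ψ (-(a * l)))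
              = ((h k * h l : ℤ) : ℂ) * Ψ (a * (k - l)) := by
            intro a
            rw [mul_sub, sub_eq_add_neg, AddChar.map_add_eq_mul]; push_cast; ring
          simp only [h4, ← Finset.mul_sum, AddChar.sum_mulShift _ hΨ, ZMod.card, sub_eq_zero]
          split_ifs with he
          · subst he; simp [hh.sq_eq_one]
          · simp
        rw [Finset.sum_congr rfl h3]; simp [hk]
      rw [Finset.sum_congr rfl this, Finset.sum_const, nsmul_eq_mul]
      push_cast; ring
    exact_mod_cast h1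
  have hunit : ∀ a : (ZMod n)ˣ, Complex.normSq (F (a : ZMod n)) = (n : ℝ) := by
    intro a
    have h1 : F (a : ZMod n) = φ (gal K a x) := by
      rw [hxS]
      simp only [F, map_sum, map_mul, map_intCast, gal_psi]
      rfl
    have h2' : ((Complex.normSq (F (a : ZMod n)) : ℝ) : ℂ) = ((n : ℝ) : ℂ) := by
      rw [h1, ← Complex.mul_conj, ← emb_cj (n := n), ← map_mul, cj_gal, ← map_mul, hM]
      simp
    exact_mod_cast h2'
  have hineq : (n : ℝ) * n.totient ≤ (n : ℝ) * S.card := by
    rw [← htot]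
    calc (n : ℝ) * n.totient = ∑ a : (ZMod n)ˣ, Complex.normSq (F (a : ZMod n)) := by
          simp [hunit, ZMod.card_units_eq_totient, mul_comm]
      _ = ∑ a ∈ univ.map ⟨fun a : (ZMod n)ˣ => (a : ZMod n), Units.val_injective⟩,
            Complex.normSq (F a) := by rw [Finset.sum_map]; rfl
      _ ≤ _ := Finset.sum_le_univ_sum_of_nonneg fun a => Complex.normSq_nonneg _
  have hS : n.totient ≤ S.card := by
    have hn : (0 : ℝ) < n := by exact_mod_cast NeZero.pos n
    exact_mod_cast le_of_mul_le_mul_left hineq hn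
  have hfib : S.card * q = n := by
    have hsurj : Function.Surjective (red (dvd_of_sq h2)) := ZMod.castHom_surjective _
    have h1 : ∀ i : ZMod q, (univ.filter fun k : ZMod n => red (dvd_of_sq h2) k = i).card
        = S.card := fun i => AddMonoidHom.card_fiber_eq_of_mem_range
          (red (dvd_of_sq h2)).toAddMonoidHom (hsurj i) (hsurj j)
    have h3 := Finset.card_eq_sum_card_fiberwise (f := fun k : ZMod n => red (dvd_of_sq h2) k)
      (s := univ) (t := univ) (fun _ _ => Finset.mem_univ _)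
    simp only [h1, Finset.card_univ, ZMod.card, Finset.sum_const, smul_eq_mul] at h3
    rw [mul_comm]; exact h3.symm
  have := Nat.mul_le_mul_right q hS
  rw [hfib, mul_comm] at this
  omega

/-- The nonexistence criterion. -/
theorem criterion {q : ℕ} [Fact q.Prime] (hq2 : q ≠ 2) (h2 : q ^ 2 ∣ n) (W : Finset ℕ)
    (hsize : n < q * n.totient)
    (hgood : ∀ p ∈ n.primeFactors, p ∉ W →
      ∃ e m k, n = p ^ e * m ∧ (tUnit h2 1 : ZMod n).val ≡ p ^ k [MOD m])
    (hbad : ∀ p ∈ W, p.Prime ∧ p ≠ q ∧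
      (∏ r ∈ W, r ^ n.factorization r) ^ 2 ^ (W.card + 1) < orderOf (p : ZMod q))
    (h : ZMod n → ℤ) : ¬ IsCH n h :=
  haveI : IsCyclotomicExtension {n} ℚ (CyclotomicField n ℚ) :=
    CyclotomicField.isCyclotomicExtension n ℚ
  criterion_aux (CyclotomicField n ℚ) hq2 h2 W hsize hgood hbad h

end Vale.Agent.P033
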