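import Mathlib

/-!
Eigen-components of a cyclotomic field under the order `q` automorphism group fixing `ζ ^ q`,
together with the support bound `#supp x ≤ |x|^2` for integral `x`.
-/

namespace Vale.Agent.P033

open Finset

variable {n : ℕ} [NeZero n] {q : ℕ} [hq : Fact q.Prime]

/-- The embedding of `ZMod q` into `ZMod n` as multiples of `n / q`. -/
def iota (h : q ∣ n) : ZMod q →+ ZMod n :=
  ZMod.lift q ⟨zmultiplesHom (ZMod n) ((n / q : ℕ) : ZMod n), by
    have : ((q * (n / q) : ℕ) : ZMod n) = 0 := by rw [Nat.mul_div_cancel' h]; simp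
    simpa [zmultiplesHom_apply] using this⟩

lemma iota_natCast (h : q ∣ n) (a : ℕ) : iota h (a : ZMod q) = (((n / q) * a : ℕ) : ZMod n) := by
  have : ((a : ℤ) : ZMod q) = (a : ZMod q) := by simp
  rw [← this, iota, ZMod.lift_coe]
  simp [zmultiplesHom_apply, mul_comm]

/-- Reduction mod `q`. -/
abbrev red (h : q ∣ n) : ZMod n →+* ZMod q := ZMod.castHom h (ZMod q)

lemma red_natCast (h : q ∣ n) (a : ℕ) : red h (a : ZMod n) = (a : ZMod q) := by simp

lemma iota_red_mul (h : q ∣ n) (i : ZMod q) (k : ZMod n) :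
    iota h i * k = iota h (i * red h k) := by
  obtain ⟨a, rfl⟩ := ZMod.natCast_zmod_surjective i
  obtain ⟨b, rfl⟩ := ZMod.natCast_zmod_surjective k
  rw [red_natCast, ← Nat.cast_mul a b, iota_natCast, iota_natCast]
  push_cast; ring

lemma dvd_of_sq (h : q ^ 2 ∣ n) : q ∣ n := (dvd_pow_self q two_ne_zero).trans h

lemma iota_mul_iota (h : q ^ 2 ∣ n) (i j : ZMod q) :
    iota (dvd_of_sq h) i * iota (dvd_of_sq h) j = 0 := by
  obtain ⟨a, rfl⟩ := ZMod.natCast_zmod_surjective i
  obtain ⟨b, rfl⟩ := ZMod.natCast_zmod_surjective j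
  rw [iota_natCast, iota_natCast, ← Nat.cast_mul, ZMod.natCast_eq_zero_iff]
  obtain ⟨c, rfl⟩ := h
  have hq0 : 0 < q := hq.out.pos
  have : q ^ 2 * c / q = q * c := by
    rw [show q ^ 2 * c = q * (q * c) by ring, Nat.mul_div_cancel_left _ hq0]
  rw [this]
  exact ⟨c * a * b, by ring⟩

/-- The unit `1 + (n/q) i`. -/
def tUnit (h : q ^ 2 ∣ n) (i : ZMod q) : (ZMod n)ˣ where
  val := 1 + iota (dvd_of_sq h) i
  inv := 1 + iota (dvd_of_sq h) (-i)
  val_inv := by
    have h2 := iota_mul_iota h i (-i)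
    rw [map_neg] at h2 ⊢
    linear_combination h2
  inv_val := by
    have h2 := iota_mul_iota h i (-i)
    rw [map_neg] at h2 ⊢
    linear_combination h2

lemma tUnit_add (h : q ^ 2 ∣ n) (i j : ZMod q) : tUnit h (i + j) = tUnit h i * tUnit h j := by
  ext
  simp only [tUnit, map_add, Units.val_mul]
  linear_combination -(iota_mul_iota h i j)

section Field

variable {K : Type*} [Field K] [NumberField K] [hK : IsCyclotomicExtension {n} ℚ K]

variable (n K) in
/-- `k ↦ ζ ^ k`. -/
noncomputable def psi : AddChar (ZMod n) K :=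
  AddChar.zmodChar n (IsCyclotomicExtension.zeta_spec n ℚ K).pow_eq_one

lemma psi_natCast (a : ℕ) : psi n K (a : ZMod n) = IsCyclotomicExtension.zeta n ℚ K ^ a :=
  AddChar.zmodChar_apply' _ a

lemma psi_pow_eq_one (k : ZMod n) : psi n K k ^ n = 1 := by
  rw [← AddChar.map_nsmul_eq_pow]
  simp

lemma psi_isIntegral (k : ZMod n) : IsIntegral ℤ (psi n K k) := by
  refine IsIntegral.of_pow (NeZero.pos n) ?_
  rw [psi_pow_eq_one]; exact isIntegral_one

variable (K) in
/-- The automorphism `ζ ↦ ζ ^ a`. -/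
noncomputable def gal (a : (ZMod n)ˣ) : K ≃ₐ[ℚ] K :=
  (IsCyclotomicExtension.Rat.galEquivZMod n K).symm a

lemma gal_psi (a : (ZMod n)ˣ) (k : ZMod n) : gal K a (psi n K k) = psi n K ((a : ZMod n) * k) := by
  rw [IsCyclotomicExtension.Rat.galEquivZMod_apply_of_pow_eq n K _ (psi_pow_eq_one k)]
  simp only [gal, MulEquiv.apply_symm_apply]
  rw [← AddChar.map_nsmul_eq_pow, nsmul_eq_mul, ZMod.natCast_zmod_val]

lemma gal_mul (a b : (ZMod n)ˣ) (x : K) : gal K (a * b) x = gal K a (gal K b x) := by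
  simp [gal, map_mul]

lemma gal_comm (a b : (ZMod n)ˣ) (x : K) : gal K a (gal K b x) = gal K b (gal K a x) := by
  rw [← gal_mul, ← gal_mul, mul_comm]

lemma gal_one (x : K) : gal K (1 : (ZMod n)ˣ) x = x := by rw [gal, map_one]; rfl

lemma gal_isIntegral (a : (ZMod n)ˣ) {x : K} (hx : IsIntegral ℤ x) : IsIntegral ℤ (gal K a x) :=
  hx.map (AlgHom.restrictScalars ℤ (gal K a).toAlgHom)

/-- Induction principle for integral elements. -/
lemma integral_induction {P : K → Prop} {x : K} (hx : IsIntegral ℤ x)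
    (hpsi : ∀ k, P (psi n K k)) (hzero : P 0)
    (hadd : ∀ a b, P a → P b → P (a + b)) (hneg : ∀ a, P a → P (-a)) : P x := by
  have hz := IsCyclotomicExtension.zeta_spec n ℚ K
  have hcl := IsCyclotomicExtension.Rat.isIntegralClosure_adjoin_singleton (n := n) hz
  obtain ⟨⟨y, hy⟩, hyx⟩ := hcl.isIntegral_iff.1 hx
  have hyx' : y = x := hyx
  subst hyx'
  clear hx hyx
  rw [← Subalgebra.mem_toSubmodule, Algebra.adjoin_eq_span] at hy
  induction hy using Submodule.span_induction with
  | mem a ha =>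
    obtain ⟨m, rfl⟩ := (Submonoid.mem_closure_singleton).1 ha
    rw [← psi_natCast]; exact hpsi _
  | zero => exact hzero
  | add a b _ _ iha ihb => exact hadd a b iha ihb
  | smul c a _ iha =>
    induction c with
    | zero => simpa using hzero
    | succ i ih => rw [add_smul, one_smul]; exact hadd _ _ ih iha
    | pred i ih => rw [sub_smul, one_smul, sub_eq_add_neg]; exact hadd _ _ ih (hneg _ iha)

variable (K) in
/-- The complex conjugation of the CM field. -/
noncomputable def cj : K ≃ₐ[ℚ] K := gal K (-1 : (ZMod n)ˣ)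

lemma cj_gal (a : (ZMod n)ˣ) (x : K) : cj (n := n) K (gal K a x) = gal K a (cj (n := n) K x) :=
  gal_comm _ _ _

lemma cj_cj (x : K) : cj (n := n) K (cj (n := n) K x) = x := by
  rw [cj, ← gal_mul]; simp [gal_one]

lemma cj_psi (k : ZMod n) : cj (n := n) K (psi n K k) = psi n K (-k) := by
  rw [cj, gal_psi]; simp

variable (K) in
/-- The additive character `i ↦ ω ^ i` of `ZMod q`, with `ω = ζ ^ (n/q)`. -/
noncomputable def chi (h : q ∣ n) : AddChar (ZMod q) K :=
  (psi n K).compAddMonoidHom (iota h)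

lemma chi_apply (h : q ∣ n) (i : ZMod q) : chi K h i = psi n K (iota h i) := rfl

lemma chi_isPrimitiveRoot (h : q ∣ n) : IsPrimitiveRoot (chi K h 1) q := by
  have h1 : iota h (1 : ZMod q) = ((n / q : ℕ) : ZMod n) := by
    simpa using iota_natCast (n := n) h 1
  rw [chi_apply, h1, psi_natCast]
  exact (IsCyclotomicExtension.zeta_spec n ℚ K).pow (NeZero.pos n)
    (by rw [Nat.div_mul_cancel h])

lemma sum_chi (h : q ∣ n) (a : ZMod q) :
    ∑ i : ZMod q, chi K h (i * a) = if a = 0 then (q : K) else 0 := by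
  classical
  have hp := chi_isPrimitiveRoot (K := K) h
  have hprim : (chi K h).IsPrimitive := by
    apply AddChar.IsPrimitive.of_ne_one
    intro hc
    exact hp.ne_one hq.out.one_lt (by rw [hc]; rfl)
  have := AddChar.sum_mulShift a hprim
  rw [this, ZMod.card]
  split <;> simp

variable (h2 : q ^ 2 ∣ n)

variable (K) in
/-- The automorphisms fixing `ζ ^ q`. -/
noncomputable def sig (i : ZMod q) : K ≃ₐ[ℚ] K := gal K (tUnit h2 i)

lemma sig_add (i j : ZMod q) (x : K) : sig K h2 (i + j) x = sig K h2 i (sig K h2 j x) := by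
  rw [sig, tUnit_add, gal_mul]; rfl

lemma sig_psi (i : ZMod q) (k : ZMod n) :
    sig K h2 i (psi n K k) =
      chi K (dvd_of_sq h2) (i * red (dvd_of_sq h2) k) * psi n K k := by
  rw [sig, gal_psi, chi_apply, ← AddChar.map_add_eq_mul]
  congr 1
  show (1 + iota (dvd_of_sq h2) i) * k = _
  rw [add_mul, one_mul, iota_red_mul, add_comm]

lemma sig_chi (i j : ZMod q) :
    sig K h2 i (chi K (dvd_of_sq h2) j) = chi K (dvd_of_sq h2) j := by
  rw [chi_apply, sig, gal_psi]
  congr 1
  show (1 + iota (dvd_of_sq h2) i) * iota (dvd_of_sq h2) j = _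
  rw [add_mul, one_mul, iota_mul_iota h2, add_zero]

lemma sig_isIntegral (i : ZMod q) {x : K} (hx : IsIntegral ℤ x) :
    IsIntegral ℤ (sig K h2 i x) := gal_isIntegral _ hx

variable (K) in
/-- Projection to the `j`-th eigenspace. -/
noncomputable def comp (j : ZMod q) (x : K) : K :=
  (q : K)⁻¹ * ∑ i : ZMod q, chi K (dvd_of_sq h2) (-(i * j)) * sig K h2 i x

lemma q_ne_zero : (q : K) ≠ 0 := by exact_mod_cast hq.out.ne_zero

lemma comp_add (j : ZMod q) (x y : K) :
    comp K h2 j (x + y) = comp K h2 j x + comp K h2 j y := by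
  simp only [comp, map_add, mul_add, Finset.sum_add_distrib]

lemma comp_zero (j : ZMod q) : comp K h2 j 0 = 0 := by simp [comp]

lemma comp_neg (j : ZMod q) (x : K) : comp K h2 j (-x) = -comp K h2 j x := by
  simp [comp, map_neg, mul_neg, Finset.sum_neg_distrib]

lemma comp_sum {ι : Type*} (s : Finset ι) (f : ι → K) (j : ZMod q) :
    comp K h2 j (∑ b ∈ s, f b) = ∑ b ∈ s, comp K h2 j (f b) :=
  map_sum (AddMonoidHom.mk' (comp K h2 j) (comp_add h2 j)) f s

/-- `v` lies in the `a`-th eigenspace. -/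
def IsEigen (a : ZMod q) (v : K) : Prop :=
  ∀ i, sig K h2 i v = chi K (dvd_of_sq h2) (i * a) * v

lemma comp_isEigen (j : ZMod q) (x : K) : IsEigen h2 j (comp K h2 j x) := by
  intro i
  simp only [comp, map_mul, map_inv₀, map_natCast, map_sum, sig_chi, ← sig_add]
  rw [← mul_assoc, mul_comm (chi K _ _), mul_assoc, Finset.mul_sum (a := chi K _ (i * j))]
  congr 1
  refine Fintype.sum_equiv (Equiv.addLeft i) _ _ fun k => ?_
  simp only [Equiv.coe_addLeft, ← mul_assoc, ← AddChar.map_add_eq_mul]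
  congr 2
  ring

lemma comp_psi (j : ZMod q) (k : ZMod n) :
    comp K h2 j (psi n K k) = if red (dvd_of_sq h2) k = j then psi n K k else 0 := by
  simp only [comp, sig_psi, ← mul_assoc, ← AddChar.map_add_eq_mul]
  rw [← Finset.sum_mul,
    show (fun i : ZMod q => chi K (dvd_of_sq h2) (-(i * j) + i * red (dvd_of_sq h2) k)) =
      fun i => chi K (dvd_of_sq h2) (i * (red (dvd_of_sq h2) k - j)) by
      funext i; congr 1; ring,
    sum_chi]
  simp only [sub_eq_zero]
  by_cases h : red (dvd_of_sq h2) k = j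
  · rw [if_pos h, if_pos h, ← mul_assoc, inv_mul_cancel₀ q_ne_zero, one_mul]
  · rw [if_neg h, if_neg h, zero_mul, mul_zero]

lemma sum_comp (x : K) : ∑ j : ZMod q, comp K h2 j x = x := by
  simp only [comp, ← Finset.mul_sum]
  rw [Finset.sum_comm]
  simp only [← Finset.sum_mul]
  have : ∀ i : ZMod q, ∑ j : ZMod q, chi K (dvd_of_sq h2) (-(i * j)) =
      if i = 0 then (q : K) else 0 := by
    intro i
    have := sum_chi (K := K) (dvd_of_sq h2) (-i)
    simp only [neg_eq_zero] at this
    rw [← this]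
    exact Finset.sum_congr rfl fun j _ => by congr 1; ring
  simp only [this, ite_mul, zero_mul, Finset.sum_ite_eq', Finset.mem_univ, if_true]
  have h0 : sig K h2 0 x = x := by
    have h1 : tUnit h2 0 = 1 := by ext; simp [tUnit]
    rw [sig, h1, gal_one]
  rw [h0, ← mul_assoc, inv_mul_cancel₀ q_ne_zero, one_mul]

lemma comp_mul_eigen {a : ZMod q} {v : K} (hv : IsEigen h2 a v) (j : ZMod q) (x : K) :
    comp K h2 j (x * v) = comp K h2 (j - a) x * v := by
  simp only [comp, map_mul, hv _]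
  rw [mul_assoc, Finset.sum_mul]
  congr 1
  refine Finset.sum_congr rfl fun i _ => ?_
  have : chi K (dvd_of_sq h2) (-(i * (j - a))) =
      chi K (dvd_of_sq h2) (-(i * j)) * chi K (dvd_of_sq h2) (i * a) := by
    rw [← AddChar.map_add_eq_mul]; congr 1; ring
  rw [this]; ring

lemma comp_eigen {a : ZMod q} {v : K} (hv : IsEigen h2 a v) (j : ZMod q) :
    comp K h2 j v = if j = a then v else 0 := by
  have h1 : (1 : K) = psi n K 0 := by simp
  have := comp_mul_eigen h2 hv j 1
  rw [one_mul] at this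
  rw [this, h1, comp_psi]
  simp [eq_comm (a := (0 : ZMod q)), sub_eq_zero]

lemma comp_gal (a : (ZMod n)ˣ) (j : ZMod q) (x : K) :
    comp K h2 (red (dvd_of_sq h2) a * j) (gal K a x) = gal K a (comp K h2 j x) := by
  have heig : ∀ l, IsEigen h2 (red (dvd_of_sq h2) a * l) (gal K a (comp K h2 l x)) := by
    intro l i
    rw [sig, gal_comm]
    rw [show gal K (tUnit h2 i) (comp K h2 l x) = _ from comp_isEigen h2 l x i]
    rw [map_mul, chi_apply, gal_psi, chi_apply]
    congr 2
    rw [mul_comm, iota_red_mul]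
    congr 1; ring
  conv_lhs => rw [← sum_comp h2 x, map_sum, comp_sum]
  rw [Finset.sum_congr rfl fun l _ => comp_eigen h2 (heig l) _]
  have hinj : ∀ l, red (dvd_of_sq h2) a * j = red (dvd_of_sq h2) a * l ↔ j = l := fun l =>
    mul_right_inj' (IsUnit.ne_zero ((Units.isUnit a).map (red (dvd_of_sq h2))))
  rw [Finset.sum_congr rfl fun l _ => if_congr (hinj l) rfl rfl]
  simp

lemma comp_isIntegral (j : ZMod q) {x : K} (hx : IsIntegral ℤ x) :
    IsIntegral ℤ (comp K h2 j x) := by
  refine integral_induction (n := n) (P := fun y => IsIntegral ℤ (comp K h2 j y)) hx ?_ ?_ ?_ ?_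
  · intro k; rw [comp_psi]; split
    · exact psi_isIntegral k
    · exact isIntegral_zero
  · rw [comp_zero]; exact isIntegral_zero
  · intro a b ha hb; rw [comp_add]; exact ha.add hb
  · intro a ha; rw [comp_neg]; exact ha.neg

lemma sum_norm_comp {x : K} {M : ℕ} (hM : x * cj (n := n) K x = (M : K)) :
    ∑ j : ZMod q, comp K h2 j x * cj (n := n) K (comp K h2 j x) = (M : K) := by
  set e : ZMod q → K := fun j => comp K h2 j x
  have hcjchi : ∀ i : ZMod q, cj (n := n) K (chi K (dvd_of_sq h2) i) = chi K (dvd_of_sq h2) (-i) := by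
    intro i; rw [chi_apply, cj_psi, chi_apply, map_neg (iota (dvd_of_sq h2))]
  have key : ∀ i : ZMod q, (M : K) = ∑ j, ∑ l,
      chi K (dvd_of_sq h2) (i * (j - l)) * (e j * cj (n := n) K (e l)) := by
    intro i
    have h1 : sig K h2 i x * cj (n := n) K (sig K h2 i x) = (M : K) := by
      rw [sig, cj_gal, ← map_mul, hM, map_natCast]
    have h3 : sig K h2 i x = ∑ j, chi K (dvd_of_sq h2) (i * j) * e j := by
      conv_lhs => rw [← sum_comp h2 x, map_sum]
      exact Finset.sum_congr rfl fun j _ => comp_isEigen h2 j x i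
    rw [← h1, h3, map_sum, Finset.sum_mul_sum]
    refine Finset.sum_congr rfl fun j _ => Finset.sum_congr rfl fun l _ => ?_
    rw [map_mul (cj (n := n) K), hcjchi, mul_sub, sub_eq_add_neg, AddChar.map_add_eq_mul]
    ring
  have hs : (q : K) * (M : K) = (q : K) * ∑ j, e j * cj (n := n) K (e j) := by
    calc (q : K) * (M : K) = ∑ i : ZMod q, (M : K) := by simp
      _ = ∑ i : ZMod q, ∑ j, ∑ l,
          chi K (dvd_of_sq h2) (i * (j - l)) * (e j * cj (n := n) K (e l)) :=
        Finset.sum_congr rfl fun i _ => key i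
      _ = _ := by
        rw [Finset.sum_comm, Finset.mul_sum]
        refine Finset.sum_congr rfl fun j _ => ?_
        rw [Finset.sum_comm]
        simp only [← Finset.sum_mul, sum_chi, sub_eq_zero, ite_mul, zero_mul, Finset.sum_ite_eq,
          Finset.mem_univ, if_true]
  exact (mul_left_cancel₀ q_ne_zero hs).symm

lemma emb_cj (φ : K →+* ℂ) (x : K) : φ (cj (n := n) K x) = (starRingEnd ℂ) (φ x) := by
  have hpsi : ∀ k : ZMod n, φ (psi n K (-k)) = (starRingEnd ℂ) (φ (psi n K k)) := by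
    intro k
    have h1 : φ (psi n K k) * φ (psi n K (-k)) = 1 := by
      rw [← map_mul, ← AddChar.map_add_eq_mul]; simp
    have hn : ‖φ (psi n K k)‖ = 1 :=
      Complex.norm_eq_one_of_pow_eq_one (by rw [← map_pow, psi_pow_eq_one, map_one])
        (NeZero.ne n)
    rw [← Complex.inv_eq_conj hn]
    exact eq_inv_of_mul_eq_one_right h1
  have : (φ.comp (cj (n := n) K).toRingEquiv.toRingHom).toRatAlgHom
      = ((starRingEnd ℂ).comp φ).toRatAlgHom := by
    refine ((IsCyclotomicExtension.zeta_spec n ℚ K).powerBasis ℚ).algHom_ext ?_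
    rw [IsPrimitiveRoot.powerBasis_gen]
    have hz : IsCyclotomicExtension.zeta n ℚ K = psi n K (1 : ZMod n) := by
      simpa using (psi_natCast (n := n) (K := K) 1).symm
    show φ (cj (n := n) K _) = (starRingEnd ℂ) (φ _)
    rw [hz, cj_psi, hpsi]
  exact AlgHom.congr_fun this x

include hK in
lemma card_gal_le_sum_normSq (φ : K →+* ℂ) {x : K} (hx : IsIntegral ℤ x) (hx0 : x ≠ 0) :
    (Fintype.card (K ≃ₐ[ℚ] K) : ℝ) ≤ ∑ g : K ≃ₐ[ℚ] K, Complex.normSq (φ (g x)) := by
  haveI : IsGalois ℚ K := IsCyclotomicExtension.isGalois {n} ℚ K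
  obtain ⟨z, hz⟩ := IsIntegrallyClosed.isIntegral_iff.1 (Algebra.isIntegral_norm ℚ hx)
  have hzne : z ≠ 0 := by
    rintro rfl
    exact hx0 (by simpa using hz.symm)
  have hp : ∏ g : K ≃ₐ[ℚ] K, Complex.normSq (φ (g x)) = ((z : ℝ)) ^ 2 := by
    rw [← map_prod, ← map_prod, ← Algebra.norm_eq_prod_automorphisms, ← hz]
    simp [sq]
  have h1 : 1 ≤ ∏ g : K ≃ₐ[ℚ] K, Complex.normSq (φ (g x)) := by
    rw [hp]
    have : (1 : ℤ) ≤ z ^ 2 := by nlinarith [Int.one_le_abs hzne, sq_abs z, abs_nonneg z]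
    exact_mod_cast this
  have hpos : ∀ g : K ≃ₐ[ℚ] K, 0 < Complex.normSq (φ (g x)) := fun g => by
    rw [Complex.normSq_pos]; simpa using hx0
  have hlog := Real.log_nonneg h1
  rw [Real.log_prod (fun g _ => (hpos g).ne')] at hlog
  have := hlog.trans (Finset.sum_le_sum fun g _ => Real.log_le_sub_one_of_pos (hpos g))
  simp only [Finset.sum_sub_distrib, Finset.sum_const, Finset.card_univ, nsmul_eq_mul,
    mul_one] at this
  linarith

open Classical in
variable (K) in
/-- The nonzero eigen-components of `x`. -/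
noncomputable def supp (x : K) : Finset (ZMod q) :=
  Finset.univ.filter fun j => comp K h2 j x ≠ 0

lemma mem_supp {x : K} {j : ZMod q} : j ∈ supp K h2 x ↔ comp K h2 j x ≠ 0 := by
  simp [supp]

lemma supp_card_le {x : K} (hx : IsIntegral ℤ x) {M : ℕ}
    (hM : x * cj (n := n) K x = (M : K)) : (supp K h2 x).card ≤ M := by
  haveI : IsGalois ℚ K := IsCyclotomicExtension.isGalois {n} ℚ K
  let φ : K →+* ℂ := Classical.arbitrary _
  set C : ℝ := ((Fintype.card (K ≃ₐ[ℚ] K) : ℕ) : ℝ) with hCdef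
  have hC : 0 < C := by rw [hCdef]; exact_mod_cast Fintype.card_pos
  have key : ∀ g : K ≃ₐ[ℚ] K,
      ∑ j ∈ supp K h2 x, Complex.normSq (φ (g (comp K h2 j x))) ≤ (M : ℝ) := by
    intro g
    have hg : ∀ y, g (cj (n := n) K y) = cj (n := n) K (g y) := by
      intro y
      obtain ⟨a, rfl⟩ : ∃ a, gal K a = g :=
        ⟨_, (IsCyclotomicExtension.Rat.galEquivZMod n K).symm_apply_apply g⟩
      exact (cj_gal a y).symm
    have h1 : ∀ y, ((Complex.normSq (φ (g y)) : ℝ) : ℂ) = φ (g (y * cj (n := n) K y)) := by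
      intro y
      rw [map_mul, hg, map_mul, emb_cj, Complex.mul_conj]
    refine (Finset.sum_le_univ_sum_of_nonneg fun j => Complex.normSq_nonneg _).trans (le_of_eq ?_)
    have : ((∑ j : ZMod q, Complex.normSq (φ (g (comp K h2 j x))) : ℝ) : ℂ) = ((M : ℝ) : ℂ) := by
      rw [Complex.ofReal_sum]
      simp only [h1]
      rw [← map_sum, ← map_sum, sum_norm_comp h2 hM]
      simp
    exact_mod_cast this
  have h3 : ((supp K h2 x).card : ℝ) * C ≤ (M : ℝ) * C := by
    calc ((supp K h2 x).card : ℝ) * C = ∑ j ∈ supp K h2 x, C := by simp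
      _ ≤ ∑ j ∈ supp K h2 x, ∑ g : K ≃ₐ[ℚ] K, Complex.normSq (φ (g (comp K h2 j x))) :=
        Finset.sum_le_sum fun j hj =>
          card_gal_le_sum_normSq (n := n) φ (comp_isIntegral h2 j hx) ((mem_supp h2).1 hj)
      _ = ∑ g : K ≃ₐ[ℚ] K, ∑ j ∈ supp K h2 x, Complex.normSq (φ (g (comp K h2 j x))) :=
        Finset.sum_comm
      _ ≤ ∑ _g : K ≃ₐ[ℚ] K, (M : ℝ) := Finset.sum_le_sum fun g _ => key g
      _ = _ := by simp [C, mul_comm]
  exact_mod_cast le_of_mul_le_mul_right h3 hC

end Field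

end Vale.Agent.P033
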