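import Vale.Agent.P033.Cyclo

/-!
If `a` is a power of `p` modulo the `p`-free part of `n`, the automorphism `ζ ↦ ζ ^ a` fixes every
ideal containing a power of `p`; hence `p ^ v ∣ σ x · conj x` when `p ^ v ∣ x · conj x`.
-/

namespace Vale.Agent.P033

open NumberField

variable {n : ℕ} [NeZero n] {K : Type*} [Field K] [NumberField K]
  [hK : IsCyclotomicExtension {n} ℚ K]

variable (K) in
/-- The automorphism `ζ ↦ ζ ^ a` on integers. -/
noncomputable def galO (a : (ZMod n)ˣ) : 𝓞 K →+* 𝓞 K :=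
  RingOfIntegers.mapRingHom (gal K a).toRingEquiv.toRingHom

lemma galO_coe (a : (ZMod n)ˣ) (x : 𝓞 K) : ((galO K a x : 𝓞 K) : K) = gal K a (x : K) := rfl

variable {p e m k : ℕ} (hp : p.Prime) (hn : n = p ^ e * m) (a : (ZMod n)ˣ)
  (ha : (a : ZMod n).val ≡ p ^ k [MOD m])

include hp hn ha in
lemma galO_sub_pow_mem (P : Ideal (𝓞 K)) [P.IsPrime] (hpP : (p : 𝓞 K) ∈ P) (x : 𝓞 K) :
    Ideal.Quotient.mk P (galO K a x) = Ideal.Quotient.mk P x ^ (p ^ k) := by
  haveI : Fact p.Prime := ⟨hp⟩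
  have hp0 : (p : 𝓞 K ⧸ P) = 0 := by
    rw [← map_natCast (Ideal.Quotient.mk P), Ideal.Quotient.eq_zero_iff_mem]; exact hpP
  haveI : CharP (𝓞 K ⧸ P) p := (CharP.charP_iff_prime_eq_zero hp).2 hp0
  have hm : m ≠ 0 := by
    rintro rfl; exact NeZero.ne n (by simpa using hn)
  suffices hall : ∃ z : 𝓞 K, (z : K) = (x : K) ∧
      Ideal.Quotient.mk P (galO K a z) = Ideal.Quotient.mk P z ^ (p ^ k) by
    obtain ⟨x', hx', h⟩ := hall
    have e : x' = x := RingOfIntegers.ext hx'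
    subst e
    exact h
  refine integral_induction (n := n) (P := fun y => ∃ z : 𝓞 K, (z : K) = y ∧
      Ideal.Quotient.mk P (galO K a z) = Ideal.Quotient.mk P z ^ (p ^ k)) x.2 ?_ ?_ ?_ ?_
  · intro j
    obtain ⟨z, hz⟩ : ∃ z : 𝓞 K, (z : K) = psi n K j := ⟨⟨_, psi_isIntegral j⟩, rfl⟩
    refine ⟨z, hz, ?_⟩
    have h1 : galO K a z = z ^ (a : ZMod n).val := by
      apply RingOfIntegers.ext
      rw [galO_coe, hz, gal_psi]
      show psi n K _ = algebraMap (𝓞 K) K (z ^ _)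
      rw [map_pow, show (algebraMap (𝓞 K) K) z = psi n K j from hz, ← AddChar.map_nsmul_eq_pow, nsmul_eq_mul, ZMod.natCast_zmod_val]
    rw [h1, map_pow]
    set w := Ideal.Quotient.mk P z
    have hw : w ^ m = 1 := by
      have hzn : z ^ n = 1 := by
        apply RingOfIntegers.ext
        simp only [map_pow, map_one]
        rw [show (algebraMap (𝓞 K) K) z = psi n K j from hz, psi_pow_eq_one]
      have h2 : (w ^ m - 1) ^ (p ^ e) = 0 := by
        rw [sub_pow_char_pow, one_pow, ← pow_mul, mul_comm, ← hn, ← map_pow, hzn, map_one, sub_self]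
      exact sub_eq_zero.1 (pow_eq_zero_iff (pow_ne_zero _ hp.ne_zero) |>.1 h2)
    rw [pow_eq_pow_mod _ hw, ha, ← pow_eq_pow_mod _ hw]
  · refine ⟨0, rfl, ?_⟩
    rw [map_zero, map_zero, zero_pow (pow_ne_zero _ hp.ne_zero)]
  · rintro b c ⟨zb, rfl, ihb⟩ ⟨zc, rfl, ihc⟩
    refine ⟨zb + zc, rfl, ?_⟩
    rw [map_add, map_add, map_add, ihb, ihc, add_pow_char_pow]
  · rintro b ⟨zb, rfl, ihb⟩
    refine ⟨0 - zb, by simp, ?_⟩
    rw [map_sub, map_sub, map_sub, map_zero, map_zero, ihb, sub_pow_char_pow,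
      zero_pow (pow_ne_zero _ hp.ne_zero)]

include hp hn ha in
lemma map_galO_of_pow_mem {v : ℕ} (I : Ideal (𝓞 K)) (hI : (p : 𝓞 K) ^ v ∈ I) :
    I.map (galO K a) = I := by
  have hne : ∀ J : Ideal (𝓞 K), (p : 𝓞 K) ^ v ∈ J → J ≠ ⊥ := by
    intro J hJ hb
    rw [hb, Submodule.mem_bot] at hJ
    exact absurd hJ (pow_ne_zero _ (by exact_mod_cast hp.ne_zero))
  have hsurj : Function.Surjective (galO K a) :=
    (RingOfIntegers.mapRingEquiv (gal K a).toRingEquiv).surjective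
  induction I using UniqueFactorizationMonoid.induction_on_prime with
  | h₁ => exact absurd rfl (hne _ hI)
  | h₂ I hu =>
    rw [Ideal.isUnit_iff] at hu
    rw [hu, Ideal.map_top]
  | h₃ I P hI0 hP ih =>
    have hPne : P ≠ ⊥ := hP.ne_zero
    haveI hPp : P.IsPrime := Ideal.isPrime_of_prime hP
    have hvP : (p : 𝓞 K) ^ v ∈ P :=
      (Ideal.mul_le_left : P * I ≤ P) hI
    have hpP : (p : 𝓞 K) ∈ P := hPp.mem_of_pow_mem v hvP
    have hvI : (p : 𝓞 K) ^ v ∈ I :=
      (Ideal.mul_le_right : P * I ≤ I) hI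
    have hle : P.map (galO K a) ≤ P := by
      rw [Ideal.map_le_iff_le_comap]
      intro x hx
      rw [Ideal.mem_comap, ← Ideal.Quotient.eq_zero_iff_mem, galO_sub_pow_mem hp hn a ha P hpP,
        Ideal.Quotient.eq_zero_iff_mem.2 hx, zero_pow (pow_ne_zero _ hp.ne_zero)]
    have hmax : P.IsMaximal := hPp.isMaximal hPne
    have hker : RingHom.ker (galO K a) ≤ P := by
      intro x hx
      rw [RingHom.mem_ker] at hx
      have : (x : K) = 0 := (gal K a).injective (by rw [map_zero, ← galO_coe, hx]; rfl)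
      rw [show x = 0 from RingOfIntegers.ext this]; exact P.zero_mem
    haveI : (P.map (galO K a)).IsPrime := Ideal.map_isPrime_of_surjective hsurj hker
    have heq : P.map (galO K a) = P := by
      refine le_antisymm hle ?_
      have hb : P.map (galO K a) ≠ ⊥ := by
        apply hne
        have := Ideal.mem_map_of_mem (galO K a) hvP
        simpa using this
      exact (Ideal.IsMaximal.eq_of_le (Ideal.IsPrime.isMaximal inferInstance hb) hmax.ne_top
        hle).ge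
    rw [Ideal.map_mul, heq, ih hvI]

include hp hn ha in
lemma dvd_galO_mul (x y : 𝓞 K) {M v : ℕ} (hxy : x * y = (M : 𝓞 K)) (hv : p ^ v ∣ M) :
    (p : 𝓞 K) ^ v ∣ galO K a x * y := by
  set J : Ideal (𝓞 K) := Ideal.span {x, (p : 𝓞 K) ^ v}
  have hxJ : x ∈ J := Ideal.subset_span (Set.mem_insert _ _)
  have hvJ : (p : 𝓞 K) ^ v ∈ J := Ideal.subset_span (Set.mem_insert_of_mem _ rfl)
  have h1 : galO K a x ∈ J := by
    have := Ideal.mem_map_of_mem (galO K a) hxJ
    rwa [map_galO_of_pow_mem hp hn a ha J hvJ] at this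
  obtain ⟨b, c, hbc⟩ := Ideal.mem_span_pair.1 h1
  rw [← hbc, add_mul, mul_assoc, hxy]
  refine dvd_add (Dvd.dvd.mul_left ?_ b) ((dvd_mul_left _ c).mul_right y)
  obtain ⟨d, rfl⟩ := hv
  push_cast
  exact dvd_mul_right _ _

end Vale.Agent.P033
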