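import Vale.Agent.P033.Decomp

/-!
The descent: an integral `x` with `x · conj x = M` lies in a single eigenspace, provided every
prime of `n` either has the order `q` automorphism in its decomposition group, or has large order
mod `q` compared to its part of `M`.
-/

namespace Vale.Agent.P033

open NumberField Finset

variable {n : ℕ} [NeZero n] {q : ℕ} [hq : Fact q.Prime] {K : Type*} [Field K] [NumberField K]
  [hK : IsCyclotomicExtension {n} ℚ K] (h2 : q ^ 2 ∣ n)

/-- An integral element as an element of the ring of integers. -/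
noncomputable def toO (x : K) (hx : IsIntegral ℤ x) : 𝓞 K := ⟨x, hx⟩

lemma toO_coe (x : K) (hx : IsIntegral ℤ x) : algebraMap (𝓞 K) K (toO x hx) = x := rfl

lemma cast_cj (M : ℕ) : cj (n := n) K (M : K) = (M : K) := map_natCast _ _

lemma mul_cj_twist (a : (ZMod n)ˣ) {x : K} {M : ℕ} (hM : x * cj (n := n) K x = (M : K)) :
    (gal K a x * cj (n := n) K x) * cj (n := n) K (gal K a x * cj (n := n) K x)
      = ((M ^ 2 : ℕ) : K) := by
  rw [map_mul, cj_gal, cj_cj]
  calc _ = gal K a (x * cj (n := n) K x) * (x * cj (n := n) K x) := by rw [map_mul]; ring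
    _ = _ := by rw [hM, map_natCast]; push_cast; ring

lemma isIntegral_twist_div (a : (ZMod n)ˣ) {p e m k v : ℕ} (hp : p.Prime) (hn : n = p ^ e * m)
    (ha : (a : ZMod n).val ≡ p ^ k [MOD m]) {x : K} (hx : IsIntegral ℤ x) {M : ℕ}
    (hM : x * cj (n := n) K x = (M : K)) (hv : p ^ v ∣ M) :
    ∃ V : K, IsIntegral ℤ V ∧ gal K a x * cj (n := n) K x = ((p ^ v : ℕ) : K) * V := by
  let x' : 𝓞 K := toO x hx
  let y' : 𝓞 K := toO (cj (n := n) K x) (gal_isIntegral _ hx)
  have hxy : x' * y' = (M : 𝓞 K) := by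
    apply RingOfIntegers.ext
    show algebraMap (𝓞 K) K _ = algebraMap (𝓞 K) K _
    rw [map_mul, map_natCast]
    exact hM
  obtain ⟨d, hd⟩ := dvd_galO_mul hp hn a ha x' y' hxy hv
  refine ⟨(d : K), d.2, ?_⟩
  have := congrArg (algebraMap (𝓞 K) K) hd
  simp only [map_mul, map_pow, map_natCast] at this
  rw [Nat.cast_pow]
  exact this

/-- Several primes at once. -/
lemma isIntegral_twist_div_prod (a : (ZMod n)ˣ) (s : Finset ℕ) {x : K} (hx : IsIntegral ℤ x)
    {M : ℕ} (hM : x * cj (n := n) K x = (M : K))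
    (hs : ∀ p ∈ s, p.Prime ∧ ∃ e m k, n = p ^ e * m ∧ (a : ZMod n).val ≡ p ^ k [MOD m]) :
    ∃ V : K, IsIntegral ℤ V ∧
      gal K a x * cj (n := n) K x = ((∏ p ∈ s, p ^ M.factorization p : ℕ) : K) * V := by
  have key : (∏ p ∈ s, ((p ^ M.factorization p : ℕ) : 𝓞 K)) ∣
      (galO K a (toO x hx) * toO (cj (n := n) K x) (gal_isIntegral _ hx)) := by
    refine Finset.prod_dvd_of_coprime ?_ ?_
    · intro p hp p' hp' hne
      exact (Nat.Coprime.pow _ _ ((Nat.coprime_primes (hs p hp).1 (hs p' hp').1).2 hne)).cast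
    · intro p hp
      obtain ⟨hpp, e, m, k, hn, ha⟩ := hs p hp
      obtain ⟨V, hV, h⟩ := isIntegral_twist_div a hpp hn ha hx hM (Nat.ordProj_dvd M p)
      refine ⟨toO V hV, ?_⟩
      apply RingOfIntegers.ext
      show algebraMap (𝓞 K) K _ = algebraMap (𝓞 K) K _
      rw [map_mul, map_mul, map_natCast]
      exact h
  obtain ⟨d, hd⟩ := key
  refine ⟨(d : K), d.2, ?_⟩
  have := congrArg (algebraMap (𝓞 K) K) hd
  simp only [map_mul, map_prod, map_natCast] at this
  rw [Nat.cast_prod]
  exact this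

lemma supp_nonempty {x : K} (hx : x ≠ 0) : (supp K h2 x).Nonempty := by
  by_contra h
  rw [Finset.not_nonempty_iff_eq_empty] at h
  apply hx
  rw [← sum_comp h2 x]
  refine Finset.sum_eq_zero fun j _ => ?_
  by_contra hj
  simpa [h] using (mem_supp h2).2 hj

lemma isEigen_of_card_le_one {x : K} (hx : x ≠ 0) (hc : (supp K h2 x).card ≤ 1) :
    ∃ i, IsEigen h2 i x ∧ supp K h2 x = {i} := by
  obtain ⟨i, hi⟩ := supp_nonempty h2 hx
  have h1 : supp K h2 x = {i} := by
    refine Finset.eq_singleton_iff_unique_mem.2 ⟨hi, fun j hj => ?_⟩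
    exact Finset.card_le_one.1 hc j hj i hi
  refine ⟨i, ?_, h1⟩
  have : comp K h2 i x = x := by
    conv_rhs => rw [← sum_comp h2 x]
    rw [Finset.sum_eq_single_of_mem i (Finset.mem_univ i)]
    intro j _ hj
    by_contra hne
    exact hj (by simpa [h1] using (mem_supp h2).2 hne)
  rw [← this]; exact comp_isEigen h2 i x

/-- A set of residues stable under `j ↦ c (j + i)` is a point or has at least `orderOf c`
elements. -/
lemma affine_orbit {c i : ZMod q} (S : Finset (ZMod q)) (hc : c ≠ 1) (hc0 : c ≠ 0)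
    (hS : ∀ j ∈ S, c * (j + i) ∈ S) : S.card ≤ 1 ∨ orderOf c ≤ S.card := by
  set j0 : ZMod q := c * i / (1 - c)
  have h1c : (1 : ZMod q) - c ≠ 0 := sub_ne_zero.2 hc.symm
  have hfix : c * (j0 + i) = j0 := by simp only [j0]; field_simp; ring
  by_cases h : ∃ j ∈ S, j ≠ j0
  · right
    obtain ⟨j, hj, hne⟩ := h
    have hmem : ∀ k : ℕ, j0 + c ^ k * (j - j0) ∈ S := by
      intro k
      induction k with
      | zero => simpa using hj
      | succ k ih =>
        have := hS _ ih
        have e : c * (j0 + c ^ k * (j - j0) + i) = j0 + c ^ (k + 1) * (j - j0) := by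
          linear_combination hfix
        rwa [e] at this
    calc orderOf c = (Finset.range (orderOf c)).card := (Finset.card_range _).symm
      _ ≤ S.card := Finset.card_le_card_of_injOn (fun k => j0 + c ^ k * (j - j0))
          (fun k _ => hmem k) (by
            intro a ha b hb hab
            have := mul_right_cancel₀ (sub_ne_zero.2 hne) (add_left_cancel hab)
            exact pow_injOn_Iio_orderOf (by simpa using ha) (by simpa using hb) this)
  · left
    push Not at h
    exact Finset.card_le_one.2 fun a ha b hb => (h a ha).trans (h b hb).symm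

/-- Descent through primes with small `M`-part and large order modulo `q`. -/
lemma supp_card_le_one_of_small (W : Finset ℕ) :
    ∀ (x : K) (M : ℕ), IsIntegral ℤ x → M ≠ 0 → x * cj (n := n) K x = (M : K) →
      M.primeFactors ⊆ W →
      (∀ p ∈ W, p.Prime ∧ p ≠ q ∧ M ^ 2 ^ W.card < orderOf (p : ZMod q)) →
      (supp K h2 x).card ≤ 1 := by
  induction W using Finset.induction with
  | empty =>
    intro x M hx hM0 hM hsub _
    have : M = 1 := by
      rcases Nat.primeFactors_eq_empty.1 (Finset.subset_empty.1 hsub) with h | h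
      · exact absurd h hM0
      · exact h
    exact (supp_card_le h2 hx hM).trans this.le
  | @insert p W hpW ih =>
    intro x M hx hM0 hM hsub hW
    obtain ⟨hp, hpq, hord⟩ := hW p (Finset.mem_insert_self _ _)
    rw [Finset.card_insert_of_notMem hpW] at hord
    set e := n.factorization p
    set m := n / p ^ e
    have hn : n = p ^ e * m := (Nat.ordProj_mul_ordCompl_eq_self n p).symm
    have hmne : m ≠ 0 := (Nat.ordCompl_pos p (NeZero.ne n)).ne'
    have hcop : (p ^ e).Coprime m := (Nat.coprime_ordCompl hp (NeZero.ne n)).pow_left e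
    obtain ⟨A, hA1, hA2⟩ := Nat.chineseRemainder hcop 1 p
    have hAcop : A.Coprime n := by
      rw [hn]
      refine Nat.Coprime.mul_right ?_ ?_
      · rw [Nat.Coprime, hA1.gcd_eq, Nat.gcd_one_left]
      · rw [Nat.Coprime, hA2.gcd_eq]
        exact Nat.coprime_ordCompl hp (NeZero.ne n)
    set a : (ZMod n)ˣ := ZMod.unitOfCoprime A hAcop
    have ha : (a : ZMod n).val ≡ p ^ 1 [MOD m] := by
      rw [pow_one, ZMod.coe_unitOfCoprime, ZMod.val_natCast]
      refine Nat.ModEq.trans ?_ hA2
      exact (Nat.mod_modEq A n).of_dvd (hn ▸ dvd_mul_left m _)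
    have hra : red (dvd_of_sq h2) (a : ZMod n) = (p : ZMod q) := by
      rw [ZMod.coe_unitOfCoprime, red_natCast, ZMod.natCast_eq_natCast_iff]
      refine hA2.of_dvd ?_
      have : q ∣ p ^ e * m := hn ▸ dvd_of_sq h2
      refine (Nat.Coprime.dvd_of_dvd_mul_left ?_ this)
      exact ((Nat.coprime_primes hq.out hp).2 (Ne.symm hpq)).pow_right e
    set v := M.factorization p
    set M' := M / p ^ v
    have hMe : M = p ^ v * M' := (Nat.ordProj_mul_ordCompl_eq_self M p).symm
    have hM'0 : M' ≠ 0 := (Nat.ordCompl_pos p hM0).ne'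
    obtain ⟨V, hV, hVeq⟩ := isIntegral_twist_div a hp hn ha hx hM (Nat.ordProj_dvd M p)
    have hpv : ((p ^ v : ℕ) : K) ≠ 0 := by exact_mod_cast pow_ne_zero _ hp.ne_zero
    have hVV : V * cj (n := n) K V = ((M' ^ 2 : ℕ) : K) := by
      have h := mul_cj_twist a hM
      rw [hVeq, map_mul, map_natCast] at h
      apply mul_left_cancel₀ (pow_ne_zero 2 hpv)
      calc ((p ^ v : ℕ) : K) ^ 2 * (V * cj (n := n) K V)
          = ((M ^ 2 : ℕ) : K) := by rw [← h]; ring
        _ = _ := by rw [hMe]; push_cast; ring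
    have hV0 : V ≠ 0 := by
      intro h; rw [h, zero_mul] at hVV
      exact pow_ne_zero 2 hM'0 (by exact_mod_cast hVV.symm)
    have hM1 : 1 ≤ M := Nat.one_le_iff_ne_zero.2 hM0
    have hsing : (supp K h2 V).card ≤ 1 := by
      refine ih V (M' ^ 2) hV (pow_ne_zero _ hM'0) hVV ?_ ?_
      · intro r hr
        rw [Nat.primeFactors_pow _ two_ne_zero] at hr
        have hr1 := Nat.prime_of_mem_primeFactors hr
        have hrM : r ∣ M' := Nat.dvd_of_mem_primeFactors hr
        have hrne : r ≠ p := by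
          rintro rfl; exact Nat.not_dvd_ordCompl hr1 hM0 hrM
        have : r ∈ insert p W := hsub (Nat.mem_primeFactors.2
          ⟨hr1, hrM.trans (Nat.ordCompl_dvd M p), hM0⟩)
        exact (Finset.mem_insert.1 this).resolve_left hrne
      · intro r hr
        obtain ⟨h1, h1', h3⟩ := hW r (Finset.mem_insert_of_mem hr)
        refine ⟨h1, h1', lt_of_le_of_lt ?_ h3⟩
        rw [Finset.card_insert_of_notMem hpW, ← pow_mul, pow_succ' 2 W.card]
        exact Nat.pow_le_pow_left (Nat.div_le_self _ _) _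
    obtain ⟨i, hi, -⟩ := isEigen_of_card_le_one h2 hV0 hsing
    have htw : gal K a x * (M' : K) = x * V := by
      apply mul_left_cancel₀ hpv
      calc ((p ^ v : ℕ) : K) * (gal K a x * (M' : K))
          = gal K a x * (x * cj (n := n) K x) := by rw [hM, hMe]; push_cast; ring
        _ = (gal K a x * cj (n := n) K x) * x := by ring
        _ = _ := by rw [hVeq]; ring
    have hnat : ∀ j y, comp K h2 j (y * (M' : K)) = comp K h2 j y * (M' : K) := by
      intro j y
      have he : IsEigen h2 0 (M' : K) := fun i => by simp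
      rw [comp_mul_eigen h2 he, sub_zero]
    set c : ZMod q := (p : ZMod q)
    have hc0 : c ≠ 0 := by
      intro h
      exact hpq ((Nat.prime_dvd_prime_iff_eq hq.out hp).1 ((ZMod.natCast_eq_zero_iff p q).1 h)).symm
    have hord1 : 1 < orderOf c := by
      calc 1 = 1 ^ 2 ^ (W.card + 1) := (one_pow _).symm
        _ ≤ M ^ 2 ^ (W.card + 1) := Nat.pow_le_pow_left hM1 _
        _ < _ := hord
    have hc1 : c⁻¹ ≠ 1 := by
      intro h
      rw [inv_eq_one] at h
      rw [h, orderOf_one] at hord1
      omega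
    have hS : ∀ j ∈ supp K h2 x, c⁻¹ * (j + i) ∈ supp K h2 x := by
      intro j hj
      rw [mem_supp] at hj ⊢
      intro hzero
      have h := congrArg (comp K h2 (c * (c⁻¹ * (j + i)))) htw
      rw [hnat, comp_mul_eigen h2 hi] at h
      conv_lhs at h => rw [← hra, comp_gal]
      rw [hra, hzero, map_zero, zero_mul, mul_inv_cancel_left₀ hc0, add_sub_cancel_right] at h
      exact mul_ne_zero hj hV0 h.symm
    rcases affine_orbit (supp K h2 x) hc1 (inv_ne_zero hc0) hS with h | h
    · exact h
    · have hoi : orderOf c⁻¹ = orderOf c := by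
        have := orderOf_inv (Units.mk0 c hc0)
        rwa [← orderOf_units, ← orderOf_units, Units.val_inv_eq_inv_val, Units.val_mk0] at this
      rw [hoi] at h
      exfalso
      have h4 : M < orderOf c := lt_of_le_of_lt (Nat.le_self_pow (by positivity) M) hord
      have h5 := supp_card_le h2 hx hM
      omega

/-- Main descent. -/
lemma supp_card_le_one (hq2 : q ≠ 2) (W : Finset ℕ) (x : K) (M : ℕ) (hx : IsIntegral ℤ x)
    (hM0 : M ≠ 0) (hM : x * cj (n := n) K x = (M : K))
    (hgood : ∀ p ∈ M.primeFactors, p ∉ W →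
      ∃ e m k, n = p ^ e * m ∧ (tUnit h2 1 : ZMod n).val ≡ p ^ k [MOD m])
    (hbad : ∀ p ∈ W, p.Prime ∧ p ≠ q ∧
      (∏ r ∈ W, r ^ M.factorization r) ^ 2 ^ (W.card + 1) < orderOf (p : ZMod q)) :
    (supp K h2 x).card ≤ 1 := by
  set B := ∏ r ∈ W, r ^ M.factorization r
  set G := ∏ r ∈ M.primeFactors \ W, r ^ M.factorization r
  have hMGB : M = G * B := by
    have h1 : ∏ r ∈ M.primeFactors ∪ W, r ^ M.factorization r = M := by
      have hpf := Nat.prod_factorization_pow_eq_self hM0
      rw [Finsupp.prod, Nat.support_factorization] at hpf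
      conv_rhs => rw [← hpf]
      refine (Finset.prod_subset Finset.subset_union_left ?_).symm
      intro r _ hr
      rw [Finsupp.notMem_support_iff.1 (by rwa [Nat.support_factorization]), pow_zero]
    rw [← h1, ← Finset.sdiff_union_self_eq_union, Finset.prod_union Finset.sdiff_disjoint]
  obtain ⟨V, hV, hVeq⟩ := isIntegral_twist_div_prod (tUnit h2 1) (M.primeFactors \ W) hx hM
    (fun p hp => by
      rw [Finset.mem_sdiff] at hp
      exact ⟨Nat.prime_of_mem_primeFactors hp.1, hgood p hp.1 hp.2⟩)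
  have hG0 : G ≠ 0 := by rintro h; rw [h, zero_mul] at hMGB; exact hM0 hMGB
  have hB0 : B ≠ 0 := by rintro h; rw [h, mul_zero] at hMGB; exact hM0 hMGB
  have hGK : (G : K) ≠ 0 := by exact_mod_cast hG0
  have hBK : (B : K) ≠ 0 := by exact_mod_cast hB0
  have hVV : V * cj (n := n) K V = ((B ^ 2 : ℕ) : K) := by
    have h := mul_cj_twist (tUnit h2 1) hM
    rw [hVeq, map_mul, map_natCast] at h
    apply mul_left_cancel₀ (pow_ne_zero 2 hGK)
    calc (G : K) ^ 2 * (V * cj (n := n) K V) = ((M ^ 2 : ℕ) : K) := by rw [← h]; ring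
      _ = _ := by rw [hMGB]; push_cast; ring
  have hV0 : V ≠ 0 := by
    intro h; rw [h, zero_mul] at hVV
    exact pow_ne_zero 2 hB0 (by exact_mod_cast hVV.symm)
  have hsing : (supp K h2 V).card ≤ 1 := by
    refine supp_card_le_one_of_small h2 W V (B ^ 2) hV (pow_ne_zero _ hB0) hVV ?_ ?_
    · intro r hr
      rw [Nat.primeFactors_pow _ two_ne_zero] at hr
      obtain ⟨p, hp, hdvd⟩ :=
        (Prime.dvd_finsetProd_iff (Nat.prime_of_mem_primeFactors hr).prime _).1
          (Nat.dvd_of_mem_primeFactors hr)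
      have := (Nat.prime_dvd_prime_iff_eq (Nat.prime_of_mem_primeFactors hr) (hbad p hp).1).1
        ((Nat.prime_of_mem_primeFactors hr).dvd_of_dvd_pow hdvd)
      rwa [this]
    · intro p hp
      obtain ⟨h1, h1', h3⟩ := hbad p hp
      refine ⟨h1, h1', ?_⟩
      rwa [← pow_mul, ← pow_succ' 2 W.card]
  obtain ⟨i, hi, -⟩ := isEigen_of_card_le_one h2 hV0 hsing
  have htw : sig K h2 1 x * (B : K) = x * V := by
    apply mul_left_cancel₀ hGK
    calc (G : K) * (sig K h2 1 x * (B : K))
        = sig K h2 1 x * (x * cj (n := n) K x) := by rw [hM, hMGB]; push_cast; ring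
      _ = (gal K (tUnit h2 1) x * cj (n := n) K x) * x := by rw [sig]; ring
      _ = _ := by rw [hVeq]; ring
  set r : K := V / (B : K)
  have hr1 : sig K h2 1 x = x * r := by
    simp only [r]; field_simp; linear_combination htw
  have hrs : ∀ k : ℕ, sig K h2 (k : ZMod q) r = chi K (dvd_of_sq h2) ((k : ZMod q) * i) * r := by
    intro k
    simp only [r, map_div₀, map_natCast, hi (k : ZMod q)]
    ring
  have hiter : ∀ k : ℕ, sig K h2 (k : ZMod q) x
      = x * r ^ k * chi K (dvd_of_sq h2) (((k.choose 2 : ℕ) : ZMod q) * i) := by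
    intro k
    induction k with
    | zero =>
      simp [show sig K h2 (0 : ZMod q) x = x by
        have h1 : tUnit h2 0 = 1 := by ext; simp [tUnit]
        rw [sig, h1, gal_one]]
    | succ k ih =>
      rw [Nat.cast_succ, sig_add, hr1, map_mul, ih, hrs, Nat.choose_succ_succ', Nat.choose_one_right]
      push_cast
      rw [add_mul, AddChar.map_add_eq_mul, pow_succ]
      ring
  have hx0 : x ≠ 0 := by
    intro h; rw [h, zero_mul] at hM; exact hM0 (by exact_mod_cast hM.symm)
  have hrq : r ^ q = 1 := by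
    have h := hiter q
    have hch : ((q.choose 2 : ℕ) : ZMod q) = 0 := by
      rw [ZMod.natCast_eq_zero_iff]
      exact hq.out.dvd_choose_self two_ne_zero (lt_of_le_of_ne hq.out.two_le (Ne.symm hq2))
    rw [hch, zero_mul, AddChar.map_zero_eq_one, mul_one, ZMod.natCast_self] at h
    have h0 : sig K h2 (0 : ZMod q) x = x := by
      have h1 : tUnit h2 0 = 1 := by ext; simp [tUnit]
      rw [sig, h1, gal_one]
    rw [h0] at h
    exact mul_left_cancel₀ hx0 (h.symm.trans (mul_one x).symm)
  obtain ⟨t, -, ht⟩ := (chi_isPrimitiveRoot (K := K) (dvd_of_sq h2)).eq_pow_of_pow_eq_one hrq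
  rw [← AddChar.map_nsmul_eq_pow, nsmul_one] at ht
  refine Finset.card_le_one.2 fun j hj l hl => ?_
  have hall : ∀ j ∈ supp K h2 x, j = (t : ZMod q) := by
    intro j hj
    have h1 := congrArg (comp K h2 j) hr1
    have heig : IsEigen h2 0 r := by
      intro k; rw [← ht, sig_chi]; simp
    rw [comp_mul_eigen h2 heig, sub_zero] at h1
    have hred : red (dvd_of_sq h2) ((tUnit h2 1 : (ZMod n)ˣ) : ZMod n) = 1 := by
      show red (dvd_of_sq h2) (1 + iota (dvd_of_sq h2) 1) = 1
      obtain ⟨c, hc⟩ := h2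
      rw [map_add, map_one, show (1 : ZMod q) = ((1 : ℕ) : ZMod q) by simp, iota_natCast,
        red_natCast]
      have : n / q = q * c := by
        rw [hc, show q ^ 2 * c = q * (q * c) by ring, Nat.mul_div_cancel_left _ hq.out.pos]
      rw [this]; simp
    have h4 := comp_gal h2 (tUnit h2 1) j x
    rw [hred, one_mul] at h4
    have h5 := comp_isEigen h2 j x 1
    rw [one_mul] at h5
    rw [show sig K h2 1 x = gal K (tUnit h2 1) x from rfl, h4,
      show gal K (tUnit h2 1) (comp K h2 j x) = sig K h2 1 (comp K h2 j x) from rfl, h5,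
      mul_comm _ r] at h1
    have h6 := mul_right_cancel₀ ((mem_supp h2).1 hj) h1
    rw [← ht] at h6
    exact ((chi_isPrimitiveRoot (K := K) (dvd_of_sq h2)).pow_inj (ZMod.val_lt j)
      (ZMod.val_lt (t : ZMod q)) (by
        rw [← AddChar.map_nsmul_eq_pow, ← AddChar.map_nsmul_eq_pow, nsmul_one, nsmul_one,
          ZMod.natCast_zmod_val, ZMod.natCast_zmod_val]
        exact h6) |> fun h => ZMod.val_injective q h)
  rw [hall j hj, hall l hl]

end Vale.Agent.P033
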