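import Vale.Agent.P033.Bridge

/-!
For fixed `m`, orders `4 (m q ^ b) ^ 2` occur only for boundedly many primes `q`.
-/

namespace Vale.Agent.P033

open Finset

/-- The bound beyond which `q` is excluded. -/
def primeBound (m : ℕ) : ℕ :=
  4 * m ^ 2 + 1 + (4 * m ^ 2) ^ ((4 * m ^ 2) ^ 2 ^ (4 * m ^ 2 + 2))

lemma no_order_large_prime {m q b : ℕ} (hm : 1 ≤ m) (hq : q.Prime) (hqB : primeBound m < q)
    (hb : 1 ≤ b) : ¬ HasCHM (4 * (m * q ^ b) ^ 2) := by
  intro hH
  haveI : Fact q.Prime := ⟨hq⟩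
  obtain ⟨R, hR⟩ : ∃ R, R = 4 * m ^ 2 := ⟨_, rfl⟩
  rw [primeBound, ← hR] at hqB
  have hR4 : 4 ≤ R := by rw [hR]; nlinarith
  have hRq : R + 1 < q := by omega
  have hq2 : q ≠ 2 := by omega
  obtain ⟨j, hj⟩ : ∃ j, 2 * b = j + 1 := ⟨2 * b - 1, by omega⟩
  have hj1 : 1 ≤ j := by omega
  set n := 4 * (m * q ^ b) ^ 2 with hn
  have hn' : n = q ^ (j + 1) * R := by rw [hn, hR, ← hj]; ring
  have hqne : q ^ (j + 1) ≠ 0 := pow_ne_zero _ hq.ne_zero
  haveI : NeZero n := ⟨by rw [hn']; exact mul_ne_zero hqne (by omega)⟩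
  obtain ⟨h, hh⟩ := hH.isCH
  have hqR : ¬ q ∣ R := fun h => by have := Nat.le_of_dvd (by omega) h; omega
  have hcop : (q ^ (j + 1)).Coprime R := (hq.coprime_iff_not_dvd.2 hqR).pow_left _
  have h2 : q ^ 2 ∣ n := by
    rw [hn']; exact (pow_dvd_pow q (by omega)).mul_right R
  have hnq : n / q = q ^ j * R := by
    rw [hn', show q ^ (j + 1) * R = q * (q ^ j * R) by ring, Nat.mul_div_cancel_left _ hq.pos]
  have hval : (tUnit h2 1 : ZMod n).val = (1 + q ^ j * R) % n := by
    show (1 + iota (dvd_of_sq h2) 1).val = _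
    rw [show (1 : ZMod q) = ((1 : ℕ) : ZMod q) by simp, iota_natCast, mul_one,
      ← Nat.cast_one (R := ZMod n), ← Nat.cast_add, ZMod.val_natCast, hnq]
  set W := R.primeFactors
  refine criterion hq2 h2 W ?_ ?_ ?_ h hh
  · rw [hn', Nat.totient_mul hcop, Nat.totient_prime_pow_succ hq j]
    have hphi : 1 ≤ R.totient := Nat.totient_pos.2 (by omega)
    calc q ^ (j + 1) * R < q ^ (j + 1) * ((q - 1) * R.totient) :=
          Nat.mul_lt_mul_of_pos_left (by nlinarith [show R < q - 1 by omega]) (Nat.pos_of_ne_zero hqne)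
      _ = _ := by ring
  · intro p hp hpW
    have hp' := Nat.prime_of_mem_primeFactors hp
    by_cases hpq : p = q
    · subst hpq
      refine ⟨j + 1, R, 0, hn', ?_⟩
      rw [hval, pow_zero]
      refine ((Nat.mod_modEq _ n).of_dvd ⟨p ^ (j + 1), by rw [hn']; ring⟩).trans ?_
      simpa using ((dvd_mul_left R (p ^ j)).modEq_zero_nat.add_left 1)
    · refine absurd (Nat.mem_primeFactors.2 ⟨hp', ?_, by omega⟩) hpW
      rcases hp'.dvd_mul.1 (hn' ▸ Nat.dvd_of_mem_primeFactors hp) with h | h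
      · exact absurd ((Nat.prime_dvd_prime_iff_eq hp' hq).1 (hp'.dvd_of_dvd_pow h)) hpq
      · exact h
  · intro p hp
    have hp1 : p ∈ R.primeFactors := hp
    have hpp := Nat.prime_of_mem_primeFactors hp1
    have hpR : p ≤ R := Nat.le_of_mem_primeFactors hp1
    refine ⟨hpp, by omega, ?_⟩
    obtain ⟨e, he⟩ : ∃ e, e = R ^ 2 ^ (R + 2) := ⟨_, rfl⟩
    rw [← he] at hqB
    have hWc : W.card + 1 ≤ R + 2 := by
      have h1 : W.card ≤ (Finset.Icc 1 R).card := Finset.card_le_card fun r hr => by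
        have h : r ∈ R.primeFactors := hr
        exact Finset.mem_Icc.2
          ⟨(Nat.prime_of_mem_primeFactors h).one_lt.le, Nat.le_of_mem_primeFactors h⟩
      simp at h1; omega
    have hprod : ∏ r ∈ W, r ^ n.factorization r ≤ R := by
      calc ∏ r ∈ W, r ^ n.factorization r = ∏ r ∈ W, r ^ R.factorization r := by
            refine Finset.prod_congr rfl fun r hr => ?_
            have h : r ∈ R.primeFactors := hr
            have hrq : q ≠ r := fun h' => hqR (h' ▸ Nat.dvd_of_mem_primeFactors h)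
            rw [hn', Nat.factorization_mul hqne (by omega), Finsupp.add_apply,
              Nat.Prime.factorization_pow hq, Finsupp.single_apply, if_neg hrq, zero_add]
        _ ≤ ∏ r ∈ R.primeFactors, r ^ R.factorization r := le_rfl
        _ = R := by
            have hpf := Nat.prod_factorization_pow_eq_self (n := R) (by omega)
            rwa [Finsupp.prod, Nat.support_factorization] at hpf
    have hB : (∏ r ∈ W, r ^ n.factorization r) ^ 2 ^ (W.card + 1) ≤ e := by
      rw [he]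
      exact (Nat.pow_le_pow_left hprod _).trans
        (Nat.pow_le_pow_right (by omega) (Nat.pow_le_pow_right (by norm_num) hWc))
    refine lt_of_le_of_lt hB ?_
    by_contra hle
    push Not at hle
    -- `p ^ f` is `1` modulo `q ^ (j + 1)`, hence exceeds `q`.
    set f := orderOf (p : ZMod q)
    have hqp : ¬ q ∣ p := fun h => by have := Nat.le_of_dvd hpp.pos h; omega
    have hp0 : (p : ZMod q) ≠ 0 := by rwa [Ne, ZMod.natCast_eq_zero_iff]
    obtain ⟨d, hd⟩ : f ∣ q - 1 := orderOf_dvd_of_pow_eq_one (ZMod.pow_card_sub_one_eq_one hp0)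
    have hf0 : 1 ≤ f := by
      rcases Nat.eq_zero_or_pos f with h | h
      · rw [h, zero_mul] at hd; omega
      · exact h
    have h1 : q ∣ p ^ f - 1 := by
      rw [← ZMod.natCast_eq_zero_iff, Nat.cast_sub (Nat.one_le_pow _ _ hpp.pos), Nat.cast_pow,
        show (p : ZMod q) ^ f = 1 from pow_orderOf_eq_one _]
      simp
    have hpow : q ≤ p ^ f - 1 :=
      Nat.le_of_dvd (Nat.sub_pos_of_lt (Nat.one_lt_pow (by omega) hpp.one_lt)) h1
    have : p ^ f ≤ R ^ e :=
      (Nat.pow_le_pow_left hpR f).trans (Nat.pow_le_pow_right (by omega) hle)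
    omega

end Vale.Agent.P033
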