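import Vale.Agent.P033.Criterion

/-!
The criterion in elementary terms, for orders `4 u ^ 2`.
-/

namespace Vale.Agent.P033

open Finset

lemma prod_le_card_succ_mul (s : Finset ℕ) (hs : ∀ p ∈ s, 2 ≤ p) :
    ∏ p ∈ s, p ≤ (s.card + 1) * ∏ p ∈ s, (p - 1) := by
  induction s using Finset.induction_on_max with
  | empty => simp
  | insert a s hlt ih =>
    have hns : a ∉ s := fun h => lt_irrefl _ (hlt a h)
    have ha : 2 ≤ a := hs a (mem_insert_self _ _)
    have hsub : s ⊆ Finset.Ico 2 a := fun x hx =>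
      Finset.mem_Ico.2 ⟨hs x (mem_insert_of_mem hx), hlt x hx⟩
    have hc : s.card + 2 ≤ a := by
      have := Finset.card_le_card hsub
      rw [Nat.card_Ico] at this
      omega
    rw [prod_insert hns, prod_insert hns, card_insert_of_notMem hns]
    calc a * ∏ p ∈ s, p ≤ a * ((s.card + 1) * ∏ p ∈ s, (p - 1)) :=
          Nat.mul_le_mul_left a (ih fun p hp => hs p (mem_insert_of_mem hp))
      _ = (a * (s.card + 1)) * ∏ p ∈ s, (p - 1) := by ring
      _ ≤ ((s.card + 1 + 1) * (a - 1)) * ∏ p ∈ s, (p - 1) := by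
          refine Nat.mul_le_mul_right _ ?_
          obtain ⟨b, rfl⟩ : ∃ b, a = b + 1 := ⟨a - 1, by omega⟩
          rw [Nat.add_sub_cancel]
          ring_nf
          omega
      _ = _ := by ring

lemma le_succ_card_mul_totient {n : ℕ} (hn : n ≠ 0) :
    n ≤ (n.primeFactors.card + 1) * n.totient := by
  have h := Nat.totient_mul_prod_primeFactors n
  have hpos : 0 < ∏ p ∈ n.primeFactors, (p - 1) :=
    Finset.prod_pos fun p hp => by have := (Nat.prime_of_mem_primeFactors hp).two_le; omega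
  refine Nat.le_of_mul_le_mul_right ?_ hpos
  calc n * ∏ p ∈ n.primeFactors, (p - 1) = n.totient * ∏ p ∈ n.primeFactors, p := h.symm
    _ ≤ n.totient * ((n.primeFactors.card + 1) * ∏ p ∈ n.primeFactors, (p - 1)) :=
        Nat.mul_le_mul_left _ (prod_le_card_succ_mul _ fun p hp =>
          (Nat.prime_of_mem_primeFactors hp).two_le)
    _ = _ := by ring

lemma not_dvd_totient {q : ℕ} (hq : q.Prime) : ∀ {R : ℕ}, R ≠ 0 → ¬ q ∣ R →
    (∀ r, r.Prime → r ∣ R → ¬ q ∣ r - 1) → ¬ q ∣ R.totient := by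
  intro R hR hqR hr
  rw [Nat.totient_eq_prod_factorization hR, Finsupp.prod, Nat.support_factorization]
  intro h
  obtain ⟨r, hrmem, hd⟩ := (Prime.dvd_finsetProd_iff hq.prime _).1 h
  rcases hq.dvd_mul.1 hd with h1 | h1
  · have := (Nat.prime_dvd_prime_iff_eq hq (Nat.prime_of_mem_primeFactors hrmem)).1
      (hq.dvd_of_dvd_pow h1)
    exact hqR (this ▸ Nat.dvd_of_mem_primeFactors hrmem)
  · exact hr r (Nat.prime_of_mem_primeFactors hrmem) (Nat.dvd_of_mem_primeFactors hrmem) h1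

lemma one_add_mul_pow {A : Type*} [CommRing A] {x : A} (hx : x * x = 0) :
    ∀ d : ℕ, (1 + x) ^ d = 1 + (d : A) * x
  | 0 => by simp
  | d + 1 => by
    rw [pow_succ, one_add_mul_pow hx d]
    push_cast
    linear_combination (d : A) * hx

/-- A non-Wieferich base hits every residue `≡ 1 (mod q)` of `q ^ 2`, keeping `≡ 1` modulo `m`. -/
lemma exists_pow_modEq {p q m R : ℕ} (hq : q.Prime) (hpq : ¬ q ∣ p) (hpm : p.Coprime m)
    (hqm : q.Coprime m) (hphi : ¬ q ∣ m.totient) (hw : p ^ (q - 1) % q ^ 2 ≠ 1) (hm : m ∣ R) :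
    ∃ k, 1 + q * R ≡ p ^ k [MOD q ^ 2 * m] := by
  haveI : Fact q.Prime := ⟨hq⟩
  have hp1 : p ^ (q - 1) ≡ 1 [MOD q] := by
    have := Nat.ModEq.pow_totient ((hq.coprime_iff_not_dvd.2 hpq).symm)
    rwa [Nat.totient_prime hq] at this
  set y := p ^ ((q - 1) * m.totient)
  have hym : y ≡ 1 [MOD m] := by
    simp only [y]
    rw [mul_comm (q - 1), pow_mul]
    simpa using (Nat.ModEq.pow_totient hpm).pow (q - 1)
  obtain ⟨c, hc⟩ := (Nat.modEq_iff_dvd' (Nat.one_le_iff_ne_zero.2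
    (pow_ne_zero _ (fun h : p = 0 => hpq (h ▸ dvd_zero q))))).1 hp1.symm
  have hp' : p ^ (q - 1) = 1 + q * c := by
    have : 1 ≤ p ^ (q - 1) := Nat.one_le_iff_ne_zero.2
      (pow_ne_zero _ (fun h : p = 0 => hpq (h ▸ dvd_zero q)))
    omega
  have hqc : ¬ q ∣ c := by
    rintro ⟨d, rfl⟩
    apply hw
    rw [hp', ← mul_assoc, ← sq, Nat.add_mul_mod_self_left]
    exact Nat.one_mod_eq_one.2 (by nlinarith [hq.two_le])
  have hqq : ((q * c : ℕ) : ZMod (q ^ 2)) * ((q * c : ℕ) : ZMod (q ^ 2)) = 0 := by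
    rw [← Nat.cast_mul, ZMod.natCast_eq_zero_iff]
    exact ⟨c * c, by ring⟩
  have hcu : (c : ZMod q) * (m.totient : ZMod q) ≠ 0 := by
    apply mul_ne_zero
    · rwa [Ne, ZMod.natCast_eq_zero_iff]
    · rwa [Ne, ZMod.natCast_eq_zero_iff]
  set l : ZMod q := (R : ZMod q) / ((c : ZMod q) * (m.totient : ZMod q))
  refine ⟨(q - 1) * m.totient * l.val, ?_⟩
  rw [pow_mul]
  rw [← Nat.modEq_and_modEq_iff_modEq_mul (Nat.Coprime.pow_left 2 hqm)]
  constructor
  · rw [← ZMod.natCast_eq_natCast_iff]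
    simp only [y, pow_mul, Nat.cast_pow, Nat.cast_add, Nat.cast_one, hp']
    rw [one_add_mul_pow hqq, one_add_mul_pow (x := ((m.totient : ℕ) : ZMod (q ^ 2)) * _)
      (by linear_combination ((m.totient : ℕ) : ZMod (q ^ 2)) ^ 2 * hqq)]
    have key : (R : ZMod q) = ((m.totient * l.val * c : ℕ) : ZMod q) := by
      push_cast
      rw [ZMod.natCast_zmod_val]
      linear_combination -(div_mul_cancel₀ (R : ZMod q) hcu)
      
    have key2 : q * R ≡ q * (m.totient * l.val * c) [MOD q ^ 2] := by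
      rw [sq]
      exact Nat.ModEq.mul_left' q ((ZMod.natCast_eq_natCast_iff _ _ _).1 key)
    have key3 := (ZMod.natCast_eq_natCast_iff _ _ _).2 key2
    push_cast at key3 ⊢
    linear_combination key3
  · refine Nat.ModEq.trans ?_ (by simpa using (hym.pow l.val).symm)
    have : q * R ≡ 0 [MOD m] := (hm.mul_left q).modEq_zero_nat
    simpa using this.add_left 1

/-- No circulant Hadamard sequence of order `n = 4 u ^ 2` under the local conditions at `q`. -/
theorem not_isCH_of_local {u q n : ℕ} [NeZero n] (hn : n = 4 * u ^ 2) (hq : q.Prime) (hq2 : q ≠ 2)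
    (hqu : q ∣ u) (hqu2 : ¬ q ^ 2 ∣ u) (hr : ∀ r, r.Prime → r ∣ u → ¬ q ∣ r - 1)
    (hsize : n.primeFactors.card + 1 < q)
    (hbad : ∀ p ∈ n.primeFactors, p ^ (q - 1) % q ^ 2 = 1 →
      (∏ r ∈ n.primeFactors.filter (fun p => p ^ (q - 1) % q ^ 2 = 1), r ^ n.factorization r)
        ^ 2 ^ ((n.primeFactors.filter (fun p => p ^ (q - 1) % q ^ 2 = 1)).card + 1)
        < orderOf (p : ZMod q))
    (h : ZMod n → ℤ) : ¬ IsCH n h := by
  haveI : Fact q.Prime := ⟨hq⟩
  obtain ⟨v, rfl⟩ := hqu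
  have hn' : n = q ^ 2 * (4 * v ^ 2) := by rw [hn]; ring
  set R := 4 * v ^ 2
  have hR0 : R ≠ 0 := fun h => NeZero.ne n (by rw [hn', h, mul_zero])
  have hq4 : ¬ q ∣ 4 := fun h =>
    hq2 ((Nat.prime_dvd_prime_iff_eq hq Nat.prime_two).1 (hq.dvd_of_dvd_pow (n := 2) h))
  have hqR : ¬ q ∣ R := by
    intro h
    rcases hq.dvd_mul.1 h with h | h
    · exact hq4 h
    · exact hqu2 (by rw [sq]; exact Nat.mul_dvd_mul_left q (hq.dvd_of_dvd_pow h))
  have h2 : q ^ 2 ∣ n := ⟨R, hn'⟩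
  have hval : (tUnit h2 1 : ZMod n).val = (1 + q * R) % n := by
    show (1 + iota (dvd_of_sq h2) 1).val = _
    rw [show (1 : ZMod q) = ((1 : ℕ) : ZMod q) by simp, iota_natCast, mul_one,
      ← Nat.cast_one (R := ZMod n), ← Nat.cast_add, ZMod.val_natCast]
    congr 2
    rw [hn', show q ^ 2 * R = q * (q * R) by ring, Nat.mul_div_cancel_left _ hq.pos]
  refine criterion hq2 h2 (n.primeFactors.filter (fun p => p ^ (q - 1) % q ^ 2 = 1)) ?_ ?_ ?_ h
  · calc n ≤ (n.primeFactors.card + 1) * n.totient := le_succ_card_mul_totient (NeZero.ne n)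
      _ < q * n.totient :=
          Nat.mul_lt_mul_of_pos_right hsize (Nat.totient_pos.2 (NeZero.pos n))
  · intro p hp hpW
    have hp' := Nat.prime_of_mem_primeFactors hp
    have hw : p ^ (q - 1) % q ^ 2 ≠ 1 := fun h => hpW (Finset.mem_filter.2 ⟨hp, h⟩)
    by_cases hpq : p = q
    · subst hpq
      refine ⟨2, R, 0, hn', ?_⟩
      rw [hval, pow_zero]
      refine ((Nat.mod_modEq _ n).of_dvd ⟨p ^ 2, by rw [hn']; ring⟩).trans ?_
      simpa using ((dvd_mul_left R p).modEq_zero_nat.add_left 1)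
    · set e := R.factorization p
      set m := R / p ^ e
      have hRe : R = p ^ e * m := (Nat.ordProj_mul_ordCompl_eq_self R p).symm
      have hmR : m ∣ R := Nat.ordCompl_dvd R p
      have hm0 : m ≠ 0 := (Nat.ordCompl_pos p hR0).ne'
      obtain ⟨k, hk⟩ := exists_pow_modEq (R := R) hq
        (fun h => hpq ((Nat.prime_dvd_prime_iff_eq hq hp').1 h).symm)
        (Nat.coprime_ordCompl hp' hR0)
        (hq.coprime_iff_not_dvd.2 fun h => hqR (h.trans hmR))
        (not_dvd_totient hq hm0 (fun h => hqR (h.trans hmR)) (by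
          intro r hr' hrm hd
          rcases (Nat.Prime.dvd_mul hr').1 (hrm.trans hmR) with h | h
          · have h2r := (Nat.prime_dvd_prime_iff_eq hr' Nat.prime_two).1
              (hr'.dvd_of_dvd_pow (n := 2) h)
            subst h2r
            exact hq.not_dvd_one (by simpa using hd)
          · exact hr r hr' ((hr'.dvd_of_dvd_pow h).mul_left q) hd)) hw hmR
      refine ⟨e, q ^ 2 * m, k, by rw [hn', hRe]; ring, ?_⟩
      rw [hval]
      exact ((Nat.mod_modEq _ n).of_dvd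
        (by rw [hn']; exact Nat.mul_dvd_mul_left _ hmR)).trans hk
  · intro p hp
    obtain ⟨hp1, hp2⟩ := Finset.mem_filter.1 hp
    refine ⟨Nat.prime_of_mem_primeFactors hp1, ?_, hbad p hp1 hp2⟩
    rintro rfl
    have h2q := hq.two_le
    by_cases h3 : p - 1 < 2
    · omega
    · have : p ^ 2 ∣ p ^ (p - 1) := pow_dvd_pow p (by omega)
      rw [Nat.mod_eq_zero_of_dvd this] at hp2
      exact zero_ne_one hp2

end Vale.Agent.P033
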