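import Mathlib

/-!
Elementary bounds for sums of reciprocals of primes, and for the reciprocals of the bases `p` with
`p ^ (q - 1) ≡ 1 (mod q ^ 2)`.
-/

namespace Vale.Agent.P033

open Finset

/-- The primes in `[2 ^ i, 2 ^ (i + 1))`. -/
def blk (i : ℕ) : Finset ℕ := (Finset.Ico (2 ^ i) (2 ^ (i + 1))).filter Nat.Prime

lemma mem_blk {i p : ℕ} : p ∈ blk i ↔ (2 ^ i ≤ p ∧ p < 2 ^ (i + 1)) ∧ p.Prime := by
  simp [blk]

lemma mem_blk_log {p : ℕ} (hp : p.Prime) : p ∈ blk (Nat.log 2 p) :=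
  mem_blk.2 ⟨⟨Nat.pow_log_le_self 2 hp.ne_zero, Nat.lt_pow_succ_log_self (by norm_num) p⟩, hp⟩

lemma blk_card (i : ℕ) : i * (blk i).card ≤ 2 ^ (i + 2) := by
  have h1 : (2 ^ i) ^ (blk i).card ≤ ∏ p ∈ blk i, p :=
    Finset.pow_card_le_prod _ _ _ fun p hp => (mem_blk.1 hp).1.1
  have h2 : ∏ p ∈ blk i, p ≤ primorial (2 ^ (i + 1)) := by
    refine Finset.prod_le_prod_of_subset_of_one_le' ?_ ?_
    · intro p hp
      obtain ⟨⟨-, h⟩, hpp⟩ := mem_blk.1 hp
      exact Finset.mem_filter.2 ⟨Finset.mem_range.2 (by omega), hpp⟩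
    · intro p hp _
      exact (Finset.mem_filter.1 hp).2.one_lt.le
  have h3 := (h1.trans h2).trans (primorial_le_four_pow _)
  rw [← pow_mul, show (4 : ℕ) = 2 ^ 2 by norm_num, ← pow_mul] at h3
  have h4 := (Nat.pow_le_pow_iff_right (by norm_num : 1 < 2)).1 h3
  calc i * (blk i).card ≤ 2 * 2 ^ (i + 1) := h4
    _ = 2 ^ (i + 2) := by ring

lemma sum_blk_le (i : ℕ) (hi : 1 ≤ i) : ∑ p ∈ blk i, (1 : ℝ) / p ≤ 4 / i := by
  have hi0 : (0 : ℝ) < i := by exact_mod_cast hi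
  calc ∑ p ∈ blk i, (1 : ℝ) / p ≤ ∑ _p ∈ blk i, (1 : ℝ) / 2 ^ i := by
        refine Finset.sum_le_sum fun p hp => ?_
        have : ((2 : ℝ) ^ i) ≤ p := by exact_mod_cast (mem_blk.1 hp).1.1
        gcongr
    _ = (blk i).card / (2 : ℝ) ^ i := by simp [div_eq_mul_inv]
    _ ≤ 4 / i := by
        rw [div_le_div_iff₀ (by positivity) hi0]
        have : ((i * (blk i).card : ℕ) : ℝ) ≤ ((2 ^ (i + 2) : ℕ) : ℝ) := by
          exact_mod_cast blk_card i
        push_cast at this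
        rw [pow_add] at this
        nlinarith

lemma sum_le_sum_blk (s : Finset ℕ) (I : Finset ℕ) (hs : ∀ p ∈ s, p.Prime)
    (hI : ∀ p ∈ s, Nat.log 2 p ∈ I) :
    ∑ p ∈ s, (1 : ℝ) / p ≤ ∑ i ∈ I, ∑ p ∈ blk i ∩ s, (1 : ℝ) / p := by
  rw [← Finset.sum_fiberwise_of_maps_to hI (fun p => (1 : ℝ) / p)]
  refine Finset.sum_le_sum fun i _ => ?_
  refine Finset.sum_le_sum_of_subset_of_nonneg (fun p hp => ?_) (fun p _ _ => by positivity)
  obtain ⟨hp1, hp2⟩ := Finset.mem_filter.1 hp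
  exact Finset.mem_inter.2 ⟨hp2 ▸ mem_blk_log (hs p hp1), hp1⟩

lemma sum_blk_inter_le (s : Finset ℕ) (i : ℕ) (hi : 1 ≤ i) :
    ∑ p ∈ blk i ∩ s, (1 : ℝ) / p ≤ 4 / i :=
  (Finset.sum_le_sum_of_subset_of_nonneg Finset.inter_subset_left
    (fun p _ _ => by positivity)).trans (sum_blk_le i hi)

lemma sum_primes_le (s : Finset ℕ) (I : ℕ) (hs : ∀ p ∈ s, p.Prime) (hI : ∀ p ∈ s, p < 2 ^ I) :
    ∑ p ∈ s, (1 : ℝ) / p ≤ 4 * (1 + Real.log I) := by
  have hmem : ∀ p ∈ s, Nat.log 2 p ∈ Finset.Icc 1 I := by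
    intro p hp
    refine Finset.mem_Icc.2 ⟨Nat.log_pos (by norm_num) (hs p hp).two_le, ?_⟩
    exact (Nat.log_lt_of_lt_pow (hs p hp).ne_zero (hI p hp)).le
  refine (sum_le_sum_blk s _ hs hmem).trans ?_
  refine (Finset.sum_le_sum (g := fun i : ℕ => 4 / (i : ℝ)) fun i hi =>
    sum_blk_inter_le s i (Finset.mem_Icc.1 hi).1).trans ?_
  have h := harmonic_le_one_add_log I
  rw [harmonic_eq_sum_Icc, Rat.cast_sum] at h
  simp only [Rat.cast_inv, Rat.cast_natCast] at h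
  simp only [div_eq_mul_inv, ← Finset.mul_sum]
  linarith

lemma sum_primes_ge (x : ℕ) (hx : 1 ≤ x) :
    Real.log (Real.log (x + 1 : ℕ)) - 1 ≤
      ∑ p ∈ (Finset.Icc 1 x).filter Nat.Prime, (1 : ℝ) / p := by
  set s := (Finset.Icc 1 x).filter Nat.Prime
  have hs : ∀ p ∈ s, p.Prime := fun p hp => (Finset.mem_filter.1 hp).2
  let f : ℕ →* ℝ :=
    { toFun := fun n => (n : ℝ)⁻¹
      map_one' := by simp
      map_mul' := fun a b => by simp [mul_comm] }
  have hnorm : ∀ {p : ℕ}, p.Prime → ‖f p‖ < 1 := by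
    intro p hp
    show ‖((p : ℝ))⁻¹‖ < 1
    rw [norm_inv, Real.norm_natCast]
    exact inv_lt_one_of_one_lt₀ (by exact_mod_cast hp.one_lt)
  obtain ⟨hsum, htot⟩ :=
    EulerProduct.summable_and_hasSum_factoredNumbers_prod_filter_prime_geometric hnorm s
  rw [show s.filter Nat.Prime = s from Finset.filter_true_of_mem hs] at htot
  have hmem : ∀ n ∈ Finset.Icc 1 x, n ∈ Nat.factoredNumbers s := by
    intro n hn
    obtain ⟨h1, h2⟩ := Finset.mem_Icc.1 hn
    refine Nat.mem_factoredNumbers_iff_primeFactors_subset.2 ⟨by omega, fun p hp => ?_⟩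
    have hpp := Nat.prime_of_mem_primeFactors hp
    exact Finset.mem_filter.2 ⟨Finset.mem_Icc.2
      ⟨hpp.one_lt.le, (Nat.le_of_mem_primeFactors hp).trans h2⟩, hpp⟩
  have hH : (harmonic x : ℝ) ≤ ∏ p ∈ s, (1 - f p)⁻¹ := by
    rw [harmonic_eq_sum_Icc, Rat.cast_sum]
    simp only [Rat.cast_inv, Rat.cast_natCast]
    rw [← htot.tsum_eq, ← Finset.sum_subtype_of_mem (fun n : ℕ => ((n : ℝ))⁻¹) hmem]
    exact htot.summable.sum_le_tsum _ fun i _ => by
      show (0 : ℝ) ≤ ((i : ℕ) : ℝ)⁻¹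
      positivity
  have hlpos : 0 < Real.log (x + 1 : ℕ) := Real.log_pos (by exact_mod_cast (by omega : 1 < x + 1))
  have hppos : ∀ p ∈ s, (0 : ℝ) < (1 - f p)⁻¹ := by
    intro p hp
    have : f p < 1 := lt_of_le_of_lt (le_abs_self _) (hnorm (hs p hp))
    exact inv_pos.2 (by linarith)
  have h1 := Real.log_le_log hlpos ((log_add_one_le_harmonic x).trans hH)
  rw [Real.log_prod (fun p hp => (hppos p hp).ne')] at h1
  have h2 : ∀ p ∈ s, Real.log ((1 - f p)⁻¹) ≤ 1 / (p : ℝ) + 1 / ((p : ℝ) * (p - 1)) := by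
    intro p hp
    refine (Real.log_le_sub_one_of_pos (hppos p hp)).trans (le_of_eq ?_)
    have : (1 : ℝ) < p := by exact_mod_cast (hs p hp).one_lt
    show (1 - ((p : ℝ))⁻¹)⁻¹ - 1 = _
    have : (p : ℝ) - 1 ≠ 0 := by linarith
    field_simp
    ring
  have h3 : ∑ p ∈ s, 1 / ((p : ℝ) * (p - 1)) ≤ 1 := by
    have hind : ∀ m : ℕ, 1 ≤ m → ∑ k ∈ Finset.Ioc 1 m, 1 / ((k : ℝ) * (k - 1)) = 1 - 1 / m := by
      intro m hm
      induction m, hm using Nat.le_induction with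
      | base => simp
      | succ m hm ih =>
        rw [Finset.sum_Ioc_succ_top hm, ih]
        have : (m : ℝ) ≠ 0 := by exact_mod_cast (by omega : m ≠ 0)
        push_cast
        rw [add_sub_cancel_right]
        field_simp
        ring
    calc ∑ p ∈ s, 1 / ((p : ℝ) * (p - 1)) ≤ ∑ k ∈ Finset.Ioc 1 x, 1 / ((k : ℝ) * (k - 1)) := by
          refine Finset.sum_le_sum_of_subset_of_nonneg ?_ ?_
          · intro p hp
            exact Finset.mem_Ioc.2
              ⟨(hs p hp).one_lt, (Finset.mem_Icc.1 (Finset.mem_filter.1 hp).1).2⟩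
          · intro k hk _
            have : (1 : ℝ) < k := by exact_mod_cast (Finset.mem_Ioc.1 hk).1
            have : (0 : ℝ) < k - 1 := by linarith
            positivity
      _ ≤ 1 := by
          rw [hind x hx]
          linarith [show (0 : ℝ) ≤ 1 / (x : ℝ) by positivity]
  have h4 := Finset.sum_le_sum h2
  rw [Finset.sum_add_distrib] at h4
  linarith

/-- The residues `r < q ^ 2` with `r ^ (q - 1) ≡ 1`. -/
def residues (q : ℕ) : Finset ℕ :=
  (Finset.range (q ^ 2)).filter fun r => r ^ (q - 1) % q ^ 2 = 1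

lemma residues_card {q : ℕ} (hq : q.Prime) (hq2 : q ≠ 2) : (residues q).card ≤ q - 1 := by
  have hq1 : 0 < q - 1 := by have := hq.two_le; omega
  haveI : NeZero (q ^ 2) := ⟨pow_ne_zero _ hq.ne_zero⟩
  haveI : IsCyclic (ZMod (q ^ 2))ˣ := ZMod.isCyclic_units_of_prime_pow q hq hq2 2
  classical
  refine le_trans ?_ (IsCyclic.card_pow_eq_one_le (α := (ZMod (q ^ 2))ˣ) hq1)
  let g : ℕ → (ZMod (q ^ 2))ˣ := fun r =>
    if h : r.Coprime (q ^ 2) then ZMod.unitOfCoprime r h else 1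
  have hcop : ∀ r ∈ residues q, r.Coprime (q ^ 2) := by
    intro r hr
    obtain ⟨-, h⟩ := Finset.mem_filter.1 hr
    refine Nat.Coprime.pow_right 2 ((hq.coprime_iff_not_dvd.2 ?_).symm)
    rintro ⟨c, rfl⟩
    have : q ∣ (q * c) ^ (q - 1) := (dvd_mul_right q c).trans (dvd_pow_self _ hq1.ne')
    have h2 : q ∣ (q * c) ^ (q - 1) % q ^ 2 :=
      (Nat.dvd_mod_iff (dvd_pow_self q two_ne_zero)).2 this
    rw [h] at h2
    exact hq.not_dvd_one h2
  refine Finset.card_le_card_of_injOn g ?_ ?_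
  · intro r hr
    obtain ⟨-, h⟩ := Finset.mem_filter.1 hr
    refine Finset.mem_filter.2 ⟨Finset.mem_univ _, ?_⟩
    show g r ^ (q - 1) = 1
    simp only [g]
    rw [dif_pos (hcop r hr)]
    ext
    rw [Units.val_pow_eq_pow_val, ZMod.coe_unitOfCoprime, ← Nat.cast_pow, ← ZMod.natCast_mod, h]
    simp
  · intro a ha b hb hab
    simp only [g] at hab
    rw [dif_pos (hcop a ha), dif_pos (hcop b hb)] at hab
    have h1 := congrArg (fun u : (ZMod (q ^ 2))ˣ => (u : ZMod (q ^ 2))) hab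
    simp only [ZMod.coe_unitOfCoprime, ZMod.natCast_eq_natCast_iff'] at h1
    rwa [Nat.mod_eq_of_lt (Finset.mem_range.1 (Finset.mem_filter.1 ha).1),
      Nat.mod_eq_of_lt (Finset.mem_range.1 (Finset.mem_filter.1 hb).1)] at h1

lemma wieferich_block {q i k : ℕ} (hq : q.Prime) (hq2 : q ≠ 2) (s : Finset ℕ)
    (hs : ∀ p ∈ s, p.Prime ∧ p < 2 ^ (i + 1) ∧ p ^ (q - 1) % q ^ 2 = 1) (hk : 1 ≤ k)
    (hk2 : 2 ^ (k * (i + 1)) ≤ q ^ 2) : (s.card + 1 - k) ^ k ≤ k ^ k * q := by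
  have h1 : s.card.choose k ≤ q - 1 := by
    rw [← Finset.card_powersetCard]
    refine le_trans ?_ (residues_card hq hq2)
    refine Finset.card_le_card_of_injOn (fun t => ∏ p ∈ t, p) ?_ ?_
    · intro t ht
      obtain ⟨hts, htc⟩ := Finset.mem_powersetCard.1 ht
      refine Finset.mem_filter.2 ⟨Finset.mem_range.2 (lt_of_lt_of_le ?_ hk2), ?_⟩
      · have hne : t.Nonempty := Finset.card_pos.1 (by omega)
        calc ∏ p ∈ t, p < ∏ _p ∈ t, 2 ^ (i + 1) :=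
              Finset.prod_lt_prod_of_nonempty (fun p hp => (hs p (hts hp)).1.pos)
                (fun p hp => (hs p (hts hp)).2.1) hne
          _ = _ := by rw [Finset.prod_const, htc, ← pow_mul, mul_comm]
      · rw [← Finset.prod_pow, Finset.prod_nat_mod,
          Finset.prod_congr rfl (fun p hp => (hs p (hts hp)).2.2), Finset.prod_const_one]
        exact Nat.one_mod_eq_one.2 (by nlinarith [hq.two_le])
    · intro a ha b hb hab
      obtain ⟨ha', -⟩ := Finset.mem_powersetCard.1 ha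
      obtain ⟨hb', -⟩ := Finset.mem_powersetCard.1 hb
      have key : ∀ c : Finset ℕ, c ⊆ s → (∏ p ∈ c, p).primeFactors = c := fun c hc =>
        Nat.primeFactors_prod fun p hp => (hs p (hc hp)).1
      rw [← key a ha', ← key b hb']
      exact congrArg Nat.primeFactors hab
  have h2 := Nat.pow_le_choose (α := ℝ) k s.card
  rw [div_le_iff₀ (by positivity)] at h2
  have h3 : (s.card + 1 - k) ^ k ≤ s.card.choose k * k.factorial := by exact_mod_cast h2
  calc (s.card + 1 - k) ^ k ≤ s.card.choose k * k.factorial := h3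
    _ ≤ q * k ^ k := Nat.mul_le_mul (h1.trans (Nat.sub_le _ _)) (Nat.factorial_le_pow k)
    _ = _ := mul_comm _ _

lemma wieferich_block_card {q i lq : ℕ} (hq : q.Prime) (hq2 : q ≠ 2) (s : Finset ℕ)
    (hs : ∀ p ∈ s, p.Prime ∧ p < 2 ^ (i + 1) ∧ p ^ (q - 1) % q ^ 2 = 1)
    (hlq : lq = Nat.log 2 q) (hi : i < lq) :
    s.card ≤ 32 * lq * 2 ^ (3 * i / 4) := by
  set k := 2 * lq / (i + 1) with hk
  have hk2 : 2 ≤ k := by rw [hk, Nat.le_div_iff_mul_le (by omega)]; omega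
  have hkle : k * (i + 1) ≤ 2 * lq := Nat.div_mul_le_self _ _
  have hkgt : 2 * lq < (k + 1) * (i + 1) := Nat.lt_mul_of_div_lt (by omega) (by omega)
  have hkl : k ≤ 2 * lq := (Nat.le_mul_of_pos_right k (by omega)).trans hkle
  have hq' : 2 ^ (k * (i + 1)) ≤ q ^ 2 := by
    calc 2 ^ (k * (i + 1)) ≤ 2 ^ (2 * lq) := Nat.pow_le_pow_right (by norm_num) hkle
      _ = (2 ^ lq) ^ 2 := by rw [← pow_mul, mul_comm]
      _ ≤ q ^ 2 := Nat.pow_le_pow_left (hlq ▸ Nat.pow_log_le_self 2 hq.ne_zero) 2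
  have h := wieferich_block hq hq2 s hs (by omega) hq'
  have hqlt : q < 2 ^ (lq + 1) := hlq ▸ Nat.lt_pow_succ_log_self (by norm_num) q
  have h4 : (s.card + 1 - k) ^ (4 * k) ≤ (k * 2 ^ (3 * i / 4 + 3)) ^ (4 * k) := by
    calc (s.card + 1 - k) ^ (4 * k) = ((s.card + 1 - k) ^ k) ^ 4 := by rw [← pow_mul]; ring_nf
      _ ≤ (k ^ k * q) ^ 4 := Nat.pow_le_pow_left h 4
      _ = k ^ (4 * k) * q ^ 4 := by ring
      _ ≤ k ^ (4 * k) * (2 ^ (lq + 1)) ^ 4 :=
          Nat.mul_le_mul_left _ (Nat.pow_le_pow_left hqlt.le 4)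
      _ ≤ k ^ (4 * k) * 2 ^ ((3 * i / 4 + 3) * (4 * k)) := by
          refine Nat.mul_le_mul_left _ ?_
          rw [← pow_mul]
          refine Nat.pow_le_pow_right (by norm_num) ?_
          have e : 3 * i + 9 ≤ 4 * (3 * i / 4 + 3) := by omega
          nlinarith
      _ = _ := by rw [mul_pow, ← pow_mul]
  have h5 := (Nat.pow_le_pow_iff_left (by omega)).1 h4
  have h6 : 1 ≤ 2 ^ (3 * i / 4) := Nat.one_le_two_pow
  rw [pow_add] at h5
  have h7 : s.card ≤ k + k * (2 ^ (3 * i / 4) * 2 ^ 3) := by omega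
  calc s.card ≤ k + k * (2 ^ (3 * i / 4) * 2 ^ 3) := h7
    _ ≤ 16 * k * 2 ^ (3 * i / 4) := by nlinarith
    _ ≤ 16 * (2 * lq) * 2 ^ (3 * i / 4) := by gcongr
    _ = _ := by ring

end Vale.Agent.P033
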