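import Vale.Agent.P033.Count

/-!
Sums needed for the power-of-logarithm saving.
-/

namespace Vale.Agent.P033

open Finset

/-- A subgroup of order `q - 1` modulo `q ^ 2` meets an interval in few primes. -/
lemma wieferich_pairs {q N : ℕ} (hq : q.Prime) (hq2 : q ≠ 2) (s : Finset ℕ)
    (hs : ∀ p ∈ s, p.Prime ∧ p < N ∧ p ^ (q - 1) % q ^ 2 = 1) :
    s.card ^ 2 ≤ 2 * (q * (N ^ 2 / q ^ 2 + 1)) := by
  set I := (s ×ˢ s).image fun a : ℕ × ℕ => a.1 * a.2
  have hfib : ∀ m ∈ I, ((s ×ˢ s).filter fun a : ℕ × ℕ => a.1 * a.2 = m).card ≤ 2 := by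
    intro m hm
    obtain ⟨⟨a, b⟩, hab, rfl⟩ := Finset.mem_image.1 hm
    obtain ⟨ha, hb⟩ := Finset.mem_product.1 hab
    refine le_trans (Finset.card_le_card (t := {(a, b), (b, a)}) ?_) (Finset.card_le_two)
    rintro ⟨c, d⟩ hcd
    obtain ⟨h1, h2⟩ := Finset.mem_filter.1 hcd
    obtain ⟨hc, hd⟩ := Finset.mem_product.1 h1
    simp only at h2
    have hcp := (hs c hc).1
    rcases hcp.dvd_mul.1 (⟨d, h2.symm⟩ : c ∣ a * b) with h | h
    · have e := (Nat.prime_dvd_prime_iff_eq hcp (hs a ha).1).1 h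
      subst e
      have : d = b := Nat.eq_of_mul_eq_mul_left hcp.pos h2
      simp [this]
    · have e := (Nat.prime_dvd_prime_iff_eq hcp (hs b hb).1).1 h
      subst e
      have : d = a := Nat.eq_of_mul_eq_mul_left hcp.pos (h2.trans (mul_comm a c))
      simp [this]
  have h1 := Finset.card_le_mul_card_image (f := fun a : ℕ × ℕ => a.1 * a.2) (s ×ˢ s) 2 hfib
  rw [Finset.card_product, ← sq] at h1
  refine h1.trans (Nat.mul_le_mul_left 2 ?_)
  have hmaps : ∀ m ∈ I, (m % q ^ 2, m / q ^ 2) ∈ residues q ×ˢ Finset.range (N ^ 2 / q ^ 2 + 1) := by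
    intro m hm
    obtain ⟨⟨a, b⟩, hab, rfl⟩ := Finset.mem_image.1 hm
    obtain ⟨ha, hb⟩ := Finset.mem_product.1 hab
    refine Finset.mem_product.2 ⟨Finset.mem_filter.2
      ⟨Finset.mem_range.2 (Nat.mod_lt _ (pow_pos hq.pos 2)), ?_⟩, Finset.mem_range.2 ?_⟩
    · rw [← Nat.pow_mod, mul_pow, Nat.mul_mod, (hs a ha).2.2, (hs b hb).2.2]
      exact Nat.one_mod_eq_one.2 (by nlinarith [hq.two_le])
    · refine Nat.lt_succ_of_le (Nat.div_le_div_right ?_)
      rw [sq]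
      exact Nat.mul_le_mul (hs a ha).2.1.le (hs b hb).2.1.le
  calc I.card ≤ (residues q ×ˢ Finset.range (N ^ 2 / q ^ 2 + 1)).card :=
        Finset.card_le_card_of_injOn (fun m => (m % q ^ 2, m / q ^ 2)) hmaps (by
          intro a _ b _ hab
          simp only [Prod.mk.injEq] at hab
          rw [← Nat.div_add_mod a (q ^ 2), ← Nat.div_add_mod b (q ^ 2), hab.1, hab.2])
    _ = (residues q).card * (N ^ 2 / q ^ 2 + 1) := by rw [Finset.card_product, Finset.card_range]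
    _ ≤ q * (N ^ 2 / q ^ 2 + 1) :=
        Nat.mul_le_mul_right _ ((residues_card hq hq2).trans (Nat.sub_le _ _))

/-- Reciprocal sum of the Wieferich bases above `2 ^ (4 * e)`. -/
lemma wieferich_sum' {q x ℓ e f : ℕ} (hq : q.Prime) (hq2 : q ≠ 2) (hxl : x < 2 ^ (ℓ + 1))
    (hqx : q ≤ x) (hf : 2 ^ (2 * f) ≤ q) (he : 1 ≤ e) (s : Finset ℕ)
    (hs : ∀ p ∈ s, p.Prime ∧ 2 ^ (4 * e) < p ∧ p ≤ x ∧ p ^ (q - 1) % q ^ 2 = 1) :
    ∑ p ∈ s, (1 : ℝ) / p ≤ (ℓ + 1 : ℝ) * (32 * (ℓ + 1 : ℝ) / 2 ^ e + 4 / 2 ^ f) := by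
  obtain ⟨lq, hlq⟩ : ∃ lq, lq = Nat.log 2 q := ⟨_, rfl⟩
  have hlql : lq ≤ ℓ := by
    have : Nat.log 2 q < ℓ + 1 := Nat.log_lt_of_lt_pow hq.ne_zero (lt_of_le_of_lt hqx hxl)
    omega
  have hmem : ∀ p ∈ s, Nat.log 2 p ∈ Finset.Icc (4 * e) ℓ := by
    intro p hp
    obtain ⟨h1, h2, h3, -⟩ := hs p hp
    refine Finset.mem_Icc.2 ⟨Nat.le_log_of_pow_le (by norm_num) h2.le, ?_⟩
    exact Nat.lt_succ_iff.1 (Nat.log_lt_of_lt_pow h1.ne_zero (lt_of_le_of_lt h3 hxl))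
  have hterm : ∀ i ∈ Finset.Icc (4 * e) ℓ,
      ∑ p ∈ blk i ∩ s, (1 : ℝ) / p ≤ 32 * (ℓ + 1 : ℝ) / 2 ^ e + 4 / 2 ^ f := by
    intro i hi
    obtain ⟨hi1, -⟩ := Finset.mem_Icc.1 hi
    have hmem' : ∀ p ∈ blk i ∩ s, p.Prime ∧ p < 2 ^ (i + 1) ∧ p ^ (q - 1) % q ^ 2 = 1 := by
      intro p hp
      obtain ⟨h1, h2⟩ := Finset.mem_inter.1 hp
      exact ⟨(mem_blk.1 h1).2, (mem_blk.1 h1).1.2, (hs p h2).2.2.2⟩
    set P := (blk i ∩ s).card
    have h1 : ∑ p ∈ blk i ∩ s, (1 : ℝ) / p ≤ (P : ℝ) / 2 ^ i := by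
      calc ∑ p ∈ blk i ∩ s, (1 : ℝ) / p ≤ ∑ _p ∈ blk i ∩ s, (1 : ℝ) / 2 ^ i :=
            Finset.sum_le_sum fun p hp => by
              have : ((2 : ℝ) ^ i) ≤ p := by
                exact_mod_cast (mem_blk.1 (Finset.mem_inter.1 hp).1).1.1
              gcongr
        _ = _ := by simp [P, div_eq_mul_inv]
    have h0a : 0 ≤ 32 * (ℓ + 1 : ℝ) / 2 ^ e := by positivity
    have h0b : (0 : ℝ) ≤ 4 / 2 ^ f := by positivity
    refine h1.trans ?_
    rcases lt_or_ge i lq with hlt | hge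
    · have hc : P * 2 ^ e ≤ 32 * (ℓ + 1) * 2 ^ i := by
        refine (Nat.mul_le_mul_right _ (wieferich_block_card hq hq2 _ hmem' hlq hlt)).trans ?_
        rw [mul_assoc, ← pow_add]
        exact Nat.mul_le_mul (Nat.mul_le_mul_left _ (by omega))
          (Nat.pow_le_pow_right (by norm_num) (by omega))
      have : (P : ℝ) / 2 ^ i ≤ 32 * (ℓ + 1 : ℝ) / 2 ^ e := by
        rw [div_le_div_iff₀ (by positivity) (by positivity)]
        exact_mod_cast hc
      linarith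
    · have hc := wieferich_pairs hq hq2 _ hmem'
      have hq' : q ≤ 2 ^ (i + 1) := by
        refine ((Nat.lt_pow_succ_log_self (by norm_num : 1 < 2) q).le).trans ?_
        exact Nat.pow_le_pow_right (by norm_num) (by omega)
      have hkey : P ^ 2 * q ≤ 16 * (2 ^ i) ^ 2 := by
        obtain ⟨Y, hY⟩ : ∃ Y, Y = (2 ^ (i + 1)) ^ 2 := ⟨_, rfl⟩
        have e1 : q ^ 2 ≤ Y := hY ▸ Nat.pow_le_pow_left hq' 2
        have e2 : q ^ 2 * (Y / q ^ 2) ≤ Y := Nat.mul_div_le _ _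
        calc P ^ 2 * q ≤ 2 * (q * (Y / q ^ 2 + 1)) * q := by
              rw [hY]; exact Nat.mul_le_mul_right _ hc
          _ = 2 * (q ^ 2 * (Y / q ^ 2)) + 2 * q ^ 2 := by ring
          _ ≤ 4 * Y := by omega
          _ = _ := by rw [hY]; ring
      have hle : (P * 2 ^ f) ^ 2 ≤ (4 * 2 ^ i) ^ 2 := by
        calc (P * 2 ^ f) ^ 2 = P ^ 2 * 2 ^ (2 * f) := by rw [mul_pow, ← pow_mul, mul_comm f 2]
          _ ≤ P ^ 2 * q := Nat.mul_le_mul_left _ hf
          _ ≤ _ := hkey.trans (le_of_eq (by ring))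
      have hle' := (Nat.pow_le_pow_iff_left two_ne_zero).1 hle
      have : (P : ℝ) / 2 ^ i ≤ 4 / 2 ^ f := by
        rw [div_le_div_iff₀ (by positivity) (by positivity)]
        exact_mod_cast hle'
      linarith
  refine (sum_le_sum_blk s _ (fun p hp => (hs p hp).1) hmem).trans ?_
  refine (Finset.sum_le_card_nsmul _ _ _ hterm).trans ?_
  rw [nsmul_eq_mul, Nat.card_Icc]
  refine mul_le_mul_of_nonneg_right ?_ (by positivity)
  exact_mod_cast (by omega : ℓ + 1 - 4 * e ≤ ℓ + 1)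

/-- Rankin's bound for the integers `≤ x` with all prime factors `≤ 2 ^ E`. -/
lemma smooth_card (x E : ℕ) (hx : 1 ≤ x) (hE : 4 ≤ E) :
    (((Finset.Icc 1 x).filter fun u => ∀ q ∈ u.primeFactors, q ≤ 2 ^ E).card : ℝ)
      ≤ x * Real.exp (-(Real.log x / (E * Real.log 2)) + 44 * (1 + Real.log (E + 1 : ℕ))) := by
  set δ : ℝ := 1 / (E * Real.log 2) with hδ
  have hl2 : (0 : ℝ) < Real.log 2 := Real.log_pos (by norm_num)
  have hE4 : (4 : ℝ) ≤ E := by exact_mod_cast hE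
  have hδ0 : 0 < δ := by rw [hδ]; positivity
  have hδ2 : δ ≤ 1 / 2 := by
    rw [hδ, div_le_div_iff₀ (by positivity) (by norm_num)]
    nlinarith [Real.log_two_gt_d9]
  set s := (Finset.Icc 1 (2 ^ E)).filter Nat.Prime with hs
  have hsp : ∀ p ∈ s, p.Prime := fun p hp => (Finset.mem_filter.1 hp).2
  let f : ℕ →* ℝ :=
    { toFun := fun n => (n : ℝ) ^ (δ - 1)
      map_one' := by simp
      map_mul' := fun a b => by
        rw [Nat.cast_mul, Real.mul_rpow (Nat.cast_nonneg a) (Nat.cast_nonneg b)] }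
  have hfpos : ∀ n : ℕ, 0 ≤ f n := fun n => Real.rpow_nonneg (Nat.cast_nonneg n) _
  have hfhalf : ∀ {p : ℕ}, p.Prime → f p ≤ 3 / 4 := by
    intro p hp
    show (p : ℝ) ^ (δ - 1) ≤ 3 / 4
    have hp2 : (2 : ℝ) ≤ p := by exact_mod_cast hp.two_le
    calc (p : ℝ) ^ (δ - 1) ≤ (p : ℝ) ^ (-(1 / 2) : ℝ) :=
          Real.rpow_le_rpow_of_exponent_le (by linarith) (by linarith)
      _ = 1 / Real.sqrt p := by
          rw [Real.rpow_neg (by linarith), ← Real.sqrt_eq_rpow, one_div]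
      _ ≤ 3 / 4 := by
          rw [div_le_iff₀ (Real.sqrt_pos.2 (by linarith))]
          nlinarith [Real.sq_sqrt (show (0 : ℝ) ≤ p by linarith), Real.sqrt_nonneg (p : ℝ)]
  have hnorm : ∀ {p : ℕ}, p.Prime → ‖f p‖ < 1 := fun {p} hp => by
    rw [Real.norm_of_nonneg (hfpos p)]; linarith [hfhalf hp]
  obtain ⟨-, htot⟩ :=
    EulerProduct.summable_and_hasSum_factoredNumbers_prod_filter_prime_geometric hnorm s
  rw [show s.filter Nat.Prime = s from Finset.filter_true_of_mem hsp] at htot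
  set U := (Finset.Icc 1 x).filter fun u => ∀ q ∈ u.primeFactors, q ≤ 2 ^ E
  have hmem : ∀ u ∈ U, u ∈ Nat.factoredNumbers s := by
    intro u hu
    obtain ⟨h1, h2⟩ := Finset.mem_filter.1 hu
    refine Nat.mem_factoredNumbers_iff_primeFactors_subset.2
      ⟨by have := (Finset.mem_Icc.1 h1).1; omega, fun p hp => ?_⟩
    have hpp := Nat.prime_of_mem_primeFactors hp
    exact Finset.mem_filter.2
      ⟨Finset.mem_Icc.2 ⟨hpp.one_lt.le, h2 p hp⟩, hpp⟩
  have hH : ∑ u ∈ U, f u ≤ ∏ p ∈ s, (1 - f p)⁻¹ := by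
    rw [← htot.tsum_eq, ← Finset.sum_subtype_of_mem (fun n : ℕ => f n) hmem]
    exact htot.summable.sum_le_tsum _ fun i _ => hfpos i
  have hprod : ∏ p ∈ s, (1 - f p)⁻¹ ≤ Real.exp (44 * (1 + Real.log (E + 1 : ℕ))) := by
    have hstep : ∀ p ∈ s, (1 - f p)⁻¹ ≤ Real.exp (11 * (1 / (p : ℝ))) := by
      intro p hp
      have hpp := hsp p hp
      have ht := hfhalf hpp
      have h1 : (1 - f p)⁻¹ ≤ Real.exp (4 * f p) := by
        refine le_trans ?_ (Real.add_one_le_exp _)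
        rw [inv_le_iff_one_le_mul₀ (by linarith)]
        nlinarith [hfpos p]
      refine h1.trans (Real.exp_le_exp.2 ?_)
      have hp0 : (0 : ℝ) < p := by exact_mod_cast hpp.pos
      have h2 : f p = (p : ℝ) ^ δ * (1 / (p : ℝ)) := by
        show (p : ℝ) ^ (δ - 1) = _
        rw [Real.rpow_sub hp0, Real.rpow_one]; ring
      have hpE : (p : ℝ) ≤ (2 : ℝ) ^ E := by
        exact_mod_cast (Finset.mem_Icc.1 (Finset.mem_filter.1 hp).1).2
      have h3 : (p : ℝ) ^ δ ≤ Real.exp 1 := by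
        rw [Real.rpow_def_of_pos hp0]
        refine Real.exp_le_exp.2 ?_
        have h := Real.log_le_log hp0 hpE
        rw [Real.log_pow] at h
        rw [hδ, mul_one_div, div_le_one (by positivity)]
        exact h
      have he : Real.exp 1 ≤ 2.7182818286 := Real.exp_one_lt_d9.le
      have h5 : 0 ≤ 1 / (p : ℝ) := by positivity
      rw [h2]
      nlinarith
    calc ∏ p ∈ s, (1 - f p)⁻¹ ≤ ∏ p ∈ s, Real.exp (11 * (1 / (p : ℝ))) :=
          Finset.prod_le_prod (fun p hp => by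
            have := hfhalf (hsp p hp); exact inv_nonneg.2 (by linarith)) hstep
      _ = Real.exp (11 * ∑ p ∈ s, (1 : ℝ) / p) := by rw [← Real.exp_sum, Finset.mul_sum]
      _ ≤ _ := by
          refine Real.exp_le_exp.2 ?_
          have := sum_primes_le s (E + 1) hsp (fun p hp => by
            have := (Finset.mem_Icc.1 (Finset.mem_filter.1 hp).1).2
            have : 0 < 2 ^ E := by positivity
            rw [pow_succ]; omega)
          linarith
  have hx0 : (0 : ℝ) < x := by exact_mod_cast hx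
  have hcard : (U.card : ℝ) ≤ (x : ℝ) ^ (1 - δ) * ∑ u ∈ U, f u := by
    rw [Finset.mul_sum]
    refine le_trans (le_of_eq (by simp : (U.card : ℝ) = ∑ _u ∈ U, (1 : ℝ))) ?_
    refine Finset.sum_le_sum fun u hu => ?_
    obtain ⟨h1, h2⟩ := Finset.mem_Icc.1 (Finset.mem_filter.1 hu).1
    have hu0 : (0 : ℝ) < u := by exact_mod_cast h1
    show (1 : ℝ) ≤ (x : ℝ) ^ (1 - δ) * (u : ℝ) ^ (δ - 1)
    rw [show δ - 1 = -(1 - δ) by ring, Real.rpow_neg hu0.le, ← div_eq_mul_inv,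
      one_le_div₀ (by positivity)]
    exact Real.rpow_le_rpow hu0.le (by exact_mod_cast h2) (by linarith)
  refine hcard.trans ((mul_le_mul_of_nonneg_left (hH.trans hprod) (by positivity)).trans
    (le_of_eq ?_))
  rw [Real.rpow_sub hx0, Real.rpow_one, Real.exp_add, Real.exp_neg, Real.rpow_def_of_pos hx0, hδ,
    mul_one_div, div_eq_mul_inv (x : ℝ)]
  ring

end Vale.Agent.P033
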