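import Vale.Agent.P033.Assembly
import Vale.Agent.P033.QuantSums

/-!
For every `A`, the orders `≤ N` number `o(√N / (log N) ^ A)`.
-/

namespace Vale.Agent.P033

open Finset

/-- Few `u` have more than `K` prime factors up to `z`: weighted count with base `c + 1`. -/
lemma small_many (x q z c K : ℕ) (hq : q.Prime) (hzq : z < q) :
    (((Finset.Icc 1 x).filter fun u => q ∣ u ∧ K < smallCount z u).card : ℝ) * ((c : ℝ) + 1) ^ K
      ≤ (x : ℝ) / q * Real.exp (c * ∑ p ∈ (Finset.Icc 1 z).filter Nat.Prime, (1 : ℝ) / p) := by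
  classical
  set U := Finset.Icc 1 x
  set Pz := (Finset.Icc 1 z).filter Nat.Prime with hPz
  set A5 := U.filter fun u => q ∣ u ∧ K < smallCount z u
  have hexp : ∀ u, ((c : ℝ) + 1) ^ smallCount z u
      = ∑ t ∈ Pz.powerset, if ∀ p ∈ t, p ∣ u then (c : ℝ) ^ t.card else 0 := by
    intro u
    have hset : (Pz.filter (· ∣ u)).powerset = Pz.powerset.filter fun t => ∀ p ∈ t, p ∣ u := by
      ext t
      simp only [Finset.mem_powerset, Finset.mem_filter, Finset.subset_iff]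
      exact ⟨fun h => ⟨fun p hp => (h hp).1, fun p hp => (h hp).2⟩,
        fun h p hp => ⟨h.1 hp, h.2 p hp⟩⟩
    rw [← Finset.sum_filter, ← hset]
    have h := Finset.prod_one_add (f := fun _ : ℕ => (c : ℝ)) (Pz.filter (· ∣ u))
    simp only [Finset.prod_const] at h
    rw [← h, add_comm]
    rfl
  calc (A5.card : ℝ) * ((c : ℝ) + 1) ^ K = ∑ _u ∈ A5, ((c : ℝ) + 1) ^ K := by simp
    _ ≤ ∑ u ∈ A5, ((c : ℝ) + 1) ^ smallCount z u :=
        Finset.sum_le_sum fun u hu =>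
          pow_le_pow_right₀ (by linarith [(Nat.cast_nonneg c : (0 : ℝ) ≤ (c : ℝ))])
            (Finset.mem_filter.1 hu).2.2.le
    _ ≤ ∑ u ∈ U.filter (fun u => q ∣ u), ((c : ℝ) + 1) ^ smallCount z u := by
        refine Finset.sum_le_sum_of_subset_of_nonneg ?_ (fun u _ _ => by positivity)
        intro u hu
        exact Finset.mem_filter.2 ⟨(Finset.mem_filter.1 hu).1, (Finset.mem_filter.1 hu).2.1⟩
    _ = ∑ t ∈ Pz.powerset,
          (c : ℝ) ^ t.card * ((U.filter fun u => q ∣ u ∧ ∀ p ∈ t, p ∣ u).card : ℝ) := by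
        simp only [hexp]
        rw [Finset.sum_comm]
        refine Finset.sum_congr rfl fun t _ => ?_
        rw [← Finset.sum_filter, Finset.filter_filter, Finset.sum_const, nsmul_eq_mul, mul_comm]
    _ ≤ ∑ t ∈ Pz.powerset, (c : ℝ) ^ t.card * ((x : ℝ) / q * ∏ p ∈ t, (1 : ℝ) / p) := by
        refine Finset.sum_le_sum fun t ht => mul_le_mul_of_nonneg_left ?_ (by positivity)
        rw [Finset.mem_powerset] at ht
        have hprime : ∀ p ∈ t, p.Prime ∧ p ≤ z := fun p hp =>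
          ⟨(Finset.mem_filter.1 (ht hp)).2, (Finset.mem_Icc.1 (Finset.mem_filter.1 (ht hp)).1).2⟩
        have hsub : U.filter (fun u => q ∣ u ∧ ∀ p ∈ t, p ∣ u)
            ⊆ U.filter (fun u => q * ∏ p ∈ t, p ∣ u) := by
          intro u hu
          obtain ⟨h1, h2, h3⟩ := Finset.mem_filter.1 hu
          refine Finset.mem_filter.2 ⟨h1, Nat.Coprime.mul_dvd_of_dvd_of_dvd ?_ h2
            (Finset.prod_primes_dvd u (fun p hp => (hprime p hp).1.prime) h3)⟩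
          refine Nat.Coprime.prod_right fun p hp => (Nat.coprime_primes hq (hprime p hp).1).2 ?_
          have := (hprime p hp).2
          omega
        refine ((Nat.cast_le (α := ℝ)).2 (Finset.card_le_card hsub)).trans
          ((card_mult_le x _).trans (le_of_eq ?_))
        rw [Finset.prod_div_distrib, Finset.prod_const_one]
        push_cast
        ring
    _ = (x : ℝ) / q * ∏ p ∈ Pz, (1 + (c : ℝ) * (1 / p)) := by
        rw [Finset.prod_one_add, Finset.mul_sum]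
        refine Finset.sum_congr rfl fun t _ => ?_
        rw [Finset.prod_mul_distrib, Finset.prod_const]
        ring
    _ ≤ _ := by
        refine mul_le_mul_of_nonneg_left ?_ (by positivity)
        rw [Finset.mul_sum, Real.exp_sum]
        refine Finset.prod_le_prod (fun p _ => by positivity) fun p _ => ?_
        linarith [Real.add_one_le_exp ((c : ℝ) * (1 / p))]

/-- For one non-exceptional `q > 2 ^ E`, multiples of `q` rarely give orders. -/
lemma per_prime' {q x ℓ E f e z w T K c : ℕ} (hq : q.Prime) (hqx : q ≤ x) (hxl : x < 2 ^ (ℓ + 1))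
    (hf : 2 ^ (2 * f) ≤ q) (he : 1 ≤ e) (hEq : 2 ^ E < q) (hz : z = 2 ^ (4 * e)) (hw : z = w ^ 2)
    (hw1 : 1 ≤ w) (hzq : z < q) (hω : 4 * x ^ 2 < 2 ^ (q - 1))
    (hT : (4 * z ^ 2) ^ ((K + 1) * 2 ^ (K + 2)) ≤ T)
    (hne : ¬ ∃ p : ℕ, p.Prime ∧ p ≤ z ∧ orderOf (p : ZMod q) ≤ T)
    (A : Finset ℕ) (hA : ∀ u ∈ A, 1 ≤ u ∧ u ≤ x ∧ q ∣ u ∧ HasCHM (4 * u ^ 2)) :
    (A.card : ℝ) ≤ (x : ℝ) / q * ((1 : ℝ) / q + (ℓ + 2 : ℝ) / q
      + (ℓ + 1 : ℝ) * (32 * (ℓ + 1 : ℝ) / 2 ^ e + 4 / 2 ^ f) + 2 / (w : ℝ)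
      + Real.exp (c * (4 * (1 + Real.log (4 * e + 1 : ℕ)))) / ((c : ℝ) + 1) ^ K) := by
  classical
  have hz2 : 2 ≤ z := by rw [hz]; exact Nat.le_self_pow (by omega) 2
  have hq2 : q ≠ 2 := by omega
  have hxq : (0 : ℝ) ≤ (x : ℝ) / q := div_nonneg (Nat.cast_nonneg x) (Nat.cast_nonneg q)
  have hlogx := log_nat_le hxl
  set U := Finset.Icc 1 x
  set R := U.filter (fun r => r.Prime ∧ q ∣ r - 1)
  set S := U.filter (fun p => p.Prime ∧ z < p ∧ p ^ (q - 1) % q ^ 2 = 1)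
  set P := (Finset.Icc 2 z).filter Nat.Prime
  set A1 := U.filter (fun u => q * q ∣ u)
  set A2 := U.filter (fun u => ∃ r ∈ R, q * r ∣ u)
  set A3 := U.filter (fun u => ∃ p ∈ S, q * p ∣ u)
  set A4 := U.filter (fun u => ∃ p ∈ P, q * p ^ (Nat.log p z + 1) ∣ u)
  set A5 := U.filter (fun u => q ∣ u ∧ K < smallCount z u)
  have hsub : A ⊆ A1 ∪ A2 ∪ A3 ∪ A4 ∪ A5 := by
    intro u hu
    obtain ⟨h1, h2, h3, h4⟩ := hA u hu
    have hU : u ∈ U := Finset.mem_Icc.2 ⟨h1, h2⟩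
    simp only [Finset.mem_union, A1, A2, A3, A4, A5, Finset.mem_filter, hU, true_and]
    rcases rare_event (by omega) h2 hq hq2 h3 h4 hz2 hω hT with
      h | h | h | ⟨p, hp, h⟩ | h | h
    · exact Or.inl (Or.inl (Or.inl (Or.inl h)))
    · exact Or.inl (Or.inl (Or.inl (Or.inr h)))
    · exact Or.inl (Or.inl (Or.inr h))
    · refine Or.inl (Or.inr ⟨p, hp, ?_⟩)
      refine ((Nat.coprime_primes hq (Finset.mem_filter.1 hp).2).2 ?_).pow_right _
        |>.mul_dvd_of_dvd_of_dvd h3 h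
      have := (Finset.mem_Icc.1 (Finset.mem_filter.1 hp).1).2
      omega
    · exact Or.inr ⟨h3, h⟩
    · exact absurd h hne
  have hmult : ∀ (s : Finset ℕ) (g : ℕ → ℕ) (B : ℝ), (∑ r ∈ s, (1 : ℝ) / (g r : ℕ)) ≤ B →
      ((U.filter fun u => ∃ r ∈ s, q * g r ∣ u).card : ℝ) ≤ (x : ℝ) / q * B := by
    intro s g B hB
    refine (card_exists_le U s (fun r u => q * g r ∣ u)).trans ?_
    refine le_trans ?_ (mul_le_mul_of_nonneg_left hB hxq)
    rw [Finset.mul_sum]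
    refine Finset.sum_le_sum fun r _ => (card_mult_le x (q * g r)).trans (le_of_eq ?_)
    push_cast; ring
  have e1 : (A1.card : ℝ) ≤ (x : ℝ) / q * ((1 : ℝ) / q) := by
    refine (card_mult_le x (q * q)).trans (le_of_eq ?_)
    push_cast; ring
  have e2 : (A2.card : ℝ) ≤ (x : ℝ) / q * ((ℓ + 2 : ℝ) / q) := by
    refine hmult R (fun r => r) _ ((sum_primes_one_mod hq.pos R fun r hr => ?_).trans
      (div_le_div_of_nonneg_right (by linarith) (Nat.cast_nonneg q)))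
    obtain ⟨h1, h2, h3⟩ := Finset.mem_filter.1 hr
    exact ⟨h2, (Finset.mem_Icc.1 h1).2, h3⟩
  have e3 : (A3.card : ℝ) ≤ (x : ℝ) / q
      * ((ℓ + 1 : ℝ) * (32 * (ℓ + 1 : ℝ) / 2 ^ e + 4 / 2 ^ f)) := by
    refine hmult S (fun r => r) _ (wieferich_sum' hq hq2 hxl hqx hf he S fun p hp => ?_)
    obtain ⟨h1, h2, h3, h4⟩ := Finset.mem_filter.1 hp
    rw [hz] at h3
    exact ⟨h2, h3, (Finset.mem_Icc.1 h1).2, h4⟩
  have e4 : (A4.card : ℝ) ≤ (x : ℝ) / q * (2 / (w : ℝ)) := by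
    refine hmult P (fun p => p ^ (Nat.log p z + 1)) _ ?_
    simp only [P, hw]
    exact sum_least_pow w hw1
  have e5 : (A5.card : ℝ) ≤ (x : ℝ) / q
      * (Real.exp (c * (4 * (1 + Real.log (4 * e + 1 : ℕ)))) / ((c : ℝ) + 1) ^ K) := by
    rw [← mul_div_assoc, le_div_iff₀ (by positivity)]
    refine (small_many x q z c K hq hzq).trans (mul_le_mul_of_nonneg_left ?_ hxq)
    refine Real.exp_le_exp.2 (mul_le_mul_of_nonneg_left ?_ (Nat.cast_nonneg c))
    refine sum_primes_le _ (4 * e + 1) (fun p hp => (Finset.mem_filter.1 hp).2) fun p hp => ?_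
    have := (Finset.mem_Icc.1 (Finset.mem_filter.1 hp).1).2
    rw [pow_succ]
    omega
  have hc : (A.card : ℝ) ≤ (A1.card : ℝ) + A2.card + A3.card + A4.card + A5.card := by
    have := (Finset.card_le_card hsub).trans ((Finset.card_union_le _ _).trans
      (Nat.add_le_add_right ((Finset.card_union_le _ _).trans (Nat.add_le_add_right
        ((Finset.card_union_le _ _).trans (Nat.add_le_add_right (Finset.card_union_le _ _) _)) _)) _))
    exact_mod_cast this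
  linarith

/-- The five rare events together have probability at most a power of `2 ^ (-λ)`. -/
lemma eta_bound (A lam ℓ e f h E q : ℕ) (hlA : A + 100 ≤ lam) (hlam : ℓ < 2 ^ (lam + 1))
    (he : e = (A + 3) * (lam + 1)) (hf : lam + 1 + (A + 1) * lam ≤ f)
    (hE : lam + 2 + (A + 1) * lam ≤ E) (hh : lam ≤ 2 * h + 1) (hqE' : (2 : ℝ) ^ E ≤ q)
    (hexp : ((4 ^ (A + 2) : ℕ) : ℝ) * (4 * (1 + Real.log (4 * ((A + 3) * (lam + 1)) + 1 : ℕ)))
      ≤ lam * Real.log 2) :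
    (1 : ℝ) / q + (ℓ + 2 : ℝ) / q
      + (ℓ + 1 : ℝ) * (32 * (ℓ + 1 : ℝ) / 2 ^ e + 4 / 2 ^ f) + 2 / ((2 ^ (2 * e) : ℕ) : ℝ)
      + Real.exp (((4 ^ (A + 2) - 1 : ℕ) : ℝ) * (4 * (1 + Real.log (4 * e + 1 : ℕ))))
        / (((4 ^ (A + 2) - 1 : ℕ) : ℝ) + 1) ^ h
      ≤ (100 + 2 ^ (A + 2)) / (2 : ℝ) ^ ((A + 1) * lam) := by
  have hD1 : (0 : ℝ) < (2 : ℝ) ^ ((A + 1) * lam) := by positivity
  have hq0 : (0 : ℝ) < q := lt_of_lt_of_le (by positivity) hqE'
  have hpowle : ∀ {i j : ℕ}, i ≤ j → (2 : ℝ) ^ i ≤ (2 : ℝ) ^ j := fun hij =>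
    pow_le_pow_right₀ (by norm_num) hij
  have hAl : (A + 3) * (lam + 1) = (A + 1) * lam + 2 * lam + A + 3 := by ring
  have hℓ1 : (ℓ + 1 : ℝ) ≤ (2 : ℝ) ^ (lam + 1) := by
    exact_mod_cast (by omega : ℓ + 1 ≤ 2 ^ (lam + 1))
  have hℓ2 : (ℓ + 2 : ℝ) ≤ (2 : ℝ) ^ (lam + 2) := by
    exact_mod_cast (by rw [pow_succ]; omega : ℓ + 2 ≤ 2 ^ (lam + 2))
  have p1 : (1 : ℝ) / q ≤ 1 / (2 : ℝ) ^ ((A + 1) * lam) :=
    one_div_le_one_div_of_le hD1 ((hpowle (by omega)).trans hqE')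
  have p2 : (ℓ + 2 : ℝ) / q ≤ 1 / (2 : ℝ) ^ ((A + 1) * lam) := by
    rw [div_le_div_iff₀ hq0 hD1, one_mul]
    calc (ℓ + 2 : ℝ) * (2 : ℝ) ^ ((A + 1) * lam)
        ≤ (2 : ℝ) ^ (lam + 2) * (2 : ℝ) ^ ((A + 1) * lam) :=
          mul_le_mul_of_nonneg_right hℓ2 hD1.le
      _ = (2 : ℝ) ^ (lam + 2 + (A + 1) * lam) := (pow_add _ _ _).symm
      _ ≤ _ := (hpowle (by omega)).trans hqE'
  have p3 : (ℓ + 1 : ℝ) * (32 * (ℓ + 1 : ℝ) / 2 ^ e + 4 / 2 ^ f)
      ≤ 36 / (2 : ℝ) ^ ((A + 1) * lam) := by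
    have i1 : (ℓ + 1 : ℝ) * (32 * (ℓ + 1 : ℝ) / 2 ^ e)
        ≤ 32 / (2 : ℝ) ^ ((A + 1) * lam) := by
      rw [← mul_div_assoc, div_le_div_iff₀ (by positivity) hD1]
      calc (ℓ + 1 : ℝ) * (32 * (ℓ + 1 : ℝ)) * (2 : ℝ) ^ ((A + 1) * lam)
          ≤ (2 : ℝ) ^ (lam + 1) * (32 * (2 : ℝ) ^ (lam + 1)) * (2 : ℝ) ^ ((A + 1) * lam) := by
            gcongr
        _ = 32 * (2 : ℝ) ^ ((lam + 1) + (lam + 1) + (A + 1) * lam) := by
            rw [pow_add, pow_add]; ring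
        _ ≤ 32 * (2 : ℝ) ^ e :=
            mul_le_mul_of_nonneg_left (hpowle (by rw [he]; nlinarith)) (by norm_num)
    have i2 : (ℓ + 1 : ℝ) * (4 / 2 ^ f) ≤ 4 / (2 : ℝ) ^ ((A + 1) * lam) := by
      rw [← mul_div_assoc, div_le_div_iff₀ (by positivity) hD1]
      calc (ℓ + 1 : ℝ) * 4 * (2 : ℝ) ^ ((A + 1) * lam)
          ≤ (2 : ℝ) ^ (lam + 1) * 4 * (2 : ℝ) ^ ((A + 1) * lam) := by gcongr
        _ = 4 * (2 : ℝ) ^ (lam + 1 + (A + 1) * lam) := by rw [pow_add]; ring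
        _ ≤ 4 * (2 : ℝ) ^ f := mul_le_mul_of_nonneg_left (hpowle (by omega)) (by norm_num)
    rw [mul_add]
    refine (add_le_add i1 i2).trans (le_of_eq ?_)
    ring
  have p4 : 2 / ((2 ^ (2 * e) : ℕ) : ℝ) ≤ 2 / (2 : ℝ) ^ ((A + 1) * lam) := by
    push_cast
    exact div_le_div_of_nonneg_left (by norm_num) hD1 (hpowle (by omega))
  have p5 : Real.exp (((4 ^ (A + 2) - 1 : ℕ) : ℝ) * (4 * (1 + Real.log (4 * e + 1 : ℕ))))
      / (((4 ^ (A + 2) - 1 : ℕ) : ℝ) + 1) ^ h ≤ 2 ^ (A + 2) / (2 : ℝ) ^ ((A + 1) * lam) := by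
    have hc1 : (((4 ^ (A + 2) - 1 : ℕ) : ℝ) + 1) = (2 : ℝ) ^ (2 * (A + 2)) := by
      rw [pow_mul]; norm_num
    have hl0 : 0 ≤ 4 * (1 + Real.log (4 * e + 1 : ℕ)) := by
      have := Real.log_natCast_nonneg (4 * e + 1); positivity
    have hx1 : Real.exp (((4 ^ (A + 2) - 1 : ℕ) : ℝ) * (4 * (1 + Real.log (4 * e + 1 : ℕ))))
        ≤ (2 : ℝ) ^ lam := by
      have h1 : ((4 ^ (A + 2) - 1 : ℕ) : ℝ) * (4 * (1 + Real.log (4 * e + 1 : ℕ)))
          ≤ lam * Real.log 2 := by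
        refine le_trans (mul_le_mul_of_nonneg_right ?_ hl0) (by rw [he]; exact hexp)
        exact_mod_cast Nat.sub_le _ _
      refine (Real.exp_le_exp.2 h1).trans (le_of_eq ?_)
      rw [Real.exp_nat_mul, Real.exp_log (by norm_num)]
    rw [hc1, ← pow_mul, div_le_div_iff₀ (by positivity) hD1]
    refine le_trans (mul_le_mul_of_nonneg_right hx1 hD1.le) ?_
    rw [← pow_add, ← pow_add]
    have : 2 * (A + 2) * h = (A + 2) * (2 * h) := by ring
    rw [this]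
    refine hpowle ?_
    have : (A + 2) * (lam - 1) ≤ (A + 2) * (2 * h) := Nat.mul_le_mul_left _ (by omega)
    obtain ⟨k, hk⟩ : ∃ k, lam = k + 1 := ⟨lam - 1, by omega⟩
    rw [hk] at this ⊢
    rw [Nat.add_sub_cancel] at this
    nlinarith
  calc _ ≤ 1 / (2 : ℝ) ^ ((A + 1) * lam) + 1 / (2 : ℝ) ^ ((A + 1) * lam)
        + 36 / (2 : ℝ) ^ ((A + 1) * lam) + 2 / (2 : ℝ) ^ ((A + 1) * lam)
        + 2 ^ (A + 2) / (2 : ℝ) ^ ((A + 1) * lam) := by
        refine add_le_add (add_le_add (add_le_add (add_le_add p1 p2) p3) p4) p5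
    _ ≤ _ := by
        rw [← add_div, ← add_div, ← add_div, ← add_div]
        exact div_le_div_of_nonneg_right (by linarith) hD1.le

/-- Bound for the set of `u ≤ x` with `λ = ⌊log₂ log₂ x⌋` large. -/
lemma orderSet_card_le_pow (A x lam : ℕ) (hlamdef : lam = Nat.log 2 (Nat.log 2 x))
    (hlA : A + 100 ≤ lam)
    (hbig : 4096 * (A + 4) ^ 2 * (lam + 1) ^ 5 ≤ 2 ^ (lam - lam / 2))
    (hexp : ((4 ^ (A + 2) : ℕ) : ℝ) * (4 * (1 + Real.log (4 * ((A + 3) * (lam + 1)) + 1 : ℕ)))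
      ≤ lam * Real.log 2) :
    ((orderSet x).card : ℝ) ≤ (12 * (100 + 2 ^ (A + 2)) + 2 : ℝ) * x / (2 : ℝ) ^ (A * lam) := by
  classical
  obtain ⟨ℓ, hℓ⟩ : ∃ ℓ, ℓ = Nat.log 2 x := ⟨_, rfl⟩
  rw [← hℓ] at hlamdef
  have hℓ0 : ℓ ≠ 0 := by
    intro h
    have : lam = 0 := by simp [hlamdef, h]
    omega
  have hlam : ℓ < 2 ^ (lam + 1) := by
    rw [hlamdef]; exact Nat.lt_pow_succ_log_self (by norm_num) ℓ
  have hℓlow : 2 ^ lam ≤ ℓ := by rw [hlamdef]; exact Nat.pow_log_le_self 2 hℓ0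
  have hxl : x < 2 ^ (ℓ + 1) := by rw [hℓ]; exact Nat.lt_pow_succ_log_self (by norm_num) x
  have hx0 : x ≠ 0 := by intro h; simp [hℓ, h] at hℓ0
  have hxlow : 2 ^ ℓ ≤ x := by rw [hℓ]; exact Nat.pow_log_le_self 2 hx0
  obtain ⟨h, hh⟩ : ∃ h, h = lam / 2 := ⟨_, rfl⟩
  obtain ⟨e, he⟩ : ∃ e, e = (A + 3) * (lam + 1) := ⟨_, rfl⟩
  obtain ⟨E, hE⟩ : ∃ E, E = ℓ / lam ^ 2 := ⟨_, rfl⟩
  obtain ⟨f, hf⟩ : ∃ f, f = E / 2 := ⟨_, rfl⟩
  obtain ⟨t, ht⟩ : ∃ t, t = E / 4 := ⟨_, rfl⟩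
  rw [← hh] at hbig
  -- `E` is huge.
  have hGE : 4096 * (A + 4) ^ 2 * (lam + 1) ^ 3 * 2 ^ h ≤ E := by
    rw [hE, Nat.le_div_iff_mul_le (pow_pos (by omega) 2)]
    calc 4096 * (A + 4) ^ 2 * (lam + 1) ^ 3 * 2 ^ h * lam ^ 2
        ≤ 4096 * (A + 4) ^ 2 * (lam + 1) ^ 3 * 2 ^ h * (lam + 1) ^ 2 :=
          Nat.mul_le_mul_left _ (Nat.pow_le_pow_left (by omega) 2)
      _ = 4096 * (A + 4) ^ 2 * (lam + 1) ^ 5 * 2 ^ h := by ring
      _ ≤ 2 ^ (lam - h) * 2 ^ h := Nat.mul_le_mul_right _ hbig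
      _ = 2 ^ lam := by rw [← pow_add]; congr 1; omega
      _ ≤ ℓ := hℓlow
  have hGE' : 4096 * ((A + 4) * (lam + 1)) ≤ E := by
    refine le_trans ?_ hGE
    calc 4096 * ((A + 4) * (lam + 1)) = 4096 * (A + 4) ^ 1 * (lam + 1) ^ 1 * 1 := by ring
      _ ≤ _ := by
          gcongr 4096 * ?_ * ?_ * ?_
          · exact Nat.pow_le_pow_right (by omega) (by omega)
          · exact Nat.pow_le_pow_right (by omega) (by omega)
          · exact Nat.one_le_two_pow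
  have hAl : (A + 4) * (lam + 1) = e + lam + 1 := by rw [he]; ring
  have hAl2 : (A + 1) * lam + 2 * lam + 3 ≤ e + lam + 1 := by rw [← hAl]; nlinarith
  have hAl3 : (A + 1) * lam = A * lam + lam := by ring
  have hbE : 4 * e ≤ E := by omega
  have hT : (4 * (2 ^ (4 * e)) ^ 2) ^ ((h + 1) * 2 ^ (h + 2)) ≤ 2 ^ t := by
    rw [show 4 * (2 ^ (4 * e)) ^ 2 = 2 ^ (8 * e + 2) by ring, ← pow_mul]
    refine Nat.pow_le_pow_right (by norm_num) ?_
    rw [ht, Nat.le_div_iff_mul_le (by norm_num)]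
    refine le_trans ?_ hGE
    calc (8 * e + 2) * ((h + 1) * 2 ^ (h + 2)) * 4 = 16 * ((8 * e + 2) * (h + 1)) * 2 ^ h := by
          rw [pow_add]; ring
      _ ≤ 16 * ((10 * ((A + 3) * (lam + 1))) * (lam + 1)) * 2 ^ h := by
          gcongr
          · rw [← he]
            have : 1 ≤ e := by rw [he]; exact Nat.one_le_iff_ne_zero.2 (by positivity)
            omega
          · omega
      _ = 160 * (A + 3) * (lam + 1) ^ 2 * 2 ^ h := by ring
      _ ≤ _ := by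
          refine Nat.mul_le_mul_right _ (Nat.mul_le_mul ?_ (Nat.pow_le_pow_right (by omega) (by omega)))
          calc 160 * (A + 3) ≤ 4096 * (A + 4) := by omega
            _ ≤ _ := Nat.mul_le_mul_left _ (Nat.le_self_pow two_ne_zero _)
  have he1 : 1 ≤ e := by rw [he]; exact Nat.one_le_iff_ne_zero.2 (by positivity)
  have hD : (0 : ℝ) < (2 : ℝ) ^ (A * lam) := by positivity
  have hD1 : (0 : ℝ) < (2 : ℝ) ^ ((A + 1) * lam) := by positivity
  have hpowle : ∀ {i j : ℕ}, i ≤ j → (2 : ℝ) ^ i ≤ (2 : ℝ) ^ j := fun hij =>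
    pow_le_pow_right₀ (by norm_num) hij
  set η : ℝ := (100 + 2 ^ (A + 2)) / (2 : ℝ) ^ ((A + 1) * lam) with hη
  have hη0 : 0 ≤ η := by positivity
  set U := Finset.Icc 1 x
  set Q := U.filter (fun q => q.Prime ∧ 2 ^ E < q)
  have hQ1 : ∀ q ∈ Q, q.Prime ∧ 2 ^ E < q ∧ q ≤ x := fun q hq => by
    obtain ⟨a, b, c⟩ := Finset.mem_filter.1 hq
    exact ⟨b, c, (Finset.mem_Icc.1 a).2⟩
  set S := orderSet x
  have hSU : ∀ u ∈ S, (1 ≤ u ∧ u ≤ x) ∧ HasCHM (4 * u ^ 2) := fun u hu => by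
    simpa [S, orderSet] using hu
  set Exc := Q.filter fun q =>
    ∃ p : ℕ, p.Prime ∧ p ≤ 2 ^ (4 * e) ∧ orderOf (p : ZMod q) ≤ 2 ^ t
  have hExc : (Exc.card : ℝ) ≤ (2 : ℝ) ^ (8 * e + 2 * t) := by
    have h1 := exceptional_card (Q := Exc) (b := 4 * e) (T := 2 ^ t)
      (fun q hq => by
        obtain ⟨h1, h2, -⟩ := hQ1 q (Finset.mem_filter.1 hq).1
        exact ⟨h1, lt_of_le_of_lt (Nat.pow_le_pow_right (by norm_num) hbE) h2⟩)
      (fun q hq => (Finset.mem_filter.1 hq).2)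
    have h2 : 2 ^ (4 * e) * 2 ^ t * (4 * e * 2 ^ t) ≤ 2 ^ (8 * e + 2 * t) := by
      calc 2 ^ (4 * e) * 2 ^ t * (4 * e * 2 ^ t) ≤ 2 ^ (4 * e) * 2 ^ t * (2 ^ (4 * e) * 2 ^ t) := by
            gcongr; exact (Nat.lt_pow_self (by norm_num)).le
        _ = _ := by ring
    exact_mod_cast h1.trans h2
  have hper : ∀ q ∈ Q, ((S.filter (fun u => q ∣ u)).card : ℝ)
      ≤ (x : ℝ) / q * η + (if q ∈ Exc then (x : ℝ) / (2 : ℝ) ^ E else 0) := by
    intro q hq
    obtain ⟨hqp, hqE, hqx⟩ := hQ1 q hq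
    have hq0 : (0 : ℝ) < q := by exact_mod_cast hqp.pos
    have hqE' : (2 : ℝ) ^ E ≤ q := by exact_mod_cast hqE.le
    have hxq : (0 : ℝ) ≤ (x : ℝ) / q := div_nonneg (Nat.cast_nonneg x) (Nat.cast_nonneg q)
    split_ifs with hexc
    · have h1 : ((S.filter (fun u => q ∣ u)).card : ℝ) ≤ (x : ℝ) / q := by
        refine le_trans ?_ (card_mult_le x q)
        refine Nat.cast_le.2 (Finset.card_le_card fun u hu => ?_)
        obtain ⟨a, c⟩ := Finset.mem_filter.1 hu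
        exact Finset.mem_filter.2 ⟨Finset.mem_Icc.2 (hSU u a).1, c⟩
      have h2 : (x : ℝ) / q ≤ (x : ℝ) / (2 : ℝ) ^ E := by gcongr
      have h3 : 0 ≤ (x : ℝ) / q * η := mul_nonneg hxq hη0
      linarith
    · rw [add_zero]
      have hzq : 2 ^ (4 * e) < q := lt_of_le_of_lt (Nat.pow_le_pow_right (by norm_num) hbE) hqE
      have hω : 4 * x ^ 2 < 2 ^ (q - 1) := by
        have h1 : 4 * x ^ 2 < 2 ^ (2 * ℓ + 4) := by
          have : x ^ 2 < (2 ^ (ℓ + 1)) ^ 2 := Nat.pow_lt_pow_left hxl two_ne_zero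
          rw [show 2 ^ (2 * ℓ + 4) = 4 * (2 ^ (ℓ + 1)) ^ 2 by ring]
          omega
        have h2 : 2 * ℓ + 5 ≤ q := by
          have h3 : 2 ^ (lam + 4) ≤ 2 ^ E := Nat.pow_le_pow_right (by norm_num) (by omega)
          rw [show 2 ^ (lam + 4) = 8 * 2 ^ (lam + 1) by ring] at h3
          omega
        exact lt_of_lt_of_le h1 (Nat.pow_le_pow_right (by norm_num) (by omega))
      refine (per_prime' (E := E) (f := f) (e := e) (z := 2 ^ (4 * e)) (w := 2 ^ (2 * e))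
        (T := 2 ^ t) (K := h) (c := 4 ^ (A + 2) - 1) hqp hqx hxl
        ((Nat.pow_le_pow_right (by norm_num) (by omega)).trans hqE.le) he1 hqE rfl
        (by rw [← pow_mul]; congr 1; ring) Nat.one_le_two_pow hzq hω hT
        (fun hh' => hexc (Finset.mem_filter.2 ⟨hq, hh'⟩)) (S.filter fun u => q ∣ u)
        fun u hu => ?_).trans ?_
      · obtain ⟨a, c⟩ := Finset.mem_filter.1 hu
        exact ⟨(hSU u a).1.1, (hSU u a).1.2, c, (hSU u a).2⟩
      · refine mul_le_mul_of_nonneg_left ?_ hxq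
        exact eta_bound A lam ℓ e f h E q hlA hlam he (by omega) (by omega) (by omega) hqE' hexp
  set Sm := U.filter fun u => ∀ q ∈ u.primeFactors, q ≤ 2 ^ E
  have hE4 : 4 ≤ E := by omega
  have hsm : (Sm.card : ℝ) ≤ (x : ℝ) / (2 : ℝ) ^ (A * lam) := by
    refine (smooth_card x E (Nat.one_le_iff_ne_zero.2 hx0) hE4).trans ?_
    rw [div_eq_mul_inv (x : ℝ)]
    refine mul_le_mul_of_nonneg_left ?_ (Nat.cast_nonneg x)
    rw [← Real.exp_log hD, ← Real.exp_neg, Real.log_pow]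
    refine Real.exp_le_exp.2 ?_
    push_cast
    have hl2 : Real.log 2 ≤ 1 := by
      have := Real.log_le_sub_one_of_pos (show (0 : ℝ) < 2 by norm_num)
      linarith
    have hl20 : (0 : ℝ) < Real.log 2 := Real.log_pos (by norm_num)
    have h1 : (lam : ℝ) ^ 2 ≤ Real.log x / (E * Real.log 2) := by
      rw [le_div_iff₀ (by positivity), ← mul_assoc]
      have h2 : (lam : ℝ) ^ 2 * E ≤ ℓ := by
        have : lam ^ 2 * E ≤ ℓ := by rw [hE]; exact Nat.mul_div_le _ _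
        exact_mod_cast this
      calc (lam : ℝ) ^ 2 * E * Real.log 2 ≤ (ℓ : ℝ) * Real.log 2 :=
            mul_le_mul_of_nonneg_right h2 hl20.le
        _ ≤ Real.log x := by
            rw [← Real.log_pow]
            exact Real.log_le_log (by positivity) (by exact_mod_cast hxlow)
    have h2 : Real.log ((E : ℝ) + 1) ≤ (lam : ℝ) + 1 := by
      have hE2 : E + 1 ≤ 2 ^ (lam + 1) := by
        have : E ≤ ℓ := by rw [hE]; exact Nat.div_le_self _ _
        omega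
      have h3 : Real.log ((E : ℝ) + 1) ≤ Real.log ((2 : ℝ) ^ (lam + 1)) :=
        Real.log_le_log (by positivity) (by exact_mod_cast hE2)
      rw [Real.log_pow] at h3
      push_cast at h3
      nlinarith
    have h4 : (A : ℝ) * lam * Real.log 2 ≤ (A : ℝ) * lam := by
      have : 0 ≤ (A : ℝ) * lam := by positivity
      nlinarith
    have h5 : (A : ℝ) + 100 ≤ lam := by exact_mod_cast hlA
    nlinarith
  have hrest : ((S \ Sm).card : ℝ) ≤ ∑ q ∈ Q, ((S.filter (fun u => q ∣ u)).card : ℝ) := by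
    have hsub : S \ Sm ⊆ Q.biUnion fun q => S.filter (fun u => q ∣ u) := by
      intro u hu
      obtain ⟨h1, h2⟩ := Finset.mem_sdiff.1 hu
      have hU : u ∈ U := Finset.mem_Icc.2 (hSU u h1).1
      obtain ⟨q, hq1, hq2⟩ : ∃ q ∈ u.primeFactors, 2 ^ E < q := by
        by_contra hc
        push Not at hc
        exact h2 (Finset.mem_filter.2 ⟨hU, hc⟩)
      refine Finset.mem_biUnion.2 ⟨q, Finset.mem_filter.2 ⟨Finset.mem_Icc.2 ⟨?_, ?_⟩, ?_, hq2⟩, ?_⟩
      · exact (Nat.prime_of_mem_primeFactors hq1).one_lt.le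
      · exact (Nat.le_of_mem_primeFactors hq1).trans (hSU u h1).1.2
      · exact Nat.prime_of_mem_primeFactors hq1
      · exact Finset.mem_filter.2 ⟨h1, Nat.dvd_of_mem_primeFactors hq1⟩
    exact_mod_cast (Finset.card_le_card hsub).trans Finset.card_biUnion_le
  have hμ : ∑ q ∈ Q, (1 : ℝ) / q ≤ 12 * (2 : ℝ) ^ lam := by
    refine (sum_primes_le Q (ℓ + 1) (fun q hq => (hQ1 q hq).1)
      (fun q hq => lt_of_le_of_lt (hQ1 q hq).2.2 hxl)).trans ?_
    have h1 := Real.log_le_sub_one_of_pos (x := ((ℓ + 1 : ℕ) : ℝ)) (by positivity)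
    have h2 : ((ℓ + 1 : ℕ) : ℝ) ≤ 2 * (2 : ℝ) ^ lam := by
      exact_mod_cast (by rw [pow_succ] at hlam; omega : ℓ + 1 ≤ 2 * 2 ^ lam)
    linarith [show (0 : ℝ) ≤ (2 : ℝ) ^ lam by positivity]
  have hsum : ∑ q ∈ Q, ((S.filter (fun u => q ∣ u)).card : ℝ)
      ≤ 12 * (100 + 2 ^ (A + 2)) * x / (2 : ℝ) ^ (A * lam) + (x : ℝ) / (2 : ℝ) ^ (A * lam) := by
    refine (Finset.sum_le_sum hper).trans ?_
    rw [Finset.sum_add_distrib]
    refine add_le_add ?_ ?_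
    · calc ∑ q ∈ Q, (x : ℝ) / q * η = (∑ q ∈ Q, (1 : ℝ) / q) * ((x : ℝ) * η) := by
            rw [Finset.sum_mul]
            exact Finset.sum_congr rfl fun q _ => by ring
        _ ≤ 12 * (2 : ℝ) ^ lam * ((x : ℝ) * η) :=
            mul_le_mul_of_nonneg_right hμ (mul_nonneg (Nat.cast_nonneg x) hη0)
        _ = _ := by
            rw [hη, hAl3, pow_add]
            field_simp
            ring
    · rw [← Finset.sum_filter, Finset.sum_const, nsmul_eq_mul,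
        show Q.filter (· ∈ Exc) = Exc from by
          ext q; simp [Exc]]
      calc (Exc.card : ℝ) * ((x : ℝ) / (2 : ℝ) ^ E)
          ≤ (2 : ℝ) ^ (8 * e + 2 * t) * ((x : ℝ) / (2 : ℝ) ^ E) :=
            mul_le_mul_of_nonneg_right hExc (by positivity)
        _ ≤ (x : ℝ) / (2 : ℝ) ^ (A * lam) := by
            rw [← mul_div_assoc, div_le_div_iff₀ (by positivity) hD, mul_right_comm, ← pow_add,
              mul_comm]
            exact mul_le_mul_of_nonneg_left (hpowle (by omega)) (Nat.cast_nonneg x)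
  have hcard : (S.card : ℝ) ≤ Sm.card + (S \ Sm).card := by
    exact_mod_cast (Finset.card_le_card (Finset.union_sdiff_self_eq_union (s := Sm) (t := S) ▸
      Finset.subset_union_right : S ⊆ Sm ∪ S \ Sm)).trans (Finset.card_union_le _ _)
  calc (S.card : ℝ) ≤ (x : ℝ) / (2 : ℝ) ^ (A * lam)
        + (12 * (100 + 2 ^ (A + 2)) * x / (2 : ℝ) ^ (A * lam) + (x : ℝ) / (2 : ℝ) ^ (A * lam)) :=
        hcard.trans (add_le_add hsm (hrest.trans hsum))
    _ = _ := by ring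

open Filter Topology in
/-- The number of orders up to `N` is `o(√N / (log N) ^ A)` for every `A`. -/
theorem orders_isLittleO_log (A : ℕ) :
    (fun N : ℕ => (({n : ℕ | 1 ≤ n ∧ n ≤ N ∧ HasCHM n}.ncard : ℕ) : ℝ))
      =o[atTop] (fun N : ℕ => Real.sqrt N / Real.log N ^ A) := by
  have hlog : Tendsto (Nat.log 2) atTop atTop := tendsto_atTop_atTop.2 fun c =>
    ⟨2 ^ c, fun n hn => Nat.le_log_of_pow_le (by norm_num) hn⟩
  have hsqrt : Tendsto Nat.sqrt atTop atTop := tendsto_atTop_atTop.2 fun c =>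
    ⟨c * c, fun n hn => Nat.le_sqrt.2 hn⟩
  have hl : Tendsto (fun N : ℕ => Nat.log 2 (Nat.log 2 N.sqrt)) atTop atTop :=
    hlog.comp (hlog.comp hsqrt)
  set B := A + 1
  have c1 : ∀ᶠ n : ℕ in atTop, B + 100 ≤ n := eventually_ge_atTop _
  have c2 : ∀ᶠ n : ℕ in atTop, 4096 * (B + 4) ^ 2 * (n + 1) ^ 5 ≤ 2 ^ (n - n / 2) := by
    have h := ((tendsto_pow_const_div_const_pow_of_one_lt 10 (by norm_num : (1 : ℝ) < 2)).const_mul
      (((4096 * (B + 4) ^ 2 * 32) ^ 2 : ℕ) : ℝ)).eventually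
      (Iio_mem_nhds (by simp : (((4096 * (B + 4) ^ 2 * 32) ^ 2 : ℕ) : ℝ) * 0 < 1))
    filter_upwards [h, eventually_ge_atTop 1] with n hn hn1
    rw [← mul_div_assoc, div_lt_one (by positivity)] at hn
    have hn' : (4096 * (B + 4) ^ 2 * 32) ^ 2 * n ^ 10 < 2 ^ n := by exact_mod_cast hn
    refine (Nat.pow_le_pow_iff_left two_ne_zero).1 ?_
    calc (4096 * (B + 4) ^ 2 * (n + 1) ^ 5) ^ 2 ≤ (4096 * (B + 4) ^ 2 * (2 * n) ^ 5) ^ 2 := by
          gcongr; omega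
      _ = (4096 * (B + 4) ^ 2 * 32) ^ 2 * n ^ 10 := by ring
      _ ≤ 2 ^ n := hn'.le
      _ ≤ _ := by rw [← pow_mul]; exact Nat.pow_le_pow_right (by norm_num) (by omega)
  have c3 : ∀ᶠ n : ℕ in atTop,
      ((4 ^ (B + 2) : ℕ) : ℝ) * (4 * (1 + Real.log (4 * ((B + 3) * (n + 1)) + 1 : ℕ)))
        ≤ n * Real.log 2 := by
    set D : ℝ := ((4 ^ (B + 2) : ℕ) : ℝ) * 4
    set M : ℕ := 8 * (B + 3) + 1
    have hl2 : (0 : ℝ) < Real.log 2 := Real.log_pos (by norm_num)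
    have h := (tendsto_natCast_atTop_atTop (R := ℝ)).eventually
      (eventually_ge_atTop ((D * (1 + 2 * Real.sqrt M) / Real.log 2) ^ 2))
    filter_upwards [h, eventually_ge_atTop 1] with n hn hn1
    set y : ℝ := ((4 * ((B + 3) * (n + 1)) + 1 : ℕ) : ℝ) with hy
    have hy0 : 0 < y := by rw [hy]; exact_mod_cast Nat.succ_pos _
    have h2 : Real.log y ≤ 2 * Real.sqrt y := by
      have h := Real.log_le_sub_one_of_pos (Real.sqrt_pos.2 hy0)
      rw [Real.log_sqrt hy0.le] at h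
      linarith [Real.sqrt_nonneg y]
    have h3 : Real.sqrt y ≤ Real.sqrt M * Real.sqrt n := by
      rw [← Real.sqrt_mul (by positivity)]
      refine Real.sqrt_le_sqrt ?_
      rw [hy]
      have e1 : (B + 3) * (n + 1) ≤ (B + 3) * (2 * n) := Nat.mul_le_mul_left _ (by omega)
      have e2 : (8 * (B + 3) + 1) * n = 4 * ((B + 3) * (2 * n)) + n := by ring
      exact_mod_cast (by simp only [M]; omega : 4 * ((B + 3) * (n + 1)) + 1 ≤ M * n)
    have h4 : 1 ≤ Real.sqrt n := Real.one_le_sqrt.2 (by exact_mod_cast hn1)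
    have h5 : D * (1 + 2 * Real.sqrt M) / Real.log 2 ≤ Real.sqrt n := Real.le_sqrt_of_sq_le hn
    rw [div_le_iff₀ hl2] at h5
    have hD0 : 0 ≤ D := by positivity
    calc ((4 ^ (B + 2) : ℕ) : ℝ) * (4 * (1 + Real.log y)) = D * (1 + Real.log y) := by ring
      _ ≤ D * (1 + 2 * (Real.sqrt M * Real.sqrt n)) :=
          mul_le_mul_of_nonneg_left (by linarith) hD0
      _ ≤ D * ((1 + 2 * Real.sqrt M) * Real.sqrt n) :=
          mul_le_mul_of_nonneg_left (by linarith) hD0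
      _ = D * (1 + 2 * Real.sqrt M) * Real.sqrt n := by ring
      _ ≤ Real.sqrt n * Real.log 2 * Real.sqrt n :=
          mul_le_mul_of_nonneg_right h5 (Real.sqrt_nonneg _)
      _ = (n : ℝ) * Real.log 2 := by
          nth_rewrite 3 [← Real.mul_self_sqrt (Nat.cast_nonneg n)]; ring
  set C : ℝ := 12 * (100 + 2 ^ (B + 2)) + 2 with hC
  have hC0 : 0 ≤ C := by positivity
  refine Asymptotics.isLittleO_iff.2 fun c hc => ?_
  have c4 : ∀ᶠ n : ℕ in atTop, C * 4 ^ A ≤ c / 2 * (2 : ℝ) ^ n := by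
    refine (tendsto_pow_atTop_atTop_of_one_lt (by norm_num : (1 : ℝ) < 2)).eventually
      (eventually_ge_atTop (C * 4 ^ A / (c / 2))) |>.mono fun n hn => ?_
    rwa [div_le_iff₀' (by linarith)] at hn
  have c5 : ∀ᶠ N : ℕ in atTop, Real.log N ^ A ≤ c / 2 * Real.sqrt N := by
    have h := ((isLittleO_log_rpow_rpow_atTop (A : ℝ) (by norm_num : (0 : ℝ) < 1 / 2)).comp_tendsto
      (tendsto_natCast_atTop_atTop (R := ℝ))).def (by linarith : 0 < c / 2)
    filter_upwards [h] with N hN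
    simp only [Function.comp_apply, Real.rpow_natCast, ← Real.sqrt_eq_rpow] at hN
    rwa [Real.norm_of_nonneg (Real.sqrt_nonneg _),
      Real.norm_of_nonneg (pow_nonneg (Real.log_natCast_nonneg N) A)] at hN
  filter_upwards [hl.eventually c1, hl.eventually c2, hl.eventually c3, hl.eventually c4, c5,
    eventually_ge_atTop 4] with N h1 h2 h3 h4 h5 hN4
  set x := N.sqrt
  obtain ⟨lam, hlam⟩ : ∃ lam, lam = Nat.log 2 (Nat.log 2 x) := ⟨_, rfl⟩
  rw [← hlam] at h1 h2 h3 h4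
  have hS := orderSet_card_le_pow B x lam hlam h1 h2 h3
  have hn := ncard_orders_le N
  have hlogpos : 0 < Real.log N := Real.log_pos (by exact_mod_cast (by omega : 1 < N))
  rw [Real.norm_of_nonneg (Nat.cast_nonneg _),
    Real.norm_of_nonneg (div_nonneg (Real.sqrt_nonneg _) (pow_nonneg hlogpos.le A))]
  have hLA : 0 < Real.log N ^ A := pow_pos hlogpos A
  have hlog4 : Real.log N ≤ 4 * (2 : ℝ) ^ lam := by
    have hℓ : Nat.log 2 x + 1 ≤ 2 ^ (lam + 1) := by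
      rw [hlam]; exact Nat.lt_pow_succ_log_self (by norm_num) _
    have hN : N < (2 ^ (Nat.log 2 x + 1)) ^ 2 := by
      have := Nat.lt_succ_sqrt N
      have h := Nat.lt_pow_succ_log_self (by norm_num : 1 < 2) x
      calc N < (x + 1) * (x + 1) := this
        _ ≤ _ := by rw [sq]; exact Nat.mul_le_mul h h
    have h7 : Real.log N ≤ Real.log (((2 : ℝ) ^ (Nat.log 2 x + 1)) ^ 2) :=
      Real.log_le_log (by exact_mod_cast (by omega : 0 < N)) (by exact_mod_cast hN.le)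
    rw [Real.log_pow, Real.log_pow] at h7
    have h8 : ((Nat.log 2 x + 1 : ℕ) : ℝ) ≤ (2 : ℝ) ^ (lam + 1) := by exact_mod_cast hℓ
    have h9 : Real.log 2 ≤ 1 := by
      have := Real.log_le_sub_one_of_pos (show (0 : ℝ) < 2 by norm_num)
      linarith
    rw [pow_succ] at h8
    push_cast at h7 h8
    nlinarith [(Real.log_pos (by norm_num : (1 : ℝ) < 2)).le,
      (Nat.cast_nonneg (Nat.log 2 x) : (0 : ℝ) ≤ _)]
  have hpow : Real.log N ^ A ≤ 4 ^ A * (2 : ℝ) ^ (A * lam) := by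
    rw [mul_comm A lam, pow_mul, ← mul_pow]
    exact pow_le_pow_left₀ hlogpos.le hlog4 A
  have hs : (x : ℝ) ≤ Real.sqrt N := Real.le_sqrt_of_sq_le (by exact_mod_cast Nat.sqrt_le' N)
  have hmain : C * x / (2 : ℝ) ^ (B * lam) * Real.log N ^ A ≤ c / 2 * Real.sqrt N := by
    calc C * x / (2 : ℝ) ^ (B * lam) * Real.log N ^ A
        ≤ C * x / (2 : ℝ) ^ (B * lam) * (4 ^ A * (2 : ℝ) ^ (A * lam)) :=
          mul_le_mul_of_nonneg_left hpow (by positivity)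
      _ = C * 4 ^ A * x / (2 : ℝ) ^ lam := by
          rw [show B * lam = A * lam + lam by simp only [B]; ring, pow_add]; field_simp
      _ ≤ c / 2 * (2 : ℝ) ^ lam * x / (2 : ℝ) ^ lam := by gcongr
      _ = c / 2 * x := by field_simp
      _ ≤ _ := mul_le_mul_of_nonneg_left hs (by linarith)
  rw [← mul_div_assoc, le_div_iff₀ hLA]
  calc _ ≤ (1 + C * x / (2 : ℝ) ^ (B * lam)) * Real.log N ^ A :=
        mul_le_mul_of_nonneg_right (hn.trans (by linarith)) hLA.le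
    _ = Real.log N ^ A + C * x / (2 : ℝ) ^ (B * lam) * Real.log N ^ A := by ring
    _ ≤ c / 2 * Real.sqrt N + c / 2 * Real.sqrt N := add_le_add h5 hmain
    _ = _ := by ring

end Vale.Agent.P033
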